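import Vale.Agent.P253Z.T2.Alg
import Vale.Agent.P253Z.VS.Loc

/-!
# P253Z, T2: the etale locus
-/

open scoped Manifold ContDiff Topology
open IsManifold Set Metric Filter
open Vale.Agent.P272.K (Cm Chart)

noncomputable section

namespace Vale.Agent.P253Z.T2

open VS

variable {n : ℕ} {M : Type} [MetricSpace M] [ChartedSpace (Cm n) M] [IsManifold 𝓘(ℂ, Cm n) 1 M]

namespace EtA

variable (a : B1a n M) {m : ℕ} {s₀ : M → ℂ} {s : Fin n → M → ℂ}
  (h₀ : IsSec n (-m) s₀) (hs : ∀ i, IsSec n (-m) (s i))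
include a h₀ hs

theorem of_chart {x : M} {e : Chart n M} (he : Hc e) (hx : x ∈ e.source) (h : s₀ x ≠ 0)
    (hb : DJ s₀ s e (e x) ≠ 0) : Et s₀ s x :=
  ⟨h, fun e' he' hx' => DJ_ne.1 (by
    rw [DJ_ch a h₀ hs he' he hx' hx h]
    exact mul_ne_zero hb (a.jac_ne e' e he' he x hx' hx))⟩

theorem jac_iff {x : M} : Jac s₀ s x ≠ 0 ↔ Et s₀ s x :=
  ⟨fun h => of_chart a h₀ hs (a.chart x) (mem_chart_source _ x) (fun h0 => h (by simp [Jac, h0]))
    (right_ne_zero_of_mul h), fun h =>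
    mul_ne_zero (pow_ne_zero _ h.1) (DJ_ne.2 (h.2 _ (a.chart x) (mem_chart_source _ x)))⟩

theorem ev_et {x : M} (h : Et s₀ s x) : ∀ᶠ y in 𝓝 x, Et s₀ s y := by
  have hx := mem_chart_source (Cm n) x
  have h1 := (Phi_an a h₀ hs (a.chart x) hx h.1).fderiv.continuousAt
  have h2 : ContinuousAt (DJ s₀ s (chartAt (Cm n) x)) (chartAt (Cm n) x x) :=
    ContinuousLinearMap.continuous_det.continuousAt.comp h1
  have h3 := (h2.comp ((chartAt (Cm n) x).continuousAt hx)).eventually_ne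
    (DJ_ne.2 (h.2 _ (a.chart x) hx))
  filter_upwards [h3, ne_nhds a h₀ h.1, (chartAt (Cm n) x).open_source.mem_nhds hx]
    with y h4 h5 h6 using of_chart a h₀ hs (a.chart x) h6 h5 h4

theorem homeo {x : M} (h : Et s₀ s x) : ∃ H : OpenPartialHomeomorph M (Cm n), x ∈ H.source ∧
    ∀ y ∈ H.source, H y = Phi s₀ s y := by
  have hx := mem_chart_source (Cm n) x
  set e := chartAt (Cm n) x with he
  have h1 : HasStrictFDerivAt (fun z => Phi s₀ s (e.symm z))
      (fderiv ℂ (fun z => Phi s₀ s (e.symm z)) (e x)) (e x) :=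
    (Phi_an a h₀ hs (a.chart x) hx h.1).hasStrictFDerivAt
  have h2 := h.2 e (a.chart x) hx
  let L : Cm n ≃L[ℂ] Cm n := ContinuousLinearEquiv.ofBijective _
    (LinearMap.ker_eq_bot.2 h2.1) (LinearMap.range_eq_top.2 h2.2)
  have h3 : HasStrictFDerivAt (fun z => Phi s₀ s (e.symm z)) (L : Cm n →L[ℂ] Cm n) (e x) := h1
  refine ⟨e.trans (h3.toOpenPartialHomeomorph _), ⟨hx, h3.mem_toOpenPartialHomeomorph_source⟩,
    fun y hy => ?_⟩
  change Phi s₀ s (e.symm (e y)) = _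
  rw [e.left_inv hy.1]

end EtA

open EtA in
theorem et (a : B1a n M) : ET n M where
  of_chart m s₀ s h₀ hs x e he hx h hb := of_chart a h₀ hs he hx h (DJ_ne.2 hb)
  dense m s₀ s hm h₀ hs hE k τ hτ h0 y := by
    obtain ⟨x, hx⟩ := hE
    have hJ := Jac_sec a hm h₀ hs
    have h1 : Jac s₀ s ≠ 0 := fun h => (jac_iff a h₀ hs).2 hx (congrFun h x)
    intro h
    refine mul_ne a hJ hτ h1 h0 (a.ident _ _ (sec_mul a hJ hτ) y ?_)
    filter_upwards [h] with w hw
    by_contra h2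
    exact hw ⟨(jac_iff a h₀ hs).1 (left_ne_zero_of_mul h2), right_ne_zero_of_mul h2⟩
  inv m s₀ s h₀ hs x hx := by
    obtain ⟨H, h1, h2⟩ := homeo a h₀ hs hx
    have h3 : ∀ᶠ z in 𝓝 (H x), z ∈ H.target ∧ Et s₀ s (H.symm z) :=
      (H.open_target.eventually_mem (H.map_source h1)).and
        ((H.tendsto_symm h1).eventually (ev_et a h₀ hs hx))
    obtain ⟨ρ, hρ, h4⟩ := Metric.eventually_nhds_iff_ball.1 h3
    rw [← h2 x h1]
    refine ⟨H.source ∩ H ⁻¹' ball (H x) ρ, ρ, H.symm, H.isOpen_inter_preimage isOpen_ball,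
      ⟨h1, mem_ball_self hρ⟩, hρ, H.continuousOn_symm.mono fun z hz => (h4 z hz).1,
      fun z hz => ?_, fun y hy => ?_⟩
    · have h5 := H.map_target (h4 z hz).1
      have h6 := H.right_inv (h4 z hz).1
      exact ⟨⟨h5, by rwa [mem_preimage, h6]⟩, by rw [← h2 _ h5, h6]⟩
    · have h5 := (h4 _ hy.2).2
      rw [H.left_inv hy.1] at h5
      rw [← h2 y hy.1]
      exact ⟨h5, hy.2, H.left_inv hy.1⟩
  cont k u v hu hv x h := ⟨ratio_cont a hu hv h, ne_nhds a hv h⟩
  le k u v hu hv x C h := by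
    have hx := mem_chart_source (Cm n) x
    set e := chartAt (Cm n) x with he
    have c1 : ∀ {t : M → ℂ}, IsSec n k t → ContinuousAt (fun y => ‖co k t e (e y)‖) x := fun ht =>
      ((ht e (a.chart x) _ (e.map_source hx)).continuousAt.comp (e.continuousAt hx)).norm
    rw [← a.co_self k u x, ← a.co_self k v x]
    by_contra h1
    have h2 := (continuousAt_const.mul (c1 hv)).eventually_lt (c1 hu) (not_le.1 h1)
    obtain ⟨y, h3, h4, h5⟩ := (h.and_eventually (h2.and (e.open_source.mem_nhds hx))).exists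
    simp only [Pi.mul_apply, co, e.left_inv h5, norm_mul] at h4
    rw [mul_left_comm] at h4
    exact absurd (mul_le_mul_of_nonneg_left h3 (norm_nonneg _)) (not_le.2 h4)

end Vale.Agent.P253Z.T2
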