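import Vale.Agent.P253Z.T2.Alg
import Vale.Agent.P253Z.VS.Loc

/-!
# P253Z, T2: statements of the analytic blocks

See notes/P253_T2An.md.
-/

open scoped Manifold ContDiff Bundle ENNReal Topology ComplexConjugate ComplexOrder
open Bundle IsManifold MeasureTheory Set Metric Filter Vale.Agent.P253.Mfd
open Vale.Agent.P272.K (Cm dz dzb cHess jacM Chart)

noncomputable section

namespace Vale.Agent.P253Z.T2

open VS (ev Jac)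

variable {n : ℕ} {M : Type} [MetricSpace M] [ChartedSpace (Cm n) M]

/-- the chart `e` is the restriction of `Φ = (s_1 / s_0, …, s_n / s_0)` -/
def PC (s₀ : M → ℂ) (s : Fin n → M → ℂ) (e : Chart n M) : Prop :=
  Hc e ∧ ∀ x ∈ e.source, s₀ x ≠ 0 ∧ e x = Phi s₀ s x

/-- `Φ` is defined and etale at `x` -/
def Eta (s₀ : M → ℂ) (s : Fin n → M → ℂ) (x : M) : Prop :=
  s₀ x ≠ 0 ∧ ∀ e : Chart n M, Hc e → x ∈ e.source →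
    Function.Bijective (fderiv ℂ (fun z => Phi s₀ s (e.symm z)) (e x))

variable (n M) in
/-- **CHJ**: a continuous inverse branch of `Φ` is the inverse of a chart -/
def CHJ : Prop :=
  ∀ (m : ℕ) (s₀ : M → ℂ) (s : Fin n → M → ℂ), 1 ≤ m → IsSec n (-m) s₀ →
    (∀ i, IsSec n (-m) (s i)) → (∀ x, Eta s₀ s x ↔ Jac s₀ s x ≠ 0) ∧
    ∀ (S : Set (Cm n)) (j : Cm n → M), IsOpen S → ContinuousOn j S →
      (∀ z ∈ S, Eta s₀ s (j z) ∧ Phi s₀ s (j z) = z) →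
      ∃ e, PC s₀ s e ∧ e.target = S ∧ ∀ z ∈ S, e.symm z = j z

variable (n M) in
/-- **PCX**: `Φ` is a chart where the Jacobian does not vanish -/
def PCX : Prop :=
  ∀ (m : ℕ) (s₀ : M → ℂ) (s : Fin n → M → ℂ), 1 ≤ m → IsSec n (-m) s₀ →
    (∀ i, IsSec n (-m) (s i)) → (∀ x, Jac s₀ s x ≠ 0 → ∃ e, PC s₀ s e ∧ x ∈ e.source) ∧
    ∀ e, PC s₀ s e → ∀ z ∈ e.target,
      co (-(m * (2 * n + 1) - 1 : ℕ)) (Jac s₀ s) e z = co (-m) s₀ e z ^ (2 * n + 1) ∧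
      co (-m) s₀ e z ≠ 0 ∧ ∀ i, co (-m) (s i) e z = co (-m) s₀ e z * z i

variable [RiemannianBundle (fun x : M => TangentSpace 𝓘(ℝ, Cm n) x)]

variable (n) in
/-- the weight `ψ` on `K^k` has nonnegative curvature -/
def Pos (k : ℤ) (ψ : M → ℝ) : Prop :=
  ∀ e : Chart n M, Hc e → ∀ z ∈ e.target, (th k ψ e z).PosSemidef

/-- the weight `log (1 + |s_0|² + ∑ |s_i|²)` -/
def kap (m : ℕ) (s₀ : M → ℂ) (s : Fin n → M → ℂ) (x : M) : ℝ :=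
  Real.log (1 + nrm n (-m) s₀ x + ∑ i, nrm n (-m) (s i) x)

/-- `w = ∑ |s_0 ds_i - s_i ds_0|²` -/
structure Wr (m : ℕ) (s₀ : M → ℂ) (s : Fin n → M → ℂ) (w : M → ℝ) : Prop where
  sm : Sm n w
  nn : ∀ x, 0 ≤ w x
  pos : Pos n (1 - 2 * m) fun x => Real.log (1 + w x)
  val : ∀ e : Chart n M, PC s₀ s e → ∀ z ∈ e.target,
    w (e.symm z) = nrm n (-m) s₀ (e.symm z) ^ 2 * ((hm e z)⁻¹).trace.re
  up : ∃ C : ℝ, ∀ (Ω : M → ℂ) (x : M) (A : ℝ), IsSec n 1 Ω →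
    (∀ y ∈ ball x 1, ‖s₀ y * Ω y ^ m‖ ≤ A ∧ ∀ i, ‖s i y * Ω y ^ m‖ ≤ A) →
    w x * nrm n 1 Ω x ^ (2 * m) ≤ C * A ^ 4
  jac : ∀ x, nrm n (-(m * (2 * n + 1) - 1 : ℕ)) (Jac s₀ s) x ≤ nrm n (-m) s₀ x * w x ^ n

variable (n M) in
/-- **LSE**: sums of positively curved weights -/
def LSE : Prop :=
  ∀ (m : ℕ) (s₀ : M → ℂ) (s : Fin n → M → ℂ), IsSec n (-m) s₀ → (∀ i, IsSec n (-m) (s i)) →
    Sm n (kap m s₀ s) ∧ Pos n (1 - m) (kap m s₀ s)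

variable (n M) in
/-- **TRI**: the cotangent bundle is negative -/
def TRI : Prop :=
  ∀ e : Chart n M, Hc e → ∀ z ∈ e.target,
    (cHess (fun y => Real.log ((hm e y)⁻¹).trace.re) z).PosSemidef

variable (n M) in
/-- **WR**: the Wronskian weight -/
def WR : Prop :=
  ∀ (m : ℕ) (s₀ : M → ℂ) (s : Fin n → M → ℂ), 1 ≤ m → IsSec n (-m) s₀ →
    (∀ i, IsSec n (-m) (s i)) → s₀ ≠ 0 → Jac s₀ s ≠ 0 → ∃ w, Wr m s₀ s w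

variable [MeasurableSpace M]

variable (n) in
/-- frames with their `L²` bounds -/
structure Fr2 (μ : Measure M) (p : M) extends Fr n μ p where
  ψ : ℕ → M → ℝ
  cont : ∀ ν, Continuous (ψ ν)
  C₁ : ℝ
  bd : ∀ ν, L2 n μ 1 (ψ ν) (Ω ν) ≤ ENNReal.ofReal C₁
  C₃ : ℝ
  C₃_pos : 0 < C₃
  le : ∀ ν x, ψ ν x ≤ C₃ * (A ν + 1 + tl p (R ν) x)
  lg : ∀ ν x, Real.log (dist x p + 1) ≤ A ν + 1 + tl p (R ν) x
  A_nn : ∀ ν, 0 ≤ A ν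

variable (n) in
/-- **FR2** -/
def FR2 (μ : Measure M) : Prop := ∀ p : M, Nonempty (Fr2 n μ p)

variable (n) in
/-- **GEN**: growth from an integral bound -/
def GEN (μ : Measure M) : Prop :=
  ∀ (p : M) (F : Fr2 n μ p) (a : ℕ) (C' : ℝ), 0 ≤ C' → ∃ C'' : ℝ, 0 ≤ C'' ∧
    ∀ (N : ℕ) (s : M → ℂ) (G : M → ℝ) (C : ℝ), IsSec n (-N) s → (∀ x, 0 ≤ G x) → Continuous G →
    ∫⁻ x, ENNReal.ofReal (G x) ∂μ < ⊤ →
    (∀ ν y, ‖s y * F.Ω ν y ^ N‖ ^ 2 ≤ (1 + G y + nrm n 1 (F.Ω ν) y) ^ a *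
      Real.exp (C + C' * (F.A ν + tl p (F.R ν) y))) →
    ∃ C₀ : ℝ, ∀ ν x, ‖s x * F.Ω ν x ^ N‖ ≤ Real.exp (C₀ + C'' * (F.A ν + tl p (F.R ν) x))

variable (n) in
/-- **HT**: the weighted Bergman space and the Jacobian are tame for some frame -/
def HT (μ : Measure M) : Prop :=
  ∀ (p : M) (m : ℕ) (s₀ : M → ℂ) (s : Fin n → M → ℂ) (w : M → ℝ), 1 ≤ m → InH n μ m s₀ →
    (∀ i, InH n μ m (s i)) → s₀ ≠ 0 → Wr m s₀ s w → ∃ F : Fr n μ p,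
    Jac s₀ s * s₀ ∈ F.Tame (m * (2 * n + 1) - 1 + m) ∧
    ∀ h, IsSec n (-((n + 4) * m - 1 : ℕ)) h →
      L2 n μ (-((n + 4) * m - 1 : ℕ))
        (fun x => Real.log (1 + w x) + (n + 2) * kap m s₀ s x) h < ⊤ →
      h * s₀ ∈ F.Tame ((n + 4) * m - 1 + m)

variable (n) in
/-- **OT**: extension from a point -/
def OT (μ : Measure M) : Prop :=
  ∃ C : ℝ, 0 < C ∧ ∀ (k : ℤ) (m : ℕ) (ψ κ : M → ℝ) (σ : Fin n → M → ℂ)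
    (V : Submodule ℂ (M → ℂ)), Sm n ψ → Sm n κ → (∀ i, IsSec n (-m) (σ i)) →
    (∀ y, ∑ i, nrm n (-m) (σ i) y ≤ Real.exp (κ y)) → Pos n (1 - m) κ →
    (∀ e : Chart n M, Hc e → ∀ z ∈ e.target,
      (th k ψ e z - ((n + 2 : ℝ) : ℂ) • th (1 - m) κ e z).PosSemidef) →
    (∀ s, s ∈ V ↔ IsSec n k s ∧ L2 n μ k ψ s < ⊤) → Module.Finite ℂ V →
    ∀ e : Chart n M, Hc e → ∀ ζ ∈ e.target, ∀ (a : Cm n → ℂ), a ζ ≠ 0 → AnalyticAt ℂ a ζ →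
    (∀ᶠ z in 𝓝 ζ, ∀ i, co (-m) (σ i) e z = a z * (z i - ζ i)) →
    ∃ s, IsSec n k s ∧ 1 / 2 ≤ ‖co k s e ζ‖ ∧ L2 n μ k ψ s ≤ ENNReal.ofReal
      (C * Real.exp (-wt k ψ e ζ + n * wt (1 - m) κ e ζ) / ‖a ζ‖ ^ (2 * n))

variable (n M) in
/-- **RAY**: a segment of finite length -/
def RAY : Prop :=
  ∀ e : Chart n M, Hc e → ∀ (S : Set (Cm n)) (b : Cm n) (τ : ℝ), IsOpen S → Convex ℝ S →
    S.Nonempty → S ⊆ e.target → b ∈ closure S → (∀ z ∈ S, ((hm e z)⁻¹).trace.re ≤ τ) →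
    ∫⁻ z in S, ENNReal.ofReal (vd e z ^ (n + 1)) < ⊤ →
    ∃ z₀ ∈ S, ∃ x₀ : M, Tendsto (fun t : ℝ => e.symm (b + t • (z₀ - b))) (𝓝[>] 0) (𝓝 x₀)

variable (n) in
/-- **RTB**: ratios of tame sections are bounded off a hypersurface -/
def RTB (μ : Measure M) : Prop :=
  ∀ (p : M) (F : Fr n μ p) (m : ℕ) (s₀ : M → ℂ) (s : Fin n → M → ℂ), 1 ≤ m → s₀ ∈ F.Tame m →
    (∀ i, s i ∈ F.Tame m) → ∀ l, ∀ a ∈ F.Tame l, ∀ b ∈ F.Tame l,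
    ∃ d : MvPolynomial (Fin n) ℂ, d ≠ 0 ∧ ∀ ζ, MvPolynomial.eval ζ d ≠ 0 → ∃ ε C : ℝ, 0 < ε ∧
      ∀ x, s₀ x ≠ 0 → b x ≠ 0 → Phi s₀ s x ∈ ball ζ ε → ‖a x / b x‖ ≤ C

variable (n) in
/-- **TAU**: the inverse metric is bounded by finitely many ratios -/
def TAU (μ : Measure M) : Prop :=
  ∀ (p : M) (m : ℕ) (s₀ : M → ℂ) (s : Fin n → M → ℂ), 1 ≤ m → InH n μ m s₀ →
    (∀ i, InH n μ m (s i)) → s₀ ≠ 0 → Jac s₀ s ≠ 0 →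
    ∃ (F : Fr n μ p) (r l : ℕ) (a : Fin r → M → ℂ) (C' : ℝ),
      Jac s₀ s * s₀ ∈ F.Tame (m * (2 * n + 1) - 1 + m) ∧ (∀ i, a i ∈ F.Tame l) ∧
      Jac s₀ s * s₀ * s₀ ^ (n + 4) ∈ F.Tame l ∧
      ∀ e : Chart n M, PC s₀ s e → ∀ z ∈ e.target, ∀ C : ℝ,
        (∀ i, ‖a i (e.symm z)‖ ≤ C * ‖(Jac s₀ s * s₀ * s₀ ^ (n + 4)) (e.symm z)‖) →
        ((hm e z)⁻¹).trace.re ≤ C' * C ^ 2 * (1 + ‖z‖) ^ (2 * n)

variable (n) in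
/-- **VOL**: the volume density is `L^(n+1)` where two ratios are bounded -/
def VOL (μ : Measure M) : Prop :=
  ∀ (m m' : ℕ) (s₀ t : M → ℂ) (s : Fin n → M → ℂ), 1 ≤ m → n ≤ m' → IsSec n (-m) s₀ →
    (∀ i, IsSec n (-m) (s i)) → InH n μ m' t → ∀ e : Chart n M, PC s₀ s e →
    ∀ (S : Set (Cm n)) (C τ : ℝ), MeasurableSet S → S ⊆ e.target →
      (∀ z ∈ S, ‖(s₀ ^ (m * (2 * n + 1) - 1 + m)) (e.symm z)‖ ≤
        C * ‖((Jac s₀ s * s₀) ^ m) (e.symm z)‖) →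
      (∀ z ∈ S, ‖(s₀ ^ m') (e.symm z)‖ ≤ C * ‖(t ^ m) (e.symm z)‖) →
      (∀ z ∈ S, ((hm e z)⁻¹).trace.re ≤ τ) →
      (∃ c : ℝ, 0 < c ∧ ∀ z ∈ S, c ≤ ‖co (-m) s₀ e z‖ ∧ c ≤ vd e z) ∧
        ∫⁻ z in S, ENNReal.ofReal (vd e z ^ (n + 1)) < ⊤

variable (n) in
/-- **BNR**: `BND` with denominators that do not vanish at a given etale point -/
def BNR (μ : Measure M) : Prop :=
  ∀ (p : M) (m : ℕ) (s₀ : M → ℂ) (s : Fin n → M → ℂ), 1 ≤ m → InH n μ m s₀ →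
    (∀ i, InH n μ m (s i)) → ∀ x₁, Et s₀ s x₁ →
    ∃ (F : Fr n μ p) (r : ℕ) (k : Fin r → ℕ) (a b : Fin r → M → ℂ),
      (∀ i, a i ∈ F.Tame (k i) ∧ b i ∈ F.Tame (k i) ∧ b i x₁ ≠ 0) ∧
      Jac s₀ s * s₀ ∈ F.Tame (m * (2 * n + 1) - 1 + m) ∧
      ∀ (c : Cm n) (ρ C : ℝ) (j : Cm n → M), 0 < ρ → ContinuousOn j (ball c ρ) →
        (∀ z ∈ ball c ρ, Et s₀ s (j z) ∧ Phi s₀ s (j z) = z) →
        (∀ i, ∀ z ∈ ball c ρ, ‖a i (j z)‖ ≤ C * ‖b i (j z)‖) →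
        ∀ ζ ∈ sphere c ρ, ∃ x, Et s₀ s x ∧ MapClusterPt x (𝓝[ball c ρ] ζ) j

theorem BNR.bnd {μ : Measure M} (h : BNR n μ) : BNDa n μ := by
  rintro p m s₀ s hm h₀ hs ⟨x, hx⟩
  obtain ⟨F, r, k, a, b, h1, -, h2⟩ := h p m s₀ s hm h₀ hs x hx
  exact ⟨F, r, k, a, b, fun i => ⟨(h1 i).1, (h1 i).2.1, fun h => (h1 i).2.2 (by rw [h]; rfl)⟩, h2⟩

/-- a limit along a segment is a cluster point -/
theorem cluster_of_seg {c ζ z₀ : Cm n} {ρ : ℝ} {j j' : Cm n → M} {x₀ : M} (hρ : 0 < ρ)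
    (hζ : ζ ∈ sphere c ρ) (hz₀ : z₀ ∈ ball c ρ) (hej : ∀ z ∈ ball c ρ, j' z = j z)
    (hT : Tendsto (fun t : ℝ => j' (ζ + t • (z₀ - ζ))) (𝓝[>] 0) (𝓝 x₀)) :
    MapClusterPt x₀ (𝓝[ball c ρ] ζ) j := by
  have hcl : ζ ∈ closure (ball c ρ) := by
    rw [closure_ball c hρ.ne']; exact sphere_subset_closedBall hζ
  have hmem : ∀ᶠ t : ℝ in 𝓝[>] 0, ζ + t • (z₀ - ζ) ∈ ball c ρ := by
    filter_upwards [Ioc_mem_nhdsGT (zero_lt_one' ℝ)] with t ht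
    have := (convex_ball c ρ).add_smul_sub_mem_interior' hcl
      (by rwa [isOpen_ball.interior_eq]) ht
    rwa [isOpen_ball.interior_eq] at this
  have h3 : Tendsto (fun t : ℝ => ζ + t • (z₀ - ζ)) (𝓝[>] 0) (𝓝[ball c ρ] ζ) := by
    refine tendsto_nhdsWithin_iff.2 ⟨?_, hmem⟩
    have : Continuous fun t : ℝ => ζ + t • (z₀ - ζ) := by fun_prop
    simpa using (this.tendsto 0).mono_left nhdsWithin_le_nhds
  refine MapClusterPt.of_comp h3 (Tendsto.mapClusterPt (hT.congr' ?_))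
  filter_upwards [hmem] with t ht using hej _ ht

end Vale.Agent.P253Z.T2
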