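import Vale.Agent.P253Z.T2.Alg

/-!
# P253Z, T2: the image of the etale locus is open and closed in the variety
-/

open scoped Manifold ContDiff Bundle ENNReal Topology
open Bundle IsManifold MeasureTheory Set Metric Filter Vale.Agent.P253.Mfd
open Vale.Agent.P272.K (Cm Chart)

noncomputable section

namespace Vale.Agent.P253Z.T2

open VS (ev)

namespace Clop

theorem cl_eq {X Y Z : Type} [TopologicalSpace Y] [TopologicalSpace Z] [T2Space Z] {x : Y}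
    {F : Filter X} {j : X → Y} (h : MapClusterPt x F j) {f : Y → Z} (hf : ContinuousAt f x) {z : Z}
    (ht : Tendsto (fun a => f (j a)) F (𝓝 z)) : f x = z :=
  eq_of_nhds_neBot ((h.continuousAt_comp hf).clusterPt.mono ht)

/-- near a point of a sheet, the variety is this sheet -/
theorem sheet {n d : ℕ} {P : Polynomial (Pz n)} {B : Set (Cm n)} (hB : IsOpen B)
    {t : Fin d → Cm n → ℂ} (ht : ∀ i, AnalyticOnNhd ℂ (t i) B)
    (h1 : ∀ z ∈ B, ∀ i j, t i z = t j z → i = j) (h2 : ∀ z ∈ B, ∀ w, ev P z w = 0 → ∃ i, t i z = w)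
    {z : Cm n} (hz : z ∈ B) (i : Fin d) :
    ∀ᶠ q in 𝓝 (z, t i z), q.1 ∈ B ∧ (ev P q.1 q.2 = 0 → t i q.1 = q.2) := by
  have h3 : ∀ᶠ q in 𝓝 (z, t i z), ∀ j, j ≠ i → t j q.1 ≠ q.2 := eventually_all.2 fun j => by
    by_cases e : j = i
    · exact Eventually.of_forall fun _ h => absurd e h
    · have h4 : ContinuousAt (fun q : Cm n × ℂ => t j q.1 - q.2) (z, t i z) :=
        (ContinuousAt.comp (g := t j) (ht j z hz).continuousAt continuousAt_fst).sub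
          continuousAt_snd
      filter_upwards [h4.eventually_ne (sub_ne_zero.2 fun h => e (h1 z hz j i h))] with q hq _
        using sub_ne_zero.1 hq
  filter_upwards [h3, continuousAt_fst.eventually_mem (hB.mem_nhds hz)] with q k1 k2
  refine ⟨k2, fun h => ?_⟩
  obtain ⟨j, hj⟩ := h2 _ k2 _ h
  rwa [← not_not.1 fun e => k1 j e hj]

end Clop

open Clop

variable {n : ℕ} {M : Type} [MetricSpace M] [ChartedSpace (Cm n) M]
  [RiemannianBundle (fun x : M => TangentSpace 𝓘(ℝ, Cm n) x)] [MeasurableSpace M] {μ : Measure M}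

theorem clop (r : ROOT n) (et : ET n M) : CLOP n μ := by
  intro p F m s₀ s h₀ hs D k a b Q hQ hB
  have hΦ : ∀ x, s₀ x ≠ 0 → ContinuousAt (Phi s₀ s) x := fun x hx =>
    continuousAt_pi.2 fun i => (et.cont _ (s i) s₀ (hs i) h₀ x hx).1
  have hg : ∀ x, D.v x ≠ 0 → ContinuousAt (fun y => D.u y / D.v y) x := fun x hx =>
    (et.cont _ D.u D.v D.hu.1 D.hv.1 x hx).1
  have hV : Img s₀ s D.u D.v Q ⊆ Var D.P Q := by
    rintro q ⟨h4, x, h5, h6, h7⟩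
    refine ⟨h4, ?_⟩
    rw [← h6, ← h7]
    exact D.root x h5.1 (hQ.nev x h5.1 (h6 ▸ h4))
  have main : ∀ q ∈ Var D.P Q, ∃ (ρ : ℝ) (t : Cm n → ℂ), 0 < ρ ∧ t q.1 = q.2 ∧
      (∀ z ∈ ball q.1 ρ, ContinuousAt t z ∧ (z, t z) ∈ Var D.P Q) ∧
      (∀ᶠ q' in 𝓝 q, q'.1 ∈ ball q.1 ρ ∧ (ev D.P q'.1 q'.2 = 0 → t q'.1 = q'.2)) ∧
      ∀ x, Et s₀ s x → Phi s₀ s x ∈ ball q.1 ρ → D.u x / D.v x = t (Phi s₀ s x) →
        ∃ j : Cm n → M, ContinuousAt j (Phi s₀ s x) ∧ ∀ᶠ z in 𝓝 (Phi s₀ s x),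
          Et s₀ s (j z) ∧ Phi s₀ s (j z) = z ∧ D.u (j z) / D.v (j z) = t z := by
    rintro ⟨ζ, w⟩ ⟨h1, h2⟩
    obtain ⟨ρ, t, hρ, h3, h4⟩ := r D.P Q D.monic hQ.sep ζ h1
    obtain ⟨i, rfl⟩ := ((h4 ζ (mem_ball_self hρ)).2.2 w).1 h2
    have sh := fun z hz => sheet (P := D.P) (z := z) isOpen_ball h3 (fun z hz => (h4 z hz).2.1)
      (fun z hz w => ((h4 z hz).2.2 w).1) hz i
    refine ⟨ρ, t i, hρ, rfl, fun z hz => ⟨(h3 i z hz).continuousAt, (h4 z hz).1,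
      ((h4 z hz).2.2 _).2 ⟨i, rfl⟩⟩, sh ζ (mem_ball_self hρ), fun x hx hz e => ?_⟩
    obtain ⟨V, δ, j, -, k1, k2, k3, k4, k5⟩ := et.inv m s₀ s h₀ hs x hx
    have k6 := k3.continuousAt (ball_mem_nhds _ k2)
    have k7 := (k5 x k1).2.2
    have k8 : ContinuousAt (fun z => (z, D.u (j z) / D.v (j z))) (Phi s₀ s x) :=
      continuousAt_id.prodMk (ContinuousAt.comp (g := fun y => D.u y / D.v y)
        (k7.symm ▸ hg x (hQ.nev x hx.1 (h4 _ hz).1)) k6)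
    have k9 := sh _ hz
    rw [← e] at k9
    refine ⟨j, k6, ?_⟩
    have k10 : Tendsto (fun z => (z, D.u (j z) / D.v (j z))) (𝓝 (Phi s₀ s x))
        (𝓝 (Phi s₀ s x, D.u x / D.v x)) := by simpa only [k7] using k8.tendsto
    filter_upwards [k10.eventually k9, ball_mem_nhds _ k2] with z l1 l2
    obtain ⟨l3, l4⟩ := k4 z l2
    have l5 := (k5 _ l3).1
    refine ⟨l5, l4, (l1.2 ?_).symm⟩
    have l6 := D.root _ l5.1 (hQ.nev _ l5.1 (l4.symm ▸ (h4 z l1.1).1))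
    rwa [l4] at l6
  refine ⟨fun q hq => ?_, fun q hq hc => ?_⟩
  · obtain ⟨ρ, t, hρ, h1, -, h3, h4⟩ := main q (hV hq)
    obtain ⟨-, x, k1, k2, k3⟩ := hq
    obtain ⟨j, -, k4⟩ := h4 x k1 (k2 ▸ mem_ball_self hρ) (by rw [k2, k3, h1])
    rw [k2] at k4
    filter_upwards [h3, continuousAt_fst.eventually k4] with q' l1 l2 l3
    exact ⟨l3.1, _, l2.1, l2.2.1, l2.2.2.trans (l1.2 l3.2)⟩
  · obtain ⟨ρ, t, hρ, h1, h2, h3, h4⟩ := main q hq
    have : Nonempty M := ⟨p⟩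
    set G : Set (Cm n) := {z ∈ ball q.1 ρ | ∃ x, Et s₀ s x ∧ Phi s₀ s x = z ∧ D.u x / D.v x = t z}
    have uq : ∀ z ∈ ball q.1 ρ, ∀ x y, Et s₀ s x ∧ Phi s₀ s x = z ∧ D.u x / D.v x = t z →
        Et s₀ s y ∧ Phi s₀ s y = z ∧ D.u y / D.v y = t z → x = y := fun z hz x y k l =>
      D.inj x y k.1 l.1 (hQ.nev x k.1.1 (k.2.1.symm ▸ (h2 z hz).2.1))
        (hQ.nev y l.1.1 (l.2.1.symm ▸ (h2 z hz).2.1)) (k.2.1.trans l.2.1.symm)
        (k.2.2.trans l.2.2.symm) (by rw [k.2.1, k.2.2]; exact hQ.sep _ (h2 z hz).2)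
    have hG : IsOpen G := isOpen_iff_mem_nhds.2 fun z ⟨hz, x, k1, k2, k3⟩ => by
      subst k2
      obtain ⟨j, -, k4⟩ := h4 x k1 hz k3
      filter_upwards [k4, isOpen_ball.mem_nhds hz] with z' l1 l2 using ⟨l2, _, l1⟩
    choose! j hj using fun z (hz : z ∈ G) => hz.2
    have jc : ∀ z ∈ G, ContinuousAt j z := fun z hz => by
      obtain ⟨k1, k2, k3⟩ := hj z hz
      obtain ⟨j', k4, k5⟩ := h4 (j z) k1 (k2.symm ▸ hz.1) (by rw [k2, k3])
      rw [k2] at k4 k5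
      refine k4.congr ?_
      filter_upwards [k5, hG.mem_nhds hz] with z' l1 l2 using uq z' l2.1 _ _ l1 (hj z' l2)
    by_contra hn
    have hζ : q.1 ∈ Gᶜ := fun h => hn ⟨hq.1, h1 ▸ h.2⟩
    obtain ⟨q', ⟨k1, k2⟩, k3⟩ := (((mem_closure_iff_frequently.1 hc).and_eventually h3).and_eventually
      (continuousAt_fst.eventually_mem (ball_mem_nhds q.1 (half_pos hρ)))).exists
    have hc' : q'.1 ∈ G := ⟨k2.1, (k2.2 (hV k1).2).symm ▸ k1.2⟩
    obtain ⟨ζ, k4, k5⟩ := hG.isClosed_compl.exists_infDist_eq_dist ⟨_, hζ⟩ q'.1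
    have k6 : ball q'.1 (dist q'.1 ζ) ⊆ G := by
      rw [← k5]
      exact ball_infDist_compl_subset
    have k7 : closedBall q'.1 (dist q'.1 ζ) ⊆ ball q.1 ρ := closedBall_subset_ball' (by
      have := infDist_le_dist_of_mem (x := q'.1) hζ
      have := mem_ball.1 k3
      linarith)
    have k8 : ζ ∈ sphere q'.1 (dist q'.1 ζ) := mem_sphere'.2 rfl
    have k9 := k7 (sphere_subset_closedBall k8)
    obtain ⟨C, hC⟩ := hQ.bd _ (isCompact_closedBall _ _) fun z hz => (h2 z (k7 hz)).2.1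
    obtain ⟨x, l1, l2⟩ := hB q'.1 _ C j (dist_pos.2 fun e : q'.1 = ζ => k4 (e ▸ hc'))
      (fun z hz => (jc z (k6 hz)).continuousWithinAt)
      (fun z hz => ⟨(hj z (k6 hz)).1, (hj z (k6 hz)).2.1⟩) (fun i z hz => hC i _
        (hj z (k6 hz)).1.1 ((hj z (k6 hz)).2.1.symm ▸ ball_subset_closedBall hz)) ζ k8
    have l3 : Phi s₀ s x = ζ := cl_eq l2 (hΦ x l1.1) ((tendsto_id.mono_left nhdsWithin_le_nhds).congr'
      (eventually_mem_nhdsWithin.mono fun z hz => (hj z (k6 hz)).2.1.symm))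
    exact k4 ⟨k9, x, l1, l3, cl_eq l2 (hg x (hQ.nev x l1.1 (l3.symm ▸ (h2 ζ k9).2.1)))
      (((h2 ζ k9).1.tendsto.mono_left nhdsWithin_le_nhds).congr'
        (eventually_mem_nhdsWithin.mono fun z hz => (hj z (k6 hz)).2.2.symm))⟩

end Vale.Agent.P253Z.T2
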