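import Vale.Agent.P253Z.T2.Alg

/-!
# P253Z, T2: the roots near a point
-/

open scoped ContDiff Topology
open Set Metric Filter Polynomial
open Vale.Agent.P272.K (Cm)

noncomputable section

namespace Vale.Agent.P253Z.T2

open VS (ev)

namespace Root

variable {n : ℕ}

theorem ev_an (P : Polynomial (Pz n)) (q : Cm n × ℂ) :
    AnalyticAt ℂ (fun q : Cm n × ℂ => ev P q.1 q.2) q := by
  simp only [ev, eval_map, eval₂_eq_sum_range]
  exact Finset.analyticAt_fun_sum _ fun i _ =>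
    ((AnalyticOnNhd.eval_mvPolynomial (P.coeff i) _ trivial).comp analyticAt_fst).mul
      (analyticAt_snd.pow i)

theorem ev_deriv (P : Polynomial (Pz n)) (z : Cm n) (w : ℂ) :
    HasDerivAt (ev P z) (ev P.derivative z w) w := by
  unfold ev
  rw [← derivative_map]
  exact Polynomial.hasDerivAt _ w

/-- a simple root is continued analytically -/
theorem imp {P : Polynomial (Pz n)} {ζ : Cm n} {w : ℂ} (h : ev P ζ w = 0)
    (h' : ev P.derivative ζ w ≠ 0) :
    ∃ t : Cm n → ℂ, AnalyticAt ℂ t ζ ∧ t ζ = w ∧ ∀ᶠ z in 𝓝 ζ, ev P z (t z) = 0 := by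
  have h1 : ContDiffAt ℂ ω (fun q : Cm n × ℂ => ev P q.1 q.2) (ζ, w) := (ev_an P _).contDiffAt
  have h2 : (fderiv ℂ (fun q : Cm n × ℂ => ev P q.1 q.2) (ζ, w) ∘L
      .inr ℂ (Cm n) ℂ).IsInvertible :=
    ⟨.unitsEquivAut ℂ (.mk0 _ h'), (ev_deriv P ζ w).hasFDerivAt.unique
      ((ev_an P _).differentiableAt.hasFDerivAt.comp w (hasFDerivAt_prodMk_right ζ w))⟩
  exact ⟨_, (h1.contDiffAt_implicitFunction (by simp) h2).analyticAt,
    h1.implicitFunction_apply_self (by simp) h2,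
    (h1.eventually_apply_implicitFunction (by simp) h2).mono fun _ e => e.trans h⟩

/-- simple roots are as many as the degree -/
theorem enum {p : ℂ[X]} {d : ℕ} (h0 : p ≠ 0) (hd : p.natDegree = d)
    (h : ∀ w, p.eval w = 0 → p.derivative.eval w ≠ 0) :
    ∃ w : Fin d → ℂ, Function.Injective w ∧ ∀ i, p.eval (w i) = 0 := by
  have h1 : p.roots.Nodup := Multiset.nodup_iff_count_le_one.2 fun w => by
    rw [count_roots]
    exact not_lt.1 fun k => have k := (one_lt_rootMultiplicity_iff_isRoot h0).1 k; h w k.1 k.2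
  have e := (Finset.equivFinOfCardEq (s := p.roots.toFinset) (n := d) (by
    rw [Multiset.toFinset_card_of_nodup h1, IsAlgClosed.card_roots_eq_natDegree, hd])).symm
  exact ⟨fun i => e i, Subtype.val_injective.comp e.injective,
    fun i => (mem_roots'.1 (Multiset.mem_toFinset.1 (e i).2)).2⟩

/-- there is no other root -/
theorem all {p : ℂ[X]} {d : ℕ} (h0 : p ≠ 0) (hd : p.natDegree = d) {t : Fin d → ℂ}
    (ht : Function.Injective t) (h : ∀ i, p.eval (t i) = 0) {w : ℂ} (hw : p.eval w = 0) :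
    ∃ i, t i = w := by
  by_contra! k
  refine h0 (eq_zero_of_natDegree_lt_card_of_eval_eq_zero p (f := Fin.cons w t)
    (Fin.cons_injective_iff.2 ⟨fun ⟨i, e⟩ => k i e, ht⟩) (Fin.cases hw h) (by simp [hd]))

end Root

open Root

theorem root (n : ℕ) : ROOT n := by
  intro P Q hP hS ζ hζ
  have h0 := fun z : Cm n => (hP.map (MvPolynomial.eval z)).ne_zero
  have hd := fun z : Cm n => hP.natDegree_map (MvPolynomial.eval z)
  obtain ⟨w, w1, w2⟩ := enum (h0 ζ) (hd ζ) fun w hw => by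
    rw [derivative_map]
    exact hS (ζ, w) ⟨hζ, hw⟩
  choose t t1 t2 t3 using fun i => imp (w2 i) (hS (ζ, w i) ⟨hζ, w2 i⟩)
  have h1 : ∀ᶠ z in 𝓝 ζ, ∀ i j, i ≠ j → t i z ≠ t j z :=
    eventually_all.2 fun i => eventually_all.2 fun j => eventually_all.2 fun e =>
      ((t1 i).continuousAt.ne_iff_eventually_ne (t1 j).continuousAt).1
        (by rw [t2, t2]; exact w1.ne e)
  obtain ⟨ρ, hρ, h⟩ := Metric.eventually_nhds_iff_ball.1
    ((((AnalyticOnNhd.eval_mvPolynomial Q ζ trivial).continuousAt.eventually_ne hζ).and h1).and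
      ((eventually_all.2 fun i => (t1 i).eventually_analyticAt).and (eventually_all.2 t3)))
  refine ⟨ρ, t, hρ, fun i z hz => (h z hz).2.1 i, fun z hz => ?_⟩
  have h2 : ∀ i j, t i z = t j z → i = j := fun i j e => by_contra fun k => (h z hz).1.2 i j k e
  exact ⟨(h z hz).1.1, h2, fun v => ⟨all (h0 z) (hd z) h2 (h z hz).2.2,
    fun ⟨i, e⟩ => e ▸ (h z hz).2.2 i⟩⟩

end Vale.Agent.P253Z.T2
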