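import Vale.Agent.P253Z.T2.Alg

/-!
# P253Z, T2: the variety is connected
-/

open scoped Manifold ContDiff Bundle ENNReal Topology
open Set Metric Filter
open Vale.Agent.P272.K (Cm Chart)

noncomputable section

namespace Vale.Agent.P253Z.T2

open VS (ev)

namespace Cn

open Polynomial

theorem sub_of_conn {X : Type} [TopologicalSpace X] {S V G : Set X} (hS : IsPreconnected S)
    (hV : S ⊆ V) (ho : ∀ q ∈ G, ∀ᶠ q' in 𝓝 q, q' ∈ V → q' ∈ G)
    (hc : ∀ q ∈ V, q ∈ closure G → q ∈ G) {a : X} (ha : a ∈ S) (hG : a ∈ G) : S ⊆ G := by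
  intro b hb
  by_contra h
  obtain ⟨q, h1, h2, h3⟩ := hS (interior {q | q ∈ V → q ∈ G}) (closure G)ᶜ isOpen_interior
    isClosed_closure.isOpen_compl
    (fun q hq => (em (q ∈ closure G)).imp_left fun h' =>
      mem_interior_iff_mem_nhds.2 (ho q (hc q (hV hq) h')))
    ⟨a, ha, mem_interior_iff_mem_nhds.2 (ho a hG)⟩ ⟨b, hb, fun h' => h (hc b (hV hb) h')⟩
  exact h3 (subset_closure (interior_subset h2 (hV h1)))

variable {n : ℕ}

/-- polynomial growth -/
def PG (f : Cm n → ℝ) : Prop := ∃ (c : ℝ) (N : ℕ), 0 ≤ c ∧ ∀ z, f z ≤ c * (1 + ‖z‖) ^ N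

theorem PG.add {f g : Cm n → ℝ} (hf : PG f) (hg : PG g) : PG fun z => f z + g z := by
  obtain ⟨a, N, ha, hf⟩ := hf
  obtain ⟨b, K, hb, hg⟩ := hg
  refine ⟨a + b, N + K, by positivity, fun z => ?_⟩
  have h : 1 ≤ 1 + ‖z‖ := by simp
  have h1 := mul_le_mul_of_nonneg_left (pow_le_pow_right₀ h (Nat.le_add_right N K)) ha
  have h2 := mul_le_mul_of_nonneg_left (pow_le_pow_right₀ h (Nat.le_add_left K N)) hb
  have h3 := hf z
  have h4 := hg z
  linarith

theorem pg_eval (A : Pz n) : PG fun z => ‖MvPolynomial.eval z A‖ := by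
  induction A using MvPolynomial.induction_on with
  | C a => exact ⟨‖a‖, 0, norm_nonneg _, fun z => by simp⟩
  | add p q hp hq =>
    obtain ⟨a, N, ha, h⟩ := hp.add hq
    exact ⟨a, N, ha, fun z => by simpa using (norm_add_le _ _).trans (h z)⟩
  | mul_X p i hp =>
    obtain ⟨a, N, ha, h⟩ := hp
    refine ⟨a, N + 1, ha, fun z => ?_⟩
    simp only [map_mul, norm_mul, MvPolynomial.eval_X, pow_succ, ← mul_assoc]
    exact mul_le_mul (h z) ((norm_le_pi_norm z i).trans (by simp)) (norm_nonneg _)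
      (by positivity)

theorem pg_sum (s : Finset ℕ) (A : ℕ → Pz n) :
    PG fun z => ∑ k ∈ s, ‖MvPolynomial.eval z (A k)‖ := by
  induction s using Finset.induction_on with
  | empty => exact ⟨0, 0, le_rfl, fun z => by simp⟩
  | insert k s hk h => simpa [Finset.sum_insert hk] using (pg_eval (A k)).add h

theorem coef_le {g F : ℂ[X]} (hg : g.Monic) (hF : F.Monic) (h : g ∣ F) (j : ℕ) :
    ‖g.coeff j‖ ≤ 2 ^ F.natDegree * ∑ k ∈ Finset.range (F.natDegree + 1), ‖F.coeff k‖ := by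
  have h1 := natDegree_le_of_dvd h hF.ne_zero
  obtain ⟨u, rfl⟩ := h
  refine (norm_coeff_le_choose_mul_mahlerMeasure_of_one_le_mahlerMeasure j g u
    (one_le_mahlerMeasure_of_one_le_norm_leadingCoeff
      (by simp [(hg.of_mul_monic_left hF).leadingCoeff]))).trans ?_
  refine mul_le_mul ?_ ((mahlerMeasure_le_sum_norm_coeff _).trans_eq
    (sum_over_range _ (by simp))) (mahlerMeasure_nonneg _) (by positivity)
  exact_mod_cast (Nat.choose_le_two_pow _ _).trans (Nat.pow_le_pow_right (by norm_num) h1)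

theorem an_prod {ι : Type} (I : Finset ι) {t : ι → Cm n → ℂ} {z : Cm n}
    (ht : ∀ i, AnalyticAt ℂ (t i) z) (j : ℕ) :
    AnalyticAt ℂ (fun y => (∏ i ∈ I, (X - C (t i y))).coeff j) z := by
  classical
  induction I using Finset.induction_on generalizing j with
  | empty => simpa using analyticAt_const
  | insert i I hi h =>
    simp only [Finset.prod_insert hi, coeff_mul, coeff_sub, coeff_C]
    refine Finset.analyticAt_fun_sum _ fun k _ => (analyticAt_const.fun_sub ?_).fun_mul (h _)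
    split_ifs
    exacts [ht i, analyticAt_const]

open Classical in
/-- the product over the points of `G` in a fibre -/
def pp (P : Polynomial (Pz n)) (G : Set (Cm n × ℂ)) (z : Cm n) : ℂ[X] :=
  ∏ w ∈ (P.map (MvPolynomial.eval z)).roots.toFinset.filter (fun w => (z, w) ∈ G), (X - C w)

variable {P : Polynomial (Pz n)} {Q : Pz n} {G : Set (Cm n × ℂ)}

theorem pp_monic (z : Cm n) : (pp P G z).Monic :=
  monic_prod_of_monic _ _ fun w _ => monic_X_sub_C w

theorem pp_dvd (hP : P.Monic) (z : Cm n) : pp P G z ∣ P.map (MvPolynomial.eval z) := by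
  classical
  refine (Multiset.prod_X_sub_C_dvd_iff_le_roots (hP.map _).ne_zero _).2
    (Finset.val_le_iff_val_subset.2 fun w hw => ?_)
  exact Multiset.mem_toFinset.1 (Finset.mem_filter.1 hw).1

theorem pp_root (hP : P.Monic) (hG : G ⊆ Var P Q) (z : Cm n) (w : ℂ) :
    (pp P G z).eval w = 0 ↔ (z, w) ∈ G := by
  simp only [pp, eval_prod, eval_sub, eval_X, eval_C, Finset.prod_eq_zero_iff, sub_eq_zero,
    Finset.mem_filter, Multiset.mem_toFinset, mem_roots (hP.map _).ne_zero]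
  exact ⟨fun ⟨_, h, e⟩ => e ▸ h.2, fun h => ⟨w, ⟨(hG h).2, h⟩, rfl⟩⟩

theorem loc (r : ROOT n) (hP : P.Monic) (hS : Sep P Q) (hG : G ⊆ Var P Q)
    (ho : ∀ q ∈ G, ∀ᶠ q' in 𝓝 q, q' ∈ Var P Q → q' ∈ G)
    (hc : ∀ q ∈ Var P Q, q ∈ closure G → q ∈ G) {ζ : Cm n} (hζ : MvPolynomial.eval ζ Q ≠ 0) :
    ∃ (ρ : ℝ) (I : Finset (Fin P.natDegree)) (t : Fin P.natDegree → Cm n → ℂ), 0 < ρ ∧
      (∀ i, AnalyticAt ℂ (t i) ζ) ∧ ∀ z ∈ ball ζ ρ, (∀ i j, t i z = t j z → i = j) ∧
        ∀ w, (z, w) ∈ G ↔ ∃ i ∈ I, t i z = w := by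
  classical
  obtain ⟨ρ, t, hρ, ht, h⟩ := r P Q hP hS ζ hζ
  refine ⟨ρ, Finset.univ.filter fun i => (ζ, t i ζ) ∈ G, t, hρ,
    fun i => ht i ζ (mem_ball_self hρ), fun z hz => ⟨(h z hz).2.1, fun w => ?_⟩⟩
  have key : ∀ i, ∀ a ∈ ball ζ ρ, ∀ b ∈ ball ζ ρ, (a, t i a) ∈ G → (b, t i b) ∈ G :=
    fun i a ha b hb hab => sub_of_conn (S := (fun z => (z, t i z)) '' ball ζ ρ)
      ((convex_ball ζ ρ).isPreconnected.image _ (continuousOn_id.prodMk (ht i).continuousOn))
      (by
        rintro _ ⟨y, hy, rfl⟩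
        exact ⟨(h y hy).1, ((h y hy).2.2 _).2 ⟨i, rfl⟩⟩) ho hc ⟨a, ha, rfl⟩ hab ⟨b, hb, rfl⟩
  constructor
  · intro hw
    obtain ⟨i, rfl⟩ := ((h z hz).2.2 w).1 (hG hw).2
    exact ⟨i, by simpa using key i z hz ζ (mem_ball_self hρ) hw, rfl⟩
  · rintro ⟨i, hi, rfl⟩
    exact key i ζ (mem_ball_self hρ) z hz (by simpa using hi)

end Cn

open Cn Polynomial

theorem conn {n : ℕ} (r : ROOT n) (l : LIOU n) : CONN n := by
  intro P Q hP hI hS G hG ⟨⟨ζ, w₀⟩, h₀⟩ ho hc
  have hζ : MvPolynomial.eval ζ Q ≠ 0 := (hG h₀).1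
  have hd : ∀ z, (P.map (MvPolynomial.eval z)).natDegree = P.natDegree := fun z =>
    hP.natDegree_map _
  have hle : ∀ z, (pp P G z).natDegree ≤ P.natDegree := fun z =>
    (natDegree_le_of_dvd (pp_dvd hP z) (hP.map _).ne_zero).trans_eq (hd z)
  obtain ⟨c, K, hc0, hK⟩ := pg_sum (Finset.range (P.natDegree + 1)) P.coeff
  have hR : ∀ j, ∃ R : Pz n, ∀ z, MvPolynomial.eval z Q ≠ 0 →
      MvPolynomial.eval z Q ^ 2 * (pp P G z).coeff j = MvPolynomial.eval z R := by
    intro j
    refine l Q _ (2 ^ P.natDegree * c) K (fun y hy => ?_) fun z _ => ?_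
    · obtain ⟨ρ, I, t, hρ, ht, h⟩ := loc r hP hS hG ho hc hy
      refine (an_prod I ht j).congr ?_
      filter_upwards [ball_mem_nhds y hρ] with z hz
      classical
      rw [← Finset.prod_image (g := fun i => t i z) (f := fun w => X - C w)
        fun a _ b _ e => (h z hz).1 a b e, pp]
      congr 2
      ext w
      simp only [Finset.mem_image, Finset.mem_filter, Multiset.mem_toFinset,
        mem_roots (hP.map _).ne_zero, ← (h z hz).2]
      exact ⟨fun e => ⟨(hG e).2, e⟩, fun e => e.2⟩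
    · refine (coef_le (pp_monic z) (hP.map _) (pp_dvd hP z) j).trans ?_
      rw [hd, mul_assoc]
      exact mul_le_mul_of_nonneg_left (by simpa using hK z) (by positivity)
  choose R hR using hR
  have h1 : Q * (R P.natDegree * (R P.natDegree - Q ^ 2)) = 0 := by
    refine MvPolynomial.funext fun z => ?_
    by_cases hz : MvPolynomial.eval z Q = 0
    · simp [hz]
    · simp only [map_mul, map_sub, map_pow, map_zero, ← hR _ z hz]
      rcases (hle z).eq_or_lt with e | e
      · rw [← e, (pp_monic z).coeff_natDegree]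
        ring
      · rw [coeff_eq_zero_of_natDegree_lt e]
        ring
  have hQ : Q ≠ 0 := fun e => hζ (by simp [e])
  rcases mul_eq_zero.1 ((mul_eq_zero.1 h1).resolve_left hQ) with h2 | h2
  · exfalso
    have h3 : ∀ z, MvPolynomial.eval z Q ≠ 0 → (pp P G z).natDegree < P.natDegree := by
      refine fun z hz => (hle z).lt_of_ne fun e => ?_
      have := hR P.natDegree z hz
      rw [h2, ← e, (pp_monic z).coeff_natDegree] at this
      exact hz (by simpa using this)
    set S : Polynomial (Pz n) := ∑ j ∈ Finset.range P.natDegree, monomial j (R j) with hSd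
    have h4 : ∀ z, MvPolynomial.eval z Q ≠ 0 →
        S.map (MvPolynomial.eval z) = C (MvPolynomial.eval z Q ^ 2) * pp P G z := by
      intro z hz
      ext j
      rw [coeff_map, coeff_C_mul, hSd, finsetSum_coeff]
      simp only [coeff_monomial, Finset.sum_ite_eq', Finset.mem_range]
      split_ifs with e
      · exact (hR j z hz).symm
      · rw [coeff_eq_zero_of_natDegree_lt ((h3 z hz).trans_le (not_lt.1 e))]
        simp
    obtain ⟨A, B, N, hN, e⟩ := hI S
      (fun e => mul_ne_zero (C_ne_zero.2 (pow_ne_zero 2 hζ)) (pp_monic (P := P) (G := G) ζ).ne_zero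
        (by rw [← h4 ζ hζ, e, Polynomial.map_zero]))
      ((natDegree_sum_le_of_forall_le _ _ fun j hj => (natDegree_monomial_le _).trans
        (Nat.le_sub_one_of_lt (Finset.mem_range.1 hj))).trans_lt (by have := h3 ζ hζ; omega))
    have h5 : ∀ z w, (z, w) ∈ G → MvPolynomial.eval z N = 0 := by
      intro z w h
      have h6 := congrArg (fun p => (p.map (MvPolynomial.eval z)).eval w) e
      have h7 : (P.map (MvPolynomial.eval z)).eval w = 0 := (hG h).2
      simpa [h4 z (hG h).1, h7, (pp_root hP hG z w).2 h] using h6.symm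
    obtain ⟨ρ, I, t, hρ, -, h⟩ := loc r hP hS hG ho hc hζ
    obtain ⟨i, hi, -⟩ := ((h ζ (mem_ball_self hρ)).2 w₀).1 h₀
    refine hN (MvPolynomial.funext fun z => ?_)
    rw [map_zero]
    refine (AnalyticOnNhd.eval_mvPolynomial N).eqOn_zero_of_preconnected_of_eventuallyEq_zero
      isPreconnected_univ (mem_univ ζ) ?_ (mem_univ z)
    filter_upwards [ball_mem_nhds ζ hρ] with y hy
    exact h5 y _ (((h y hy).2 _).2 ⟨i, hi, rfl⟩)
  · refine hG.antisymm fun ⟨z, w⟩ h => (pp_root hP hG z w).1 ?_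
    have h3 := hR P.natDegree z h.1
    rw [sub_eq_zero.1 h2, map_pow] at h3
    have h4 : P.natDegree ≤ (pp P G z).natDegree := le_natDegree_of_ne_zero fun e =>
      pow_ne_zero 2 h.1 (by rw [← h3, e, mul_zero])
    rw [← eq_of_monic_of_dvd_of_natDegree_le (pp_monic z) (hP.map _) (pp_dvd hP z)
      ((hd z).trans_le h4)]
    exact h.2

end Vale.Agent.P253Z.T2
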