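import Vale.Agent.P253Z.T2.Hom
import Vale.Agent.P253Z.VS.Loc
import Mathlib.Analysis.Polynomial.CauchyBound

/-!
# P253Z, T2: the polynomial that is removed
-/

set_option linter.unusedSectionVars false

open scoped Manifold ContDiff Bundle ENNReal Topology
open Bundle IsManifold MeasureTheory Set Metric Filter Vale.Agent.P253.Mfd
open Vale.Agent.P272.K (Cm Chart)

noncomputable section

namespace Vale.Agent.P253Z.T2

open VS (ev)

variable {n : ℕ}

namespace CutA

/-- the roots of a monic polynomial over a compact set are bounded -/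
theorem root_bd {P : Polynomial (Pz n)} (hP : P.Monic) {K : Set (Cm n)} (hK : IsCompact K) :
    ∃ B : ℝ, ∀ z ∈ K, ∀ t, ev P z t = 0 → ‖t‖ ≤ B := by
  obtain ⟨B, hB⟩ := hK.exists_bound_of_continuousOn (f := fun z => ∑ i ∈ Finset.range P.natDegree,
    ‖MvPolynomial.eval z (P.coeff i)‖) (continuous_finsetSum _ fun i _ =>
      (MvPolynomial.continuous_eval _).norm).continuousOn
  refine ⟨B + 1, fun z hz t ht => ?_⟩
  have h1 := hP.map (MvPolynomial.eval z)
  have h2 := Polynomial.IsRoot.norm_lt_cauchyBound h1.ne_zero ht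
  rw [Polynomial.cauchyBound, h1.leadingCoeff, nnnorm_one, div_one, hP.natDegree_map] at h2
  have h3 : (Finset.range P.natDegree).sup (fun i => ‖(P.map (MvPolynomial.eval z)).coeff i‖₊) ≤
      ∑ i ∈ Finset.range P.natDegree, ‖MvPolynomial.eval z (P.coeff i)‖₊ :=
    Finset.sup_le fun i hi => by
      rw [Polynomial.coeff_map]
      exact Finset.single_le_sum (f := fun i => ‖MvPolynomial.eval z (P.coeff i)‖₊)
        (fun _ _ => zero_le) hi
  have h4 : (‖t‖₊ : ℝ) ≤ _ := NNReal.coe_le_coe.2 (h2.le.trans (add_le_add_left h3 1))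
  push_cast at h4
  linarith [(le_abs_self _).trans (hB z hz)]

theorem fun_bd {P : Polynomial (Pz n)} (hP : P.Monic) {K : Set (Cm n)} (hK : IsCompact K)
    {G : Cm n × ℂ → ℂ} (hG : ContinuousOn G (K ×ˢ univ)) :
    ∃ C : ℝ, ∀ z ∈ K, ∀ t, ev P z t = 0 → ‖G (z, t)‖ ≤ C := by
  obtain ⟨B, hB⟩ := root_bd hP hK
  obtain ⟨C, hC⟩ := (hK.prod (isCompact_closedBall (0 : ℂ) B)).exists_bound_of_continuousOn
    (hG.mono (prod_mono_right (subset_univ _)))
  exact ⟨C, fun z hz t ht => hC _ ⟨hz, mem_closedBall_zero_iff.2 (hB z hz t ht)⟩⟩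

theorem bez {P R A B : Polynomial (Pz n)} {N : Pz n} (h : A * P + B * R = Polynomial.C N)
    {z : Cm n} {t : ℂ} (ht : ev P z t = 0) : MvPolynomial.eval z N = ev B z t * ev R z t := by
  have h1 := congrArg (fun S => ev S z t) h
  simp only [ev, Polynomial.map_add, Polynomial.map_mul, Polynomial.eval_add, Polynomial.eval_mul,
    Polynomial.map_C, Polynomial.eval_C] at h1 ht ⊢
  rw [← h1, ht, mul_zero, zero_add]

theorem ev_mod {P : Polynomial (Pz n)} (R : Polynomial (Pz n)) {z : Cm n} {t : ℂ}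
    (ht : ev P z t = 0) : ev (R %ₘ P) z t = ev R z t := by
  have h1 := congrArg (fun S => ev S z t) (Polynomial.modByMonic_add_div R P)
  simp only [ev, Polynomial.map_add, Polynomial.map_mul, Polynomial.eval_add,
    Polynomial.eval_mul] at h1 ht ⊢
  rw [← h1, ht, zero_mul, add_zero]

end CutA

open CutA

variable {M : Type} [MetricSpace M] [ChartedSpace (Cm n) M] [IsManifold 𝓘(ℂ, Cm n) 1 M]
  [RiemannianBundle (fun x : M => TangentSpace 𝓘(ℝ, Cm n) x)] [MeasurableSpace M] {μ : Measure M}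

/-- **CUT** -/
theorem cut (a : B1a n M) (et : ET n M) : CUT n μ := by
  intro p F m s₀ s hm h₀ hs hE D r k α β hab
  have hs' : ∀ i, IsSec n (-m) (s i) := fun i => (hs i).1
  have dn := et.dense m s₀ s hm h₀.1 hs' hE
  have gr := gr_tame a F
  have cΦ : ∀ x, s₀ x ≠ 0 → ContinuousAt (Phi s₀ s) x := fun x hx =>
    continuousAt_pi.2 fun i => (et.cont _ _ _ (hs' i) h₀.1 x hx).1
  obtain ⟨x₀, e₀, v₀⟩ := (dn _ _ D.hv.1 D.v_ne p).exists
  have P1 : D.P ≠ 1 := fun e => by simpa [e, ev] using D.root x₀ e₀.1 v₀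
  have P0 : D.P.natDegree ≠ 0 := fun e => P1 (D.monic.natDegree_eq_zero.1 e)
  obtain ⟨A₁, B₁, h, h0, hh⟩ := D.irr D.P.derivative
    (Polynomial.derivative_ne_zero.2 P0)
    (Polynomial.natDegree_derivative_lt P0)
  choose d hd R hR using fun i => D.gen (k i) (α i) (hab i).1 (β i) (hab i).2.1 (hab i).2.2
  have t1 := gr.pow D.hv m
  have t2 := gr.pow (tame_of_inH F hm h₀) D.l
  rw [mul_comm] at t2
  obtain ⟨d₀, hd₀, R₀, hR₀⟩ := D.gen _ _ t1 _ t2 fun e => pow_ne_zero _ e₀.1 (congrFun e x₀)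
  have r0 : R₀ %ₘ D.P ≠ 0 := by
    obtain ⟨V, ρ, j, -, xV, hρ, cj, j1, j2⟩ := et.inv m s₀ s h₀.1 hs' x₀ e₀
    have c1 : Tendsto j (𝓝 (Phi s₀ s x₀)) (𝓝 x₀) := by
      have := cj.continuousAt (ball_mem_nhds _ hρ)
      rwa [ContinuousAt, (j2 x₀ xV).2.2] at this
    obtain ⟨z, z1, z2, z3⟩ := ((VS.freq_ne hd₀ (Phi s₀ s x₀)).and_eventually
      ((c1.eventually (et.cont _ _ _ D.hv.1 D.hv.1 x₀ v₀).2).and (ball_mem_nhds _ hρ))).exists
    have z4 := (j2 _ (j1 z z3).1).1.1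
    have z5 := hR₀ (j z) z4 z2 (pow_ne_zero _ z4)
    intro e
    rw [← ev_mod R₀ (D.root _ z4 z2), e, (j1 z z3).2] at z5
    exact mul_ne_zero z1 (div_ne_zero (pow_ne_zero _ z2) (pow_ne_zero _ z4))
      (z5.trans (by simp [ev]))
  obtain ⟨A₂, B₂, N, N0, hN⟩ := D.irr _ r0 (Polynomial.natDegree_modByMonic_lt R₀ D.monic P1)
  have split : ∀ z, MvPolynomial.eval z (h * (N * ∏ i, d i)) ≠ 0 → MvPolynomial.eval z h ≠ 0 ∧
      MvPolynomial.eval z N ≠ 0 ∧ ∀ i, MvPolynomial.eval z (d i) ≠ 0 := fun z hz => by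
    rw [map_mul, map_mul, map_prod, mul_ne_zero_iff, mul_ne_zero_iff,
      Finset.prod_ne_zero_iff] at hz
    exact ⟨hz.1, hz.2.1, fun i => hz.2.2 i (Finset.mem_univ i)⟩
  refine ⟨h * (N * ∏ i, d i), mul_ne_zero h0 (mul_ne_zero N0
    (Finset.prod_ne_zero_iff.2 fun i _ => hd i)), fun q hq => ?_, fun K hK hQ => ?_,
    fun x hx hQ => ?_⟩
  · exact right_ne_zero_of_mul (bez hh hq.2 ▸ (split _ hq.1).1)
  · obtain ⟨L, hL, KL, LW⟩ := exists_compact_between hK
      (isOpen_ne_fun (MvPolynomial.continuous_eval (h * (N * ∏ i, d i))) continuous_const) hQ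
    choose C hC using fun i => fun_bd D.monic hL
      (G := fun q => ev (R i) q.1 q.2 / MvPolynomial.eval q.1 (d i))
      ((VS.continuous_ev _).continuousOn.div
        ((MvPolynomial.continuous_eval _).comp continuous_fst).continuousOn
        fun q hq => (split _ (LW hq.1)).2.2 i)
    refine ⟨∑ i, |C i|, fun i x hx hxK => et.le _ _ _ (hab i).1.1 (hab i).2.1.1 x _ ?_⟩
    refine ((dn _ _ (gr.mul _ _ _ D.hv _ (hab i).2.1).1
      (VS.mul_ne a D.hv.1 (hab i).2.1.1 D.v_ne (hab i).2.2) x).and_eventually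
      ((cΦ x hx).eventually (isOpen_interior.mem_nhds (KL hxK)))).mono ?_
    rintro y ⟨⟨y1, y2⟩, y3⟩
    obtain ⟨y4, y5⟩ := mul_ne_zero_iff.1 y2
    have y6 := hC i _ (interior_subset y3) _ (D.root y y1.1 y4)
    simp only at y6
    rw [← hR i y y1.1 y4 y5, mul_div_cancel_left₀ _ ((split _ (LW (interior_subset y3))).2.2 i),
      norm_div, div_le_iff₀ (norm_pos_iff.2 y5)] at y6
    exact y6.trans (mul_le_mul_of_nonneg_right ((le_abs_self _).trans (Finset.single_le_sum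
      (f := fun i => |C i|) (fun _ _ => abs_nonneg _) (Finset.mem_univ i))) (norm_nonneg _))
  · intro hv
    obtain ⟨C, hC⟩ := fun_bd D.monic (isCompact_closedBall (Phi s₀ s x) 1)
      (G := fun q => ev B₂ q.1 q.2 * MvPolynomial.eval q.1 d₀) ((VS.continuous_ev _).mul
        ((MvPolynomial.continuous_eval _).comp continuous_fst)).continuousOn
    have c1 := (et.cont _ _ _ t1.1 t2.1 x (pow_ne_zero _ hx)).1
    have c2 := ((MvPolynomial.continuous_eval N).continuousAt.comp (cΦ x hx)).norm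
    have c3 : ∃ᶠ y in 𝓝 x, C * ‖(D.v ^ m) y / (s₀ ^ D.l) y‖ -
        ‖MvPolynomial.eval (Phi s₀ s y) N‖ ∈ Ici 0 := by
      refine ((dn _ _ D.hv.1 D.v_ne x).and_eventually
        ((cΦ x hx).eventually (closedBall_mem_nhds _ one_pos))).mono ?_
      rintro y ⟨⟨y1, y2⟩, y3⟩
      have y4 := D.root y y1.1 y2
      rw [mem_Ici, sub_nonneg, bez hN y4, ev_mod R₀ y4, ← hR₀ y y1.1 y2 (pow_ne_zero _ y1.1),
        ← mul_assoc, norm_mul]
      exact mul_le_mul_of_nonneg_right (hC _ y3 _ y4) (norm_nonneg _)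
    have c4 := isClosed_Ici.mem_of_frequently_of_tendsto c3
      ((continuousAt_const.mul c1.norm).sub c2)
    simp only [Pi.sub_apply, Pi.mul_apply, Pi.pow_apply, hv,
      zero_pow (Nat.one_le_iff_ne_zero.1 hm), zero_div, norm_zero, mul_zero, zero_sub,
      mem_Ici, Left.nonneg_neg_iff, norm_le_zero_iff] at c4
    exact (split _ hQ).2.1 c4

end Vale.Agent.P253Z.T2
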