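import Vale.Agent.P253Z.T2.An

/-!
# P253Z, T2: the ratios of sections as charts
-/

open scoped Manifold ContDiff Bundle ENNReal Topology
open Bundle IsManifold MeasureTheory Set Metric Filter Vale.Agent.P253.Mfd
open Vale.Agent.P272.K (Cm dz dzb cHess jacM Chart)

noncomputable section

namespace Vale.Agent.P253Z.T2

open VS (ev Jac)

variable {n : ℕ} {M : Type} [MetricSpace M] [ChartedSpace (Cm n) M] [IsManifold 𝓘(ℂ, Cm n) 1 M]

namespace PCXP

variable (a : B1a n M) {m : ℕ} {s₀ : M → ℂ} {s : Fin n → M → ℂ} (h₀ : IsSec n (-m) s₀)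
  (hs : ∀ i, IsSec n (-m) (s i))
include a h₀ hs

theorem eta_iff (x : M) : Eta s₀ s x ↔ Jac s₀ s x ≠ 0 := by
  constructor
  · rintro ⟨h1, h2⟩
    exact mul_ne_zero (pow_ne_zero _ h1)
      (VS.DJ_ne.2 (h2 _ (a.chart x) (mem_chart_source _ x)))
  · intro h
    have h1 : s₀ x ≠ 0 := fun h0 => h (by simp [Jac, h0])
    refine ⟨h1, fun e he hx => VS.DJ_ne.1 ?_⟩
    rw [VS.DJ_ch a h₀ hs he (a.chart x) hx (mem_chart_source _ x) h1]
    exact mul_ne_zero (right_ne_zero_of_mul h)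
      (a.jac_ne e _ he (a.chart x) x hx (mem_chart_source _ x))

theorem has {x : M} (hx : Eta s₀ s x) {e : Chart n M} (he : Hc e) (hxe : x ∈ e.source) :
    ∃ L : Cm n ≃L[ℂ] Cm n,
      HasStrictFDerivAt (fun z => Phi s₀ s (e.symm z)) (L : Cm n →L[ℂ] Cm n) (e x) := by
  have h1 := hx.2 e he hxe
  refine ⟨ContinuousLinearEquiv.ofBijective _ (LinearMap.ker_eq_bot.2 h1.1)
    (LinearMap.range_eq_top.2 h1.2), ?_⟩
  rw [ContinuousLinearEquiv.coe_ofBijective]
  exact (VS.Phi_an a h₀ hs he hxe hx.1).hasStrictFDerivAt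

/-- an etale restriction of `Φ` which is a homeomorphism is a holomorphic chart -/
theorem hc_of {e : Chart n M} (h : ∀ x ∈ e.source, Eta s₀ s x ∧ e x = Phi s₀ s x) : Hc e := by
  intro e' he'
  have hc : Hc e' := subset_maximalAtlas he'
  have key : ∀ w ∈ (e'.symm ≫ₕ e).source, ContDiffAt ℂ 1 (e'.symm ≫ₕ e) w ∧
      ∃ L : Cm n ≃L[ℂ] Cm n, HasFDerivAt (e'.symm ≫ₕ e) (L : Cm n →L[ℂ] Cm n) w := by
    intro w hw
    have h1 : (e'.symm ≫ₕ e : Cm n → Cm n) =ᶠ[𝓝 w] fun z => Phi s₀ s (e'.symm z) := by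
      filter_upwards [(e'.symm ≫ₕ e).open_source.mem_nhds hw] with z hz using (h _ hz.2).2
    have h0 : Eta s₀ s (e'.symm w) := (h _ hw.2).1
    obtain ⟨L, hL⟩ := has a h₀ hs h0 hc (e'.map_target hw.1)
    have h2 := VS.Phi_an a h₀ hs hc (e'.map_target hw.1) h0.1
    rw [e'.right_inv hw.1] at hL h2
    exact ⟨h2.contDiffAt.congr_of_eventuallyEq h1, L, hL.hasFDerivAt.congr_of_eventuallyEq h1⟩
  have mem : e'.symm ≫ₕ e ∈ contDiffGroupoid 1 𝓘(ℂ, Cm n) := by
    have k1 : ContDiffOn ℂ 1 (e'.symm ≫ₕ e) (e'.symm ≫ₕ e).source :=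
      fun w hw => (key w hw).1.contDiffWithinAt
    have k2 : ContDiffOn ℂ 1 (e'.symm ≫ₕ e).symm (e'.symm ≫ₕ e).target := fun z hz => by
      obtain ⟨h1, L, hL⟩ := key _ ((e'.symm ≫ₕ e).map_target hz)
      exact ((e'.symm ≫ₕ e).contDiffAt_symm hz hL h1).contDiffWithinAt
    rw [contDiffGroupoid, mem_groupoid_of_pregroupoid]
    simpa only [contDiffPregroupoid, mfld_simps] using And.intro k1 k2
  exact ⟨(contDiffGroupoid 1 𝓘(ℂ, Cm n)).symm mem, mem⟩

theorem exists_pc (hm : 1 ≤ m) {x : M} (hx : Jac s₀ s x ≠ 0) :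
    ∃ e, PC s₀ s e ∧ x ∈ e.source := by
  have hx' := mem_chart_source (Cm n) x
  obtain ⟨L, hL⟩ := has a h₀ hs ((eta_iff a h₀ hs x).2 hx) (a.chart x) hx'
  have hU : IsOpen {y | Jac s₀ s y ≠ 0} :=
    isOpen_iff_mem_nhds.2 fun y hy => VS.ne_nhds a (VS.Jac_sec a hm h₀ hs) hy
  have key : ∀ y ∈ ((chartAt (Cm n) x ≫ₕ hL.toOpenPartialHomeomorph _).restrOpen _ hU).source,
      Eta s₀ s y ∧
        ((chartAt (Cm n) x ≫ₕ hL.toOpenPartialHomeomorph _).restrOpen _ hU) y = Phi s₀ s y :=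
    fun y hy => ⟨(eta_iff a h₀ hs y).2 hy.2,
      congrArg (Phi s₀ s) ((chartAt (Cm n) x).left_inv hy.1.1)⟩
  exact ⟨_, ⟨hc_of a h₀ hs key, fun y hy => ⟨(key y hy).1.1, (key y hy).2⟩⟩,
    ⟨hx', hL.mem_toOpenPartialHomeomorph_source⟩, hx⟩

end PCXP

open PCXP

theorem chj (a : B1a n M) : CHJ n M := by
  intro m s₀ s hm h₀ hs
  refine ⟨eta_iff a h₀ hs, fun S j hS hj h => ?_⟩
  have hopen : IsOpen (j '' S) := by
    refine isOpen_iff_mem_nhds.2 ?_
    rintro _ ⟨z, hz, rfl⟩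
    obtain ⟨e, he, hze⟩ := exists_pc a h₀ hs hm ((eta_iff a h₀ hs _).1 (h z hz).1)
    have h1 : j =ᶠ[𝓝 z] e.symm := by
      filter_upwards [(hj.continuousAt (hS.mem_nhds hz)).eventually
        (e.open_source.mem_nhds hze), hS.mem_nhds hz] with w h2 h3
      rw [← e.left_inv h2, (he.2 _ h2).2, (h w h3).2]
    have h2 := e.symm_map_nhds_eq hze
    rw [(he.2 _ hze).2, (h z hz).2, ← map_congr h1] at h2
    rw [← h2]
    exact image_mem_map (hS.mem_nhds hz)
  let e : Chart n M :=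
    { toFun := Phi s₀ s
      invFun := j
      source := j '' S
      target := S
      map_source' := by
        rintro _ ⟨z, hz, rfl⟩
        rwa [(h z hz).2]
      map_target' := fun z hz => mem_image_of_mem j hz
      left_inv' := by
        rintro _ ⟨z, hz, rfl⟩
        rw [(h z hz).2]
      right_inv' := fun z hz => (h z hz).2
      open_source := hopen
      open_target := hS
      continuousOn_toFun := by
        rintro _ ⟨z, hz, rfl⟩
        exact (continuousAt_pi.2 fun i => VS.ratio_cont a (hs i) h₀ (h z hz).1.1).continuousWithinAt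
      continuousOn_invFun := hj }
  have key : ∀ x ∈ e.source, Eta s₀ s x ∧ e x = Phi s₀ s x := by
    rintro _ ⟨z, hz, rfl⟩
    exact ⟨(h z hz).1, rfl⟩
  exact ⟨e, ⟨hc_of a h₀ hs key, fun y hy => ⟨(key y hy).1.1, rfl⟩⟩, rfl, fun _ _ => rfl⟩

theorem pcx (a : B1a n M) : PCX n M := by
  intro m s₀ s hm h₀ hs
  refine ⟨fun x hx => exists_pc a h₀ hs hm hx, fun e he z hz => ?_⟩
  have h1 : ∀ w ∈ e.target, Phi s₀ s (e.symm w) = w := fun w hw => by
    rw [← (he.2 _ (e.map_target hw)).2, e.right_inv hw]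
  have h2 : co (-m) s₀ e z ≠ 0 := (VS.co_ne a he.1 hz).2 (he.2 _ (e.map_target hz)).1
  refine ⟨?_, h2, fun i => ?_⟩
  · have h3 : (fun w i => s i (e.symm w) / s₀ (e.symm w)) =ᶠ[𝓝 z] id := by
      filter_upwards [e.open_target.mem_nhds hz] with w hw using h1 w hw
    rw [VS.co_Jac a hm h₀ hs he.1 hz, VS.DJ, h3.fderiv_eq, fderiv_id,
      ContinuousLinearMap.coe_id, LinearMap.det_id, mul_one]
  · rw [mul_comm, ← div_eq_iff h2, VS.co_div a _ _ he.1 hz]
    exact congrFun (h1 z hz) i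

end Vale.Agent.P253Z.T2
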