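import Vale.Agent.P253Z.T2.Out
import Vale.Agent.P253Z.VS.Loc
import Vale.Agent.P267.H338.Riem

/-!
# P253Z, T2: the field of ratios of sections
-/

open scoped Manifold ContDiff Topology
open IsManifold Set Filter
open Vale.Agent.P272.K (Cm Chart)

set_option linter.unusedSectionVars false

noncomputable section

namespace Vale.Agent.P253Z.T2

variable {n : ℕ} {M : Type} [MetricSpace M] [ChartedSpace (Cm n) M] [IsManifold 𝓘(ℂ, Cm n) 1 M]

namespace Ffe

variable (n) in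
/-- `u` is holomorphic at `x` -/
def Ana (u : M → ℂ) (x : M) : Prop :=
  ∀ e : Chart n M, Hc e → x ∈ e.source → AnalyticAt ℂ (fun z => u (e.symm z)) (e x)

variable (a : B1a n M)
include a

theorem ana_of {u : M → ℂ} {x : M} {e : Chart n M} (he : Hc e) (hx : x ∈ e.source)
    (h : AnalyticAt ℂ (fun z => u (e.symm z)) (e x)) : Ana n u x := by
  intro e' he' hx'
  have h1 := a.hol e' e he' he _ (e'.map_source hx') (by rwa [e'.left_inv hx'])
  refine (h.comp_of_eq h1 (by rw [e'.left_inv hx'])).congr ?_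
  filter_upwards [(e'.tendsto_symm hx').eventually (e.open_source.mem_nhds hx)] with z hz
  simp only [Function.comp_apply, e.left_inv hz]

theorem Ana.nhds {u : M → ℂ} {x : M} (h : Ana n u x) : ∀ᶠ y in 𝓝 x, Ana n u y := by
  have hx := mem_chart_source (Cm n) x
  have h1 := ((chartAt (Cm n) x).continuousAt hx).eventually
    (h _ (a.chart x) hx).eventually_analyticAt
  filter_upwards [h1, (chartAt (Cm n) x).open_source.mem_nhds hx] with y h2 h3
  exact ana_of a (a.chart x) h3 h2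

theorem Ana.cont {u : M → ℂ} {x : M} (h : Ana n u x) : ContinuousAt u x :=
  VS.cont_of (mem_chart_source _ x) (h _ (a.chart x) (mem_chart_source _ x))

/-- Riemann's extension theorem for a ratio of sections -/
theorem ext {k : ℤ} {s t : M → ℂ} (hs : IsSec n k s) (ht : IsSec n k t) {x : M}
    (hne : ∃ᶠ y in 𝓝 x, t y ≠ 0) {C : ℝ} (hb : ∀ᶠ y in 𝓝 x, t y ≠ 0 → ‖s y / t y‖ ≤ C) :
    ∃ u, Ana n u x ∧ ∀ᶠ y in 𝓝 x, t y ≠ 0 → u y = s y / t y := by
  have hx := mem_chart_source (Cm n) x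
  have he := a.chart x
  generalize chartAt (Cm n) x = e at hx he
  obtain ⟨V, h1, h2, h3⟩ := eventually_nhds_iff.1
    (((e.tendsto_symm hx).eventually hb).and (e.open_target.mem_nhds (e.map_source hx)))
  obtain ⟨W, w1, w2, w3, U, w4, w5⟩ := P267.H338.riemann_extension (g := co k t e)
    (u := fun z => s (e.symm z) / t (e.symm z)) h2 h3
    (fun z hz => (ht e he z (h1 z hz).2).differentiableAt.differentiableWithinAt)
    (by
      rw [← e.map_nhds_eq hx, frequently_map]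
      refine (hne.and_eventually (e.open_source.mem_nhds hx)).mono fun y hy => ?_
      rw [VS.co_ne a he (e.map_source hy.2), e.left_inv hy.2]
      exact hy.1)
    (fun z hz => (VS.ratio_an a hs ht he (h1 z hz.1).2
      ((VS.co_ne a he (h1 z hz.1).2).1 hz.2)).differentiableAt.differentiableWithinAt)
    (C := C) fun z hz h => (h1 z hz).1 ((VS.co_ne a he (h1 z hz).2).1 h)
  refine ⟨fun y => U (e y), ana_of a he hx ?_, ?_⟩
  · refine (P268.analyticAt_of_differentiableOn w1 w4 w2).congr ?_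
    filter_upwards [e.open_target.mem_nhds (e.map_source hx)] with z hz
    rw [e.right_inv hz]
  · filter_upwards [(e.continuousAt hx).eventually (w1.mem_nhds w2), e.open_source.mem_nhds hx]
      with y h4 h5 h6
    rw [w5 _ h4 ((VS.co_ne a he (e.map_source h5)).2 (by rwa [e.left_inv h5])), e.left_inv h5]

variable [Nonempty M]

/-- generic points near `x` -/
def G (x : M) : Filter M := 𝓝 x ⊓ VS.gen a

theorem G_le (x : M) : G a x ≤ VS.gen a := inf_le_right

theorem G_le' (x : M) : G a x ≤ 𝓝 x := inf_le_left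

instance (x : M) : (G a x).NeBot :=
  inf_neBot_iff.2 fun _ hs _ ht =>
    ((VS.gen_freq a ht x).and_eventually hs).exists.imp fun _ h => ⟨h.2, h.1⟩

theorem G_nhds {p : M → Prop} {x : M} (h : ∀ᶠ y in G a x, p y) :
    ∀ᶠ y in 𝓝 x, ∀ᶠ w in G a y, p w := by
  obtain ⟨s, hs, t, ht, h⟩ := eventually_inf.1 h
  filter_upwards [eventually_mem_nhds_iff.2 hs] with y hy
  exact eventually_inf.2 ⟨s, hy, t, ht, h⟩

theorem lim_eq {u r : M → ℂ} {x : M} (h : Ana n u x) (hr : u =ᶠ[G a x] r) :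
    limUnder (G a x) r = u x :=
  (((h.cont a).tendsto.mono_left (G_le' a x)).congr' hr).limUnder_eq

/-- A field whose elements are generically defined functions. -/
theorem ff_of {T : ℕ → Submodule ℂ (M → ℂ)} (hT : ∀ m, ∀ s ∈ T m, IsSec n (-m) s) {K : Type}
    [Field K] [Algebra ℂ K] (ρ : K → M → ℂ)
    (hadd : ∀ f g, ρ (f + g) =ᶠ[VS.gen a] ρ f + ρ g)
    (hmul : ∀ f g, ρ (f * g) =ᶠ[VS.gen a] ρ f * ρ g)
    (hc : ∀ c, ρ (algebraMap ℂ K c) =ᶠ[VS.gen a] fun _ => c)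
    (hne : ∀ f, f ≠ 0 → ∀ᶠ y in VS.gen a, ρ f y ≠ 0)
    (hrat : ∀ m, ∀ s ∈ T m, ∀ t ∈ T m, t ≠ 0 → ∃ f, ρ f =ᶠ[VS.gen a] fun y => s y / t y)
    (hsurj : ∀ f, ∃ m, ∃ s ∈ T m, ∃ t ∈ T m, t ≠ 0 ∧ ρ f =ᶠ[VS.gen a] fun y => s y / t y) :
    Nonempty (FF n T K) := by
  let O : M → Subalgebra ℂ K := fun x =>
    { carrier := {f | ∃ u, Ana n u x ∧ u =ᶠ[G a x] ρ f}
      mul_mem' := by
        rintro f g ⟨u, h1, h2⟩ ⟨v, h3, h4⟩
        exact ⟨u * v, fun e he hx => (h1 e he hx).mul (h3 e he hx),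
          (h2.mul h4).trans ((hmul f g).filter_mono (G_le a x)).symm⟩
      add_mem' := by
        rintro f g ⟨u, h1, h2⟩ ⟨v, h3, h4⟩
        exact ⟨u + v, fun e he hx => (h1 e he hx).add (h3 e he hx),
          (h2.add h4).trans ((hadd f g).filter_mono (G_le a x)).symm⟩
      algebraMap_mem' := fun c => ⟨fun _ => c, fun _ _ _ => analyticAt_const,
        ((hc c).filter_mono (G_le a x)).symm⟩ }
  have hloc : ∀ {x f u}, Ana n u x → u =ᶠ[G a x] ρ f →
      ∀ᶠ y in 𝓝 x, f ∈ O y ∧ limUnder (G a y) (ρ f) = u y := by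
    intro x f u h1 h2
    filter_upwards [h1.nhds a, G_nhds a h2] with y h3 h4
    exact ⟨⟨u, h3, h4⟩, lim_eq a h3 h4⟩
  have hr : ∀ {f m s t}, s ∈ T m → t ∈ T m → (ρ f =ᶠ[VS.gen a] fun y => s y / t y) →
      ∀ y, t y ≠ 0 → f ∈ O y ∧ limUnder (G a y) (ρ f) = s y / t y := by
    intro f m s t hs ht h y hy
    exact (hloc (u := fun y => s y / t y)
      (fun e he hx => VS.ratio_an' a (hT m s hs) (hT m t ht) he hx hy)
      (h.filter_mono (G_le a y)).symm).self_of_nhds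
  refine ⟨⟨O, fun f x => limUnder (G a x) (ρ f), ?_, ?_, fun x c => ?_, ?_, ?_, ?_, ?_,
    fun x f C h => ?_, fun m s hs t ht h => ?_, fun f => ?_⟩⟩
  · rintro x f ⟨u, h1, h2⟩ g ⟨v, h3, h4⟩
    rw [lim_eq a h1 h2, lim_eq a h3 h4]
    exact lim_eq a (u := u + v) (fun e he hx => (h1 e he hx).add (h3 e he hx))
      ((h2.add h4).trans ((hadd f g).filter_mono (G_le a x)).symm)
  · rintro x f ⟨u, h1, h2⟩ g ⟨v, h3, h4⟩
    rw [lim_eq a h1 h2, lim_eq a h3 h4]
    exact lim_eq a (u := u * v) (fun e he hx => (h1 e he hx).mul (h3 e he hx))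
      ((h2.mul h4).trans ((hmul f g).filter_mono (G_le a x)).symm)
  · exact lim_eq a (u := fun _ => c) (fun _ _ _ => analyticAt_const)
      ((hc c).filter_mono (G_le a x)).symm
  · rintro x f ⟨u, h1, h2⟩
    exact (hloc h1 h2).mono fun y h => h.1
  · rintro x f ⟨u, h1, h2⟩ e he hx
    refine (h1 e he hx).congr ?_
    filter_upwards [(e.tendsto_symm hx).eventually (hloc h1 h2)] with z hz using hz.2.symm
  · rintro x f ⟨u, h1, h2⟩ h
    by_contra h0
    obtain ⟨y, ⟨⟨h3, h4⟩, h5⟩, h6⟩ := (((h2.and ((hne f h0).filter_mono (G_le a x))).and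
      (h.filter_mono (G_le' a x))).and ((hloc h1 h2).filter_mono (G_le' a x))).exists
    exact h4 (h3.symm.trans (h6.2.symm.trans h5))
  · rintro x f ⟨u, h1, h2⟩ h
    rw [lim_eq a h1 h2] at h
    by_cases h0 : f = 0
    · rw [h0, inv_zero]
      exact zero_mem _
    refine ⟨fun y => (u y)⁻¹, fun e he hx => (h1 e he hx).inv (by rwa [e.left_inv hx]), ?_⟩
    have h3 := hmul f⁻¹ f
    rw [inv_mul_cancel₀ h0, ← map_one (algebraMap ℂ K)] at h3
    filter_upwards [h2, ((hc 1).symm.trans h3).filter_mono (G_le a x)] with y h4 h5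
    rw [h4]
    exact (eq_inv_of_mul_eq_one_left h5.symm).symm
  · obtain ⟨m, s, hs, t, ht, h0, h1⟩ := hsurj f
    have h2 : ∀ᶠ y in VS.gen a, t y ≠ 0 := ⟨m, t, hT m t ht, h0, fun _ hy => hy⟩
    obtain ⟨u, h3, h4⟩ := ext a (hT m s hs) (hT m t ht) (VS.gen_freq a h2 x) (C := C)
      (h.mono fun y hy hy' => (hr hs ht h1 y hy').2 ▸ hy (hr hs ht h1 y hy').1)
    refine ⟨u, h3, ?_⟩
    filter_upwards [h4.filter_mono (G_le' a x), h2.filter_mono (G_le a x),
      h1.filter_mono (G_le a x)] with y h5 h6 h7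
    rw [h5 h6, h7]
  · obtain ⟨f, hf⟩ := hrat m s hs t ht h
    exact ⟨f, hr hs ht hf⟩
  · obtain ⟨m, s, hs, t, ht, h0, h1⟩ := hsurj f
    exact ⟨m, s, hs, t, ht, h0, hr hs ht h1⟩

end Ffe

/-- **FFE** -/
theorem ffe [Nonempty M] (a : B1a n M) : FFE n M := by
  intro T hT h
  have hne : ∀ m, ∀ s ∈ T m, s ≠ 0 → ∀ᶠ y in VS.gen a, s y ≠ 0 := fun m s hs h0 =>
    ⟨m, s, hT m s hs, h0, fun _ hy => hy⟩
  let R := VS.RA T (VS.gen a) h hne
  let I : Ideal R := VS.RI
  have : I.IsMaximal := VS.RI_max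
  let _ : Field (R ⧸ I) := Ideal.Quotient.field I
  obtain ⟨σ, hσ⟩ := (Ideal.Quotient.mk_surjective (I := I)).hasRightInverse
  have key : ∀ u : R, ((σ (Ideal.Quotient.mk I u) : R) : M → ℂ) =ᶠ[VS.gen a] (u : M → ℂ) := by
    intro u
    filter_upwards [VS.mem_RI.1 (Ideal.Quotient.eq.1 (hσ (Ideal.Quotient.mk I u)))] with y hy
    exact sub_eq_zero.1 hy
  refine ⟨R ⧸ I, inferInstance, inferInstance, Ffe.ff_of a hT (fun f => ((σ f : R) : M → ℂ))
    (fun f g => ?_) (fun f g => ?_) (fun c => ?_) (fun f hf => ?_) (fun m s hs t ht h0 => ?_)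
    fun f => ?_⟩
  · have h1 := key (σ f + σ g)
    rwa [map_add, hσ f, hσ g] at h1
  · have h1 := key (σ f * σ g)
    rwa [map_mul, hσ f, hσ g] at h1
  · exact key (algebraMap ℂ R c)
  · exact VS.ev_ne fun k => hf ((hσ f).symm.trans (Ideal.Quotient.eq_zero_iff_mem.2 k))
  · exact ⟨_, key ⟨fun y => s y / t y, m, s, hs, t, ht, hne m t ht h0, by simp⟩⟩
  · obtain ⟨m, s, hs, t, ht, h1, h2⟩ := (σ f).2
    refine ⟨m, s, hs, t, ht, ?_, h2⟩
    rintro rfl
    obtain ⟨y, hy⟩ := h1.exists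
    exact hy rfl

end Vale.Agent.P253Z.T2
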