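import Vale.Agent.P253Z.T2.Hom

/-!
# P253Z, T2: assembly for every frame
-/

open scoped Manifold ContDiff Bundle ENNReal Topology
open Bundle IsManifold MeasureTheory Set Metric Filter Vale.Agent.P253.Mfd
open Vale.Agent.P272.K (Cm Chart)

noncomputable section

namespace Vale.Agent.P253Z.T2

variable {n : ℕ} {M : Type} [MetricSpace M] [ChartedSpace (Cm n) M]
  [RiemannianBundle (fun x : M => TangentSpace 𝓘(ℝ, Cm n) x)] [MeasurableSpace M]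

theorem exists_ne {Q : Pz n} (hQ : Q ≠ 0) (c : Cm n) {ρ : ℝ} (hρ : 0 < ρ) :
    ∃ z ∈ ball c ρ, MvPolynomial.eval z Q ≠ 0 := by
  by_contra h
  push Not at h
  refine hQ (MvPolynomial.funext fun z => ?_)
  have h7 : AnalyticOnNhd ℂ (fun z : Cm n => MvPolynomial.eval z Q) univ :=
    AnalyticOnNhd.eval_mvPolynomial Q
  have h8 := h7.eqOn_zero_of_preconnected_of_eventuallyEq_zero isPreconnected_univ
    (mem_univ c) (by filter_upwards [ball_mem_nhds _ hρ] with w hw using h w hw)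
  simpa using h8 (mem_univ z)

variable (n) in
/-- **BNJ**: inverse branches extend across the boundary points off a hypersurface -/
def BNJ (μ : Measure M) : Prop :=
  ∀ (m : ℕ) (s₀ : M → ℂ) (s : Fin n → M → ℂ), 1 ≤ m → InH n μ m s₀ → (∀ i, InH n μ m (s i)) →
    (∃ x, Et s₀ s x) → ∃ d : Pz n, d ≠ 0 ∧
      ∀ (c : Cm n) (ρ : ℝ) (j : Cm n → M), 0 < ρ → ContinuousOn j (ball c ρ) →
      (∀ z ∈ ball c ρ, Et s₀ s (j z) ∧ Phi s₀ s (j z) = z) →
      ∀ ζ ∈ sphere c ρ, MvPolynomial.eval ζ d ≠ 0 →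
      ∃ x, Et s₀ s x ∧ MapClusterPt x (𝓝[ball c ρ] ζ) j

/-- a small ball that touches the sphere from inside -/
theorem small_ball {c ζ : Cm n} {ρ : ℝ} (hρ : 0 < ρ) (hζ : ζ ∈ sphere c ρ) {W : Set (Cm n)}
    (hW : W ∈ 𝓝 ζ) : ∃ (c' : Cm n) (ρ' : ℝ), 0 < ρ' ∧ ζ ∈ sphere c' ρ' ∧
      ball c' ρ' ⊆ ball c ρ ∧ closedBall c' ρ' ⊆ W := by
  obtain ⟨δ, hδ, hW⟩ := Metric.mem_nhds_iff.1 hW
  set ε : ℝ := min 1 (δ / (4 * ρ)) with hε
  have h0 : 0 < ε := lt_min one_pos (by positivity)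
  have h1 : ε ≤ 1 := min_le_left _ _
  have h2 : ε * ρ ≤ δ / 4 := by
    have := mul_le_mul_of_nonneg_right (min_le_right 1 (δ / (4 * ρ))) hρ.le
    rwa [show δ / (4 * ρ) * ρ = δ / 4 by field_simp] at this
  have h3 : ‖c - ζ‖ = ρ := by rw [← dist_eq_norm, dist_comm]; exact hζ
  have h4 : dist ζ (ζ + ε • (c - ζ)) = ε * ρ := by
    rw [dist_self_add_right, norm_smul, h3, Real.norm_of_nonneg h0.le]
  have h5 : dist (ζ + ε • (c - ζ)) c = (1 - ε) * ρ := by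
    rw [dist_eq_norm, show ζ + ε • (c - ζ) - c = (1 - ε) • (ζ - c) by module, norm_smul,
      norm_sub_rev ζ c, h3, Real.norm_of_nonneg (by linarith)]
  refine ⟨ζ + ε • (c - ζ), ε * ρ, by positivity, h4, fun z hz => ?_, fun z hz => hW ?_⟩
  · have := dist_triangle z (ζ + ε • (c - ζ)) c
    rw [mem_ball] at hz ⊢
    nlinarith
  · have := dist_triangle z (ζ + ε • (c - ζ)) ζ
    rw [mem_closedBall] at hz
    rw [dist_comm (ζ + ε • (c - ζ)), h4] at this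
    rw [mem_ball]
    linarith

theorem bnj_of {μ : Measure M} (prim : PRIM n μ) (cut : CUT n μ) (bnd : BNDa n μ) : BNJ n μ := by
  intro m s₀ s hm h₀ hs hE
  obtain ⟨p, -⟩ := id hE
  obtain ⟨F, r, k, a, b, hab, hB⟩ := bnd p m s₀ s hm h₀ hs hE
  obtain ⟨D⟩ := prim p F m s₀ s hm h₀ hs hE
  obtain ⟨Q, hQ⟩ := cut p F m s₀ s hm h₀ hs hE D r k a b hab
  refine ⟨Q, hQ.ne, fun c ρ j hρ hj hΦ ζ hζ hζQ => ?_⟩
  obtain ⟨c', ρ', h1, h2, h3, h4⟩ := small_ball hρ hζ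
    ((MvPolynomial.continuous_eval Q).continuousAt.eventually_ne hζQ)
  obtain ⟨C, hC⟩ := hQ.bd _ (isCompact_closedBall c' ρ') h4
  obtain ⟨x, h5, h6⟩ := hB c' ρ' C j h1 (hj.mono h3) (fun z hz => hΦ z (h3 hz))
    (fun i z hz => hC i _ (hΦ z (h3 hz)).1.1
      (by rw [(hΦ z (h3 hz)).2]; exact ball_subset_closedBall hz)) ζ h2
  exact ⟨x, h5, h6.mono (nhdsWithin_mono _ h3)⟩

theorem aff_of {μ : Measure M} (A : All n μ) (et : ET n M) (prim : PRIM n μ) (bnj : BNJ n μ)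
    (cut : CUT n μ) (clop : CLOP n μ) (conn : CONN n) (fin : FIN n μ) : AFF n μ := by
  intro p F
  obtain ⟨e, he, hx, m, hm, s₀, s, h₀, hs, hne, hb⟩ := A.pk3 p
  have hE : ∃ x, Et s₀ s x :=
    ⟨p, et.of_chart m s₀ s h₀.1 (fun i => (hs i).1) p e he hx hne hb⟩
  obtain ⟨d, hd, hB⟩ := bnj m s₀ s hm h₀ hs hE
  obtain ⟨D⟩ := prim p F m s₀ s hm h₀ hs hE
  have gr := gr_tame A.a F
  have t₀ := tame_of_inH F hm h₀
  obtain ⟨N, w, hw, hw'⟩ := hom gr t₀ (fun i => tame_of_inH F hm (hs i)) d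
  obtain ⟨x₀, hx₀⟩ := id hE
  obtain ⟨V, ρ, j, -, -, hρ, -, h4, h5⟩ := et.inv m s₀ s h₀.1 (fun i => (hs i).1) x₀ hx₀
  have hw0 : w ≠ 0 := by
    obtain ⟨z, hz, h7⟩ := exists_ne hd _ hρ
    have h8 := (h5 _ (h4 z hz).1).1.1
    intro h
    have h9 := hw' _ h8
    rw [h, (h4 z hz).2] at h9
    exact mul_ne_zero (pow_ne_zero _ h8) h7 h9.symm
  obtain ⟨Q, hQ⟩ := cut p F m s₀ s hm h₀ hs hE D 1 (fun _ => N * m) (fun _ => s₀ ^ N) (fun _ => w)
    fun _ => ⟨gr.pow t₀ N, hw, hw0⟩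
  obtain ⟨h1, h2⟩ := clop p F m s₀ s h₀.1 (fun i => (hs i).1) D 1 (fun _ => s₀ ^ N) (fun _ => w)
    Q hQ (by
      intro c r C j hr hj hΦ hC ζ hζ
      refine hB c r j hr hj hΦ ζ hζ fun h0 => ?_
      have hcl : ζ ∈ closure (ball c r) := by
        rw [closure_ball c hr.ne']; exact sphere_subset_closedBall hζ
      have h6 : ∀ z ∈ ball c r, 1 ≤ C * ‖MvPolynomial.eval z d‖ := by
        intro z hz
        have h7 := hC 0 z hz
        have h8 := (hΦ z hz).1.1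
        rw [hw' _ h8, (hΦ z hz).2, norm_mul, Pi.pow_apply, mul_left_comm] at h7
        have h9 : 0 < ‖s₀ (j z) ^ N‖ := norm_pos_iff.2 (pow_ne_zero _ h8)
        exact (le_mul_iff_one_le_right h9).1 h7
      have h7 : IsClosed {z : Cm n | 1 ≤ C * ‖MvPolynomial.eval z d‖} :=
        isClosed_le continuous_const
          (continuous_const.mul (MvPolynomial.continuous_eval d).norm)
      have h8 := h7.closure_subset_iff.2 h6 hcl
      simp only [mem_ofPred_eq, h0, norm_zero, mul_zero] at h8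
      linarith)
  refine fin p F m s₀ s hm h₀ hs hE D 1 _ _ Q hQ
    (conn D.P Q D.monic D.irr hQ.sep _ ?_ ?_ h1 h2)
  · rintro q ⟨h4, x, h5, h6, h7⟩
    refine ⟨h4, ?_⟩
    rw [← h6, ← h7]
    exact D.root x h5.1 (hQ.nev x h5.1 (h6 ▸ h4))
  · obtain ⟨z, hz, h7⟩ := exists_ne hQ.ne _ hρ
    exact ⟨(z, D.u (j z) / D.v (j z)), h7, j z, (h5 _ (h4 z hz).1).1, (h4 z hz).2, rfl⟩

end Vale.Agent.P253Z.T2
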