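import Vale.Agent.P253Z.T2.Hom
import Vale.Agent.P253Z.VS.Loc

/-!
# P253Z, T2: the data of `Aff`
-/

open scoped Manifold ContDiff Bundle ENNReal Topology
open Bundle IsManifold MeasureTheory Set Metric Filter Vale.Agent.P253.Mfd
open Vale.Agent.P272.K (Cm Chart)

noncomputable section

namespace Vale.Agent.P253Z.T2

open VS (ev)

variable {n : ℕ} {M : Type} [MetricSpace M] [ChartedSpace (Cm n) M]

namespace Fn

omit [ChartedSpace (Cm n) M] in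
/-- a continuous choice among distinct continuous values is locally constant -/
theorem sheet {d : ℕ} {t : Fin d → M → ℂ} {G : M → ℂ} {x : M} {i : Fin d}
    (ht : ∀ k, ContinuousAt (t k) x) (hd : ∀ k, t k x = t i x → k = i) (hG : ContinuousAt G x)
    (hx : t i x = G x) (h : ∀ᶠ y in 𝓝 x, ∃ k, t k y = G y) : ∀ᶠ y in 𝓝 x, t i y = G y := by
  have h1 : ∀ᶠ y in 𝓝 x, ∀ k, k ≠ i → t k y ≠ G y := eventually_all.2 fun k => by
    by_cases e : k = i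
    · exact Eventually.of_forall fun _ h => absurd e h
    · exact (((ht k).ne_iff_eventually_ne hG).1 fun h => e (hd k (h.trans hx.symm))).mono
        fun _ h _ => h
  filter_upwards [h, h1] with y ⟨k, hk⟩ h2
  by_cases e : k = i
  · exact e ▸ hk
  · exact absurd hk (h2 k e)

variable [RiemannianBundle (fun x : M => TangentSpace 𝓘(ℝ, Cm n) x)] [MeasurableSpace M]
  {μ : Measure M}

/-- all the points over `Q ≠ 0` are etale -/
theorem etale (r : ROOT n) (et : ET n M) {p : M} {F : Fr n μ p} {m : ℕ} {s₀ : M → ℂ}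
    {s : Fin n → M → ℂ} (hm : 1 ≤ m) (h₀ : IsSec n (-m) s₀) (hs : ∀ i, IsSec n (-m) (s i))
    (D : Prim F s₀ s) {k : ℕ} {a b : Fin k → M → ℂ} {Q : Pz n} (hQ : Cut D a b Q)
    (hI : Img s₀ s D.u D.v Q = Var D.P Q) {x : M} (h1 : s₀ x ≠ 0)
    (h2 : MvPolynomial.eval (Phi s₀ s x) Q ≠ 0) : Et s₀ s x := by
  have hv := hQ.nev x h1 h2
  have h3 : (Phi s₀ s x, D.u x / D.v x) ∈ Var D.P Q := ⟨h2, D.root x h1 hv⟩
  obtain ⟨-, x', e1, e2, e3⟩ := hI.ge h3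
  dsimp only at e2 e3
  obtain ⟨V, ρ, j, -, v2, hρ, j1, j2, j3⟩ := et.inv m s₀ s h₀ hs x' e1
  obtain ⟨ρ', t, hρ', t1, t2⟩ := r D.P Q D.monic hQ.sep _ h2
  rw [e2] at j1 j2 j3
  have c1 : ContinuousAt (Phi s₀ s) x :=
    continuousAt_pi.2 fun i => (et.cont _ _ _ (hs i) h₀ x h1).1
  have j4 : j (Phi s₀ s x) = x' := e2 ▸ (j3 x' v2).2.2
  have c2 : ContinuousAt (fun y => j (Phi s₀ s y)) x :=
    (j1.continuousAt (ball_mem_nhds _ hρ)).comp c1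
  have hv' := hQ.nev x' e1.1 (e2 ▸ h2)
  obtain ⟨c3, n3⟩ := et.cont _ _ _ D.hu.1 D.hv.1 x hv
  obtain ⟨c4, n4⟩ := et.cont _ _ _ D.hu.1 D.hv.1 x' hv'
  rw [← j4] at c4 n4
  have b1 := c1.eventually (ball_mem_nhds _ hρ)
  have b2 := c1.eventually (ball_mem_nhds _ hρ')
  have n5 := c2.eventually n4
  obtain ⟨-, t3, t4⟩ := t2 _ (mem_ball_self hρ')
  obtain ⟨i, hi⟩ := (t4 _).1 h3.2
  have ct : ∀ k, ContinuousAt (fun y => t k (Phi s₀ s y)) x := fun k =>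
    (t1 k _ (mem_ball_self hρ')).continuousAt.comp c1
  have k1 := sheet ct (fun k => t3 k i) c3 hi (by
    filter_upwards [b2, n3, (et.cont _ _ _ h₀ h₀ x h1).2] with y y1 y2 y3
    exact ((t2 _ y1).2.2 _).1 (D.root y y3 y2))
  have c5 : ContinuousAt (fun y => D.u (j (Phi s₀ s y)) / D.v (j (Phi s₀ s y))) x :=
    Tendsto.comp c4 c2
  have k2 := sheet ct (fun k => t3 k i) c5 (hi.trans (by simp only [j4, e3])) (by
    filter_upwards [b1, b2, n5] with y y1 y2 y3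
    have := D.root _ (j3 _ (j2 _ y1).1).1.1 y3
    rw [(j2 _ y1).2] at this
    exact ((t2 _ y2).2.2 _).1 this)
  have k3 : ∃ᶠ y in 𝓝 x, y = j (Phi s₀ s y) := by
    refine ((et.dense m s₀ s hm h₀ hs ⟨x', e1⟩ m s₀ h₀ (fun h => h1 (congrFun h x)) x).and_eventually
      (b1.and (b2.and (n3.and (n5.and (k1.and k2)))))).mono fun y ⟨y0, y1, y2, y3, y4, y5, y6⟩ => ?_
    exact D.inj y _ y0.1 (j3 _ (j2 _ y1).1).1 y3 y4 (j2 _ y1).2.symm (y5.symm.trans y6)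
      (hQ.sep (_, _) ⟨(t2 _ y2).1, D.root y y0.2 y3⟩)
  have k4 : x = j (Phi s₀ s x) := tendsto_nhds_unique_of_frequently_eq continuousAt_id c2 k3
  rwa [k4, j4]

end Fn

variable [RiemannianBundle (fun x : M => TangentSpace 𝓘(ℝ, Cm n) x)] [MeasurableSpace M]
  {μ : Measure M}

theorem fin (a : B1a n M) (r : ROOT n) (et : ET n M) : FIN n μ := by
  intro p F m s₀ s hm h₀ hs hE D k a' b Q hQ hI
  have g := gr_tame a F
  have t₀ := tame_of_inH F hm h₀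
  obtain ⟨N, w, w1, w2⟩ := hom g t₀ (fun i => tame_of_inH F hm (hs i)) Q
  have hσ : ∀ x, (s₀ * w) x ≠ 0 ↔ s₀ x ≠ 0 ∧ MvPolynomial.eval (Phi s₀ s x) Q ≠ 0 := fun x => by
    rw [Pi.mul_apply, mul_ne_zero_iff]
    refine and_congr_right fun h => ?_
    rw [w2 x h, mul_ne_zero_iff, and_iff_right (pow_ne_zero _ h)]
  have hv := fun x h => hQ.nev x ((hσ x).1 h).1 ((hσ x).1 h).2
  have he := fun x h => Fn.etale r et hm h₀.1 (fun i => (hs i).1) D hQ hI ((hσ x).1 h).1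
    ((hσ x).1 h).2
  have hr := fun x h => D.root x ((hσ x).1 h).1 (hv x h)
  have hd := fun x h => hQ.sep (_, _) ⟨((hσ x).1 h).2, hr x h⟩
  refine ⟨⟨⟨m, D.l, m + N * m, s₀, s, D.u, D.v, s₀ * w, D.P, hm, h₀, hs, D.hu, D.hv,
    g.mul _ _ _ t₀ _ w1, ?_, D.monic, fun x h => ((hσ x).1 h).1, hv, fun x h => (he x h).2, hr, hd,
    fun x y hx hy e e' => D.inj x y (he x hx) (he y hy) (hv x hx) (hv y hy) e e' (hd x hx),
    fun l u hu v hv' h0 => (D.gen l u hu v hv' h0).imp fun d h => ⟨h.1, h.2.imp fun R hR x hx =>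
      hR x ((hσ x).1 hx).1 (hv x hx)⟩⟩, Q, fun x h => ((hσ x).1 h).2, fun ζ t h1 h2 => ?_⟩⟩
  · obtain ⟨x, hx⟩ := hE
    obtain ⟨V, ρ, j, -, -, hρ, -, h4, h5⟩ := et.inv m s₀ s h₀.1 (fun i => (hs i).1) x hx
    obtain ⟨z, h6, h7⟩ := ((VS.freq_ne hQ.ne _).and_eventually (ball_mem_nhds _ hρ)).exists
    exact fun h => (hσ (j z)).2 ⟨(h5 _ (h4 z h7).1).1.1, by rwa [(h4 z h7).2]⟩ (congrFun h _)
  · obtain ⟨-, x, e1, e2, e3⟩ := hI.ge (show (ζ, t) ∈ Var D.P Q from ⟨h1, h2⟩)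
    exact ⟨x, (hσ x).2 ⟨e1.1, e2 ▸ h1⟩, e2, e3⟩

end Vale.Agent.P253Z.T2
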