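import Vale.Agent.P253Z.T2.Alg
import Vale.Agent.P253Z.T2.Liou.Poly

/-!
# P253Z, T2: the row LIOU
-/

namespace Vale.Agent.P253Z.T2

theorem liou (n : ℕ) : LIOU n := by
  intro Q f C N hf hb
  obtain ⟨R, hR⟩ := Liou.main Q f C N hf hb
  exact ⟨R, fun z _ => hR z⟩

end Vale.Agent.P253Z.T2
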