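import Vale.Agent.P253Z.T2.OTd
import Vale.Agent.P253Z.HJ.Mod

/-!
# P253Z, T2: the curvature conditions for a sum of squares of sections
-/

open scoped Manifold ContDiff Bundle ENNReal Topology ComplexConjugate ComplexOrder
open Bundle IsManifold MeasureTheory Set Metric Filter Vale.Agent.P253.Mfd
open Vale.Agent.P272.K (Cm dz dzb cHess jacM Chart)
open Vale.Agent.P272.K.C2

noncomputable section

namespace Vale.Agent.P253Z.T2

namespace LogP

open HJ (two_le dzb_hol)

variable {n : ℕ} {ι : Type} [Fintype ι]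

/-- the identity of Lagrange -/
theorem lag (f : ι → ℂ) (D : ι → Fin n → ℂ) :
    (Matrix.of fun j k => (∑ i, f i * conj (f i)) * ∑ i, D i j * conj (D i k) -
      conj (∑ i, f i * conj (D i j)) * ∑ i, f i * conj (D i k)).PosSemidef := by
  have h := (Matrix.posSemidef_sum Finset.univ fun i _ => Matrix.posSemidef_sum Finset.univ
    fun l _ => Matrix.posSemidef_vecMulVec_self_star fun j => f l * D i j - f i * D l j).smul
      (a := (1 / 2 : ℝ)) (by norm_num)
  convert h using 1
  ext j k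
  have h1 : ∀ F : ι → ι → ℂ, ∑ i, ∑ l, F i l = 1 / 2 * ∑ i, ∑ l, (F i l + F l i) := fun F => by
    simp only [Finset.sum_add_distrib]
    rw [Finset.sum_comm (f := fun i l => F l i)]
    ring
  rw [Matrix.of_apply, map_sum, mul_comm (∑ i, f i * conj (f i)), Finset.sum_mul_sum,
    Finset.sum_mul_sum, ← Finset.sum_sub_distrib]
  simp only [← Finset.sum_sub_distrib]
  rw [h1]
  simp only [Matrix.smul_apply, Matrix.sum_apply, Matrix.vecMulVec_apply, Pi.star_apply,
    Complex.real_smul, RCLike.star_def, map_sub, map_mul, Complex.conj_conj]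
  push_cast
  congr 1
  exact Finset.sum_congr rfl fun i _ => Finset.sum_congr rfl fun l _ => by ring

variable {f : Cm n → ℂ} {W : Cm n → ℝ} {z : Cm n}

/-- the covariant derivative -/
def Dv (f : Cm n → ℂ) (W : Cm n → ℝ) (j : Fin n) (y : Cm n) : ℂ :=
  dz j f y - f y * dz j (fun y => (W y : ℂ)) y

theorem d_exp (hW : DifferentiableAt ℝ W z) :
    DifferentiableAt ℝ (fun y => ((Real.exp (-W y) : ℝ) : ℂ)) z :=
  differentiableAt_ofReal hW.neg.exp

theorem hd_exp (s : ℝ) : HasDerivAt (fun s => Real.exp (-s)) (-Real.exp (-s)) s := by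
  simpa using (hasDerivAt_neg s).exp

theorem sm_one {m : WithTop ℕ∞} (hf : AnalyticAt ℂ f z) (hW : ContDiffAt ℝ m W z) :
    ContDiffAt ℝ m (fun y => ‖f y‖ ^ 2 * Real.exp (-W y)) z :=
  ((hf.contDiffAt.restrict_scalars ℝ).norm_sq ℂ).mul hW.neg.exp

theorem d1 (hf : DifferentiableAt ℂ f z) (hW : DifferentiableAt ℝ W z) (k : Fin n) :
    dzb k (fun y => ((‖f y‖ ^ 2 * Real.exp (-W y) : ℝ) : ℂ)) z =
      f z * conj (Dv f W k z) * Real.exp (-W z) := by
  have h := hf.restrictScalars ℝ
  simp only [Complex.ofReal_mul, Complex.ofReal_pow, ← Complex.mul_conj']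
  rw [dzb_mul k (h.fun_mul (differentiableAt_conj h)) (d_exp hW),
    dzb_mul k h (differentiableAt_conj h), dzb_hol hf, dzb_conj k h,
    dzb_comp_real k (hd_exp _) hW, dzb_real k hW, Dv, map_sub, map_mul]
  push_cast
  ring

theorem d2 (hf : AnalyticAt ℂ f z) (hW : ContDiffAt ℝ 2 W z) (j k : Fin n) :
    cHess (fun y => ‖f y‖ ^ 2 * Real.exp (-W y)) z j k =
      (Dv f W j z * conj (Dv f W k z) - f z * conj (f z) * cHess W z j k) * Real.exp (-W z) := by
  have h2 : ContDiffAt ℝ 2 f z := hf.contDiffAt.restrict_scalars ℝ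
  have h1 := h2.differentiableAt (by norm_num)
  have w1 := hW.differentiableAt (by norm_num)
  have w2 := contDiffAt_ofReal hW
  have h3 := differentiableAt_dz k h2
  have h4 := h1.fun_mul (differentiableAt_dz k w2)
  have h5 : DifferentiableAt ℝ (Dv f W k) z := h3.sub h4
  have h6 : dzb j (Dv f W k) z = -(f z * conj (cHess W z j k)) := by
    have e : dzb j f =ᶠ[𝓝 z] fun _ => 0 :=
      hf.eventually_analyticAt.mono fun y hy => dzb_hol hy.differentiableAt j
    unfold Dv
    rw [dzb_sub j h3 h4, dzb_mul j h1 (differentiableAt_dz k w2), ← dz_dzb_comm k j h2,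
      dz_congr k e, dz_const, dzb_hol hf.differentiableAt, ← dz_dzb_comm k j w2, ← cHess_apply,
      ← (cHess_isHermitian hW).apply k j]
    simp
  have e : (dzb k fun y => ((‖f y‖ ^ 2 * Real.exp (-W y) : ℝ) : ℂ)) =ᶠ[𝓝 z]
      fun y => f y * conj (Dv f W k y) * Real.exp (-W y) := by
    filter_upwards [hf.eventually_analyticAt, eventually_contDiffAt (m := 2) hW] with y y1 y2
    exact d1 y1.differentiableAt (y2.differentiableAt (by norm_num)) k
  rw [cHess_apply, dz_congr j e, dz_mul j (h1.fun_mul (differentiableAt_conj h5)) (d_exp w1),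
    dz_mul j h1 (differentiableAt_conj h5), dz_conj j h5, h6, dz_comp_real j (hd_exp _) w1,
    Dv.eq_1 f W j]
  simp only [map_neg, map_mul, Complex.conj_conj]
  push_cast
  ring

omit [Fintype ι] in
theorem cHess_sum (s : Finset ι) {u : ι → Cm n → ℝ} (hu : ∀ i, ContDiffAt ℝ 2 (u i) z) :
    cHess (fun y => ∑ i ∈ s, u i y) z = ∑ i ∈ s, cHess (u i) z := by
  classical
  induction s using Finset.induction_on with
  | empty => simpa using cHess_const 0
  | insert a s ha ih =>
    simp only [Finset.sum_insert ha]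
    rw [cHess_add (hu a) (ContDiffAt.sum fun i _ => hu i), ih]

/-- the local statement -/
theorem loc {F : ι → Cm n → ℂ} {t : Cm n → ℝ} (hf : ∀ i, AnalyticAt ℂ (F i) z)
    (hW : ContDiffAt ℝ 2 W z) (ht : t =ᶠ[𝓝 z] fun y => ∑ i, ‖F i y‖ ^ 2 * Real.exp (-W y)) :
    (cHess t z + (t z : ℂ) • cHess W z).PosSemidef ∧
      ((t z : ℂ) • (cHess t z + (t z : ℂ) • cHess W z) - bb (fun y => (t y : ℂ)) z).PosSemidef := by
  have w1 := hW.differentiableAt (by norm_num)
  have e0 : (t z : ℂ) = (∑ i, F i z * conj (F i z)) * Real.exp (-W z) := by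
    rw [ht.self_of_nhds, Finset.sum_mul]
    simp only [Complex.ofReal_sum, Complex.ofReal_mul, Complex.ofReal_pow, Complex.mul_conj']
  have e1 : ∀ k, dzb k (fun y => (t y : ℂ)) z =
      (∑ i, F i z * conj (Dv (F i) W k z)) * Real.exp (-W z) := fun k => by
    rw [dzb_congr k (ht.mono fun y hy => (congrArg _ hy).trans (Complex.ofReal_sum _ _)),
      dzb_sum k _ fun i _ => differentiableAt_ofReal
        ((sm_one (hf i) hW).differentiableAt (by norm_num)), Finset.sum_mul]
    exact Finset.sum_congr rfl fun i _ => d1 (hf i).differentiableAt w1 k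
  have e2 : ∀ j k, (cHess t z + (t z : ℂ) • cHess W z) j k =
      (∑ i, Dv (F i) W j z * conj (Dv (F i) W k z)) * Real.exp (-W z) := fun j k => by
    rw [Matrix.add_apply, Matrix.smul_apply, cHess_congr ht, cHess_sum _ fun i => sm_one (hf i) hW,
      Matrix.sum_apply, e0]
    simp only [d2 (hf _) hW, smul_eq_mul, Finset.sum_mul, ← Finset.sum_add_distrib]
    exact Finset.sum_congr rfl fun i _ => by ring
  constructor
  · convert (Matrix.posSemidef_sum Finset.univ fun i _ => Matrix.posSemidef_vecMulVec_self_star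
      fun j => Dv (F i) W j z).smul (Real.exp_pos (-W z)).le using 1
    ext j k
    rw [e2, mul_comm]
    simp only [Matrix.smul_apply, Matrix.sum_apply, Matrix.vecMulVec_apply, Pi.star_apply,
      Complex.real_smul, RCLike.star_def]
  · convert (lag (fun i => F i z) fun i j => Dv (F i) W j z).smul
      (sq_nonneg (Real.exp (-W z))) using 1
    ext j k
    rw [Matrix.sub_apply, Matrix.smul_apply, e2, bb, Matrix.of_apply, e1, e1, e0, map_mul,
      Complex.conj_ofReal, Matrix.smul_apply, Matrix.of_apply, Complex.real_smul, smul_eq_mul,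
      Complex.ofReal_pow]
    ring

variable {M : Type} [MetricSpace M] [ChartedSpace (Cm n) M]
  [RiemannianBundle (fun x : M => TangentSpace 𝓘(ℝ, Cm n) x)] {e : Chart n M} {m : ℕ}
  {κ : M → ℝ} {σ : Fin n → M → ℂ}

theorem tf_eq (b : B1b n M) (he : Hc e) (hz : z ∈ e.target) : tf m κ σ (e.symm z) =
    ∑ i, ‖co (-m) (σ i) e z‖ ^ 2 * Real.exp (-(wt (1 - m) κ e z + Real.log 2)) := by
  have h : Real.exp (-(wt (1 - m) κ e z + Real.log 2)) =
      vd e z ^ (-(-m : ℤ)) * Real.exp (-κ (e.symm z)) / 2 := by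
    rw [neg_add, Real.exp_add, Real.exp_neg (Real.log 2), Real.exp_log two_pos, wt, neg_add,
      Real.exp_add, neg_neg, zpow_natCast, ← Real.exp_log (pow_pos (b.vd_pos e he z hz) m),
      Real.log_pow, div_eq_mul_inv]
    congr 3
    push_cast
    ring
  simp only [tf, h, b.nrm_eq _ _ e he z hz, Finset.sum_mul, Finset.sum_div]
  exact Finset.sum_congr rfl fun i _ => by ring

theorem wt_sm (b : B1b n M) (hκ : Sm n κ) (k : ℤ) (he : Hc e) (hz : z ∈ e.target) :
    ContDiffAt ℝ ∞ (wt k κ e) z :=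
  (contDiffAt_const.mul ((b.vd_sm e he z hz).log (b.vd_pos e he z hz).ne')).add (hκ e he z hz)

theorem tf_nn (a : B1a n M) (b : B1b n M) (x : M) : 0 ≤ tf m κ σ x :=
  div_nonneg (mul_nonneg (Finset.sum_nonneg fun _ _ => mul_nonneg (sq_nonneg _) (zpow_nonneg
    (b.vd_pos _ (a.chart x) _ (mem_chart_target _ x)).le _)) (Real.exp_pos _).le) two_pos.le

end LogP

open LogP

variable {n : ℕ} {M : Type} [MetricSpace M] [ChartedSpace (Cm n) M]
  [RiemannianBundle (fun x : M => TangentSpace 𝓘(ℝ, Cm n) x)]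

theorem logp (a : B1a n M) (b : B1b n M) : LOGP n M := by
  intro k m ψ κ σ hκ hσ hp hT
  have ev : ∀ e : Chart n M, Hc e → ∀ z ∈ e.target, (fun y => tf m κ σ (e.symm y)) =ᶠ[𝓝 z] fun y =>
      ∑ i, ‖co (-m) (σ i) e y‖ ^ 2 * Real.exp (-(wt (1 - m) κ e y + Real.log 2)) :=
    fun e he z hz => (e.open_target.eventually_mem hz).mono fun y hy => tf_eq b he hy
  refine ⟨fun e he z hz => (ContDiffAt.sum fun i _ => sm_one (hσ i e he z hz)
    ((wt_sm b hκ _ he hz).add contDiffAt_const)).congr_of_eventuallyEq (ev e he z hz),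
    fun e he z hz => ?_⟩
  have w := (wt_sm b hκ (1 - m) he hz).of_le HJ.two_le
  obtain ⟨h1, h2⟩ := loc (fun i => hσ i e he z hz) (w.add contDiffAt_const) (ev e he z hz)
  rw [cHess_add w contDiffAt_const, cHess_const, add_zero] at h1 h2
  have hN : (0 : ℂ) ≤ ((n + 2 : ℝ) : ℂ) := Complex.zero_le_real.2 (by positivity)
  have ht : (0 : ℂ) ≤ (tf m κ σ (e.symm z) : ℂ) := Complex.zero_le_real.2 (tf_nn a b _)
  refine ⟨?_, ?_, ?_⟩
  · simpa only [sub_add_cancel] using (hT e he z hz).add ((hp e he z hz).smul hN)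
  · convert (h1.smul hN).add ((hT e he z hz).smul ht) using 1
    simp only [xm, th]
    module
  · convert (h2.smul hN).add (((hT e he z hz).smul ht).smul ht) using 1
    simp only [xm, th]
    module

variable [MeasurableSpace M] {μ : Measure M}

theorem ot_of_ota (a : B1a n M) (b : B1b n M) (h1 : LOGP n M) (h2 : OTA n μ) : OT n μ := by
  obtain ⟨C, hC, h2⟩ := h2
  refine ⟨C * 4 ^ n, by positivity,
    fun k m ψ κ σ V hψ hκ hσ hle hp hT hV hfin e he ζ hζ c c0 ca hc => ?_⟩
  obtain ⟨t1, t2⟩ := h1 k m ψ κ σ hκ hσ hp hT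
  have c1 := norm_pos_iff.2 c0
  have c2 : 0 < ‖c ζ‖ ^ 2 * Real.exp (-(wt (1 - m) κ e ζ + Real.log 2)) := by positivity
  have c3 : ContinuousAt (fun z => ‖c z‖ ^ 2 * Real.exp (-(wt (1 - m) κ e z + Real.log 2))) ζ :=
    (sm_one ca ((wt_sm b hκ _ he hζ).add contDiffAt_const)).continuousAt
  obtain ⟨s, s1, s2, s3⟩ := h2 k ψ _ V hψ t1 (fun x => ⟨tf_nn a b x, by
      have := mul_le_mul_of_nonneg_right (hle x) (Real.exp_pos (-κ x)).le
      rw [← Real.exp_add, add_neg_cancel, Real.exp_zero] at this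
      exact div_le_div_of_nonneg_right this two_pos.le⟩) t2 hV hfin e ζ _ he hζ (half_pos c2)
    (by simp [tf_eq b he hζ, hc.self_of_nhds]) (by
      filter_upwards [e.open_target.eventually_mem hζ, hc,
        c3.eventually_const_lt (half_lt_self c2)] with z z1 z2 z3
      refine (mul_le_mul z3.le (HJ.le_nsq _) (sq_nonneg _) (by positivity)).trans_eq ?_
      simp only [tf_eq b he z1, z2, HJ.nsq, Finset.mul_sum, norm_mul, Pi.sub_apply]
      exact Finset.sum_congr rfl fun i _ => by ring)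
  refine ⟨s, s1, s2, s3.trans_eq (congrArg _ ?_)⟩
  rw [neg_add, Real.exp_add, Real.exp_add, Real.exp_neg (Real.log 2), Real.exp_log two_pos,
    Real.exp_nat_mul, Real.exp_neg (wt (1 - m) κ e ζ), pow_mul, div_pow, mul_pow, mul_pow,
    inv_pow, inv_pow, show (4 : ℝ) = 2 * 2 by norm_num, mul_pow]
  field_simp

end Vale.Agent.P253Z.T2
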