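import Vale.Agent.P253Z.T2.OT2

/-!
# P253Z, T2, block OT: the local model
-/

open scoped Manifold ContDiff Bundle ENNReal Topology ComplexConjugate ComplexOrder
open Bundle IsManifold MeasureTheory Set Metric Filter Vale.Agent.P253.Mfd
open Vale.Agent.P272.K (Cm dz dzb cHess jacM Chart)
open Vale.Agent.P272.K.C2

noncomputable section

namespace Vale.Agent.P253Z.T2.Ot

open HJ

variable {n : ℕ}

/-- the volume of the unit ball -/
def v1 (n : ℕ) : ℝ := (volume (ball (0 : Cm n) 1)).toReal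

theorem v1_pos : 0 < v1 n :=
  ENNReal.toReal_pos (measure_ball_pos _ _ zero_lt_one).ne' measure_ball_lt_top.ne

theorem rk : Module.finrank ℝ (Cm n) = 2 * n := by
  rw [Module.finrank_pi_fintype]
  simp [mul_comm]

theorem vol_ball (x : Cm n) {r : ℝ} (hr : 0 < r) :
    volume (ball x r) = ENNReal.ofReal ((r ^ 2) ^ n * v1 n) := by
  rw [Measure.addHaar_ball_of_pos _ x hr, rk, ENNReal.ofReal_mul (by positivity), v1,
    ENNReal.ofReal_toReal measure_ball_lt_top.ne, pow_mul]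

theorem vol_closedBall (x : Cm n) {r : ℝ} (hr : 0 ≤ r) :
    volume (closedBall x r) = ENNReal.ofReal ((r ^ 2) ^ n * v1 n) := by
  rw [Measure.addHaar_closedBall _ x hr, rk, ENNReal.ofReal_mul (by positivity), v1,
    ENNReal.ofReal_toReal measure_ball_lt_top.ne, pow_mul]

theorem big_aux (hn : 1 ≤ n) {K δ : ℝ} (hK : 0 < K) (hδ : 0 < δ) (J : ℕ) : ∀ ρ : ℝ, 0 < ρ →
    δ ≤ K * ρ ^ 2 / 4 ^ J → ENNReal.ofReal (J * (v1 n / (2 * (2 * K) ^ n))) ≤
      ∫⁻ v in ball (0 : Cm n) ρ, ENNReal.ofReal (((K * ‖v‖ ^ 2 + δ) ^ n)⁻¹) := by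
  induction J with
  | zero => intro ρ _ _; simp
  | succ J ih =>
    intro ρ hρ h
    have h1 := ih (ρ / 2) (by positivity) (h.trans (le_of_eq (by ring)))
    have h2 : δ ≤ K * ρ ^ 2 := h.trans (div_le_self (by positivity) (one_le_pow₀ (by norm_num)))
    have sub : ball (0 : Cm n) (ρ / 2) ⊆ ball 0 ρ := ball_subset_ball (by linarith)
    have V0 := v1_pos (n := n)
    have h3 : ((ρ / 2) ^ 2) ^ n ≤ (ρ ^ 2) ^ n / 2 := by
      have : ((1 : ℝ) / 4) ^ n ≤ 1 / 4 := pow_le_of_le_one (by norm_num) (by norm_num) (by omega)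
      calc ((ρ / 2) ^ 2) ^ n = (ρ ^ 2) ^ n * (1 / 4) ^ n := by rw [← mul_pow]; congr 1; ring
        _ ≤ (ρ ^ 2) ^ n * (1 / 2) := by gcongr; linarith
        _ = _ := by ring
    have h4 : ENNReal.ofReal ((ρ ^ 2) ^ n / 2 * v1 n) ≤ volume (ball (0 : Cm n) ρ \ ball 0 (ρ / 2)) := by
      rw [measure_sdiff sub measurableSet_ball.nullMeasurableSet measure_ball_lt_top.ne,
        vol_ball _ hρ, vol_ball _ (half_pos hρ), ← ENNReal.ofReal_sub _ (by positivity)]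
      exact ENNReal.ofReal_le_ofReal (by nlinarith)
    have h5 : ENNReal.ofReal (v1 n / (2 * (2 * K) ^ n)) ≤ ∫⁻ v in ball (0 : Cm n) ρ \ ball 0 (ρ / 2),
        ENNReal.ofReal (((K * ‖v‖ ^ 2 + δ) ^ n)⁻¹) := by
      calc _ = ENNReal.ofReal (((2 * K * ρ ^ 2) ^ n)⁻¹) *
            ENNReal.ofReal ((ρ ^ 2) ^ n / 2 * v1 n) := by
            rw [← ENNReal.ofReal_mul (by positivity), mul_pow (2 * K)]
            congr 1
            field_simp
        _ ≤ ENNReal.ofReal (((2 * K * ρ ^ 2) ^ n)⁻¹) *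
            volume (ball (0 : Cm n) ρ \ ball 0 (ρ / 2)) := by gcongr
        _ = ∫⁻ _ in ball (0 : Cm n) ρ \ ball 0 (ρ / 2),
            ENNReal.ofReal (((2 * K * ρ ^ 2) ^ n)⁻¹) := (setLIntegral_const _ _).symm
        _ ≤ _ := by
            refine setLIntegral_mono' (measurableSet_ball.diff measurableSet_ball) fun v hv => ?_
            have h6 : K * ‖v‖ ^ 2 ≤ K * ρ ^ 2 := by
              have := (mem_ball_zero_iff.1 hv.1).le
              gcongr
            gcongr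
            linarith
    rw [← lintegral_inter_add_sdiff _ _ (measurableSet_ball (x := (0 : Cm n)) (ε := ρ / 2)),
      inter_eq_self_of_subset_right sub, Nat.cast_succ, add_mul, one_mul,
      ENNReal.ofReal_add (by positivity) (by positivity)]
    exact add_le_add h1 h5

/-- the pole is not integrable -/
theorem big (hn : 1 ≤ n) {K ρ α : ℝ} (hK : 0 < K) (hρ : 0 < ρ) (hα : 0 < α) (L : ℝ) :
    ∃ δ : ℝ, 0 < δ ∧ δ ≤ α ∧ ENNReal.ofReal L ≤
      ∫⁻ v in ball (0 : Cm n) ρ, ENNReal.ofReal (((K * ‖v‖ ^ 2 + δ) ^ n)⁻¹) := by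
  have V0 := v1_pos (n := n)
  have c0 : 0 < v1 n / (2 * (2 * K) ^ n) := by positivity
  obtain ⟨J, hJ⟩ := exists_nat_ge (L / (v1 n / (2 * (2 * K) ^ n)))
  have d0 : 0 < min α (K * ρ ^ 2 / 4 ^ J) := lt_min hα (by positivity)
  exact ⟨_, d0, min_le_left _ _, (ENNReal.ofReal_le_ofReal ((div_le_iff₀ c0).1 hJ)).trans
    (big_aux hn hK d0 J ρ hρ (min_le_right _ _))⟩

/-- a nonnegative function vanishes to second order -/
theorem quad {f : Cm n → ℝ} {ζ : Cm n} (hf : ContDiffAt ℝ ∞ f ζ) (h0 : f ζ = 0)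
    (h1 : ∀ z, 0 ≤ f z) : ∃ K : ℝ, 0 < K ∧ ∀ᶠ z in 𝓝 ζ, f z ≤ K * ‖z - ζ‖ ^ 2 := by
  have h2 : fderiv ℝ f ζ = 0 :=
    IsLocalMin.fderiv_eq_zero (Eventually.of_forall fun z => by rw [h0]; exact h1 z)
  have h3 : ContDiffAt ℝ 1 (fderiv ℝ f) ζ := hf.fderiv_right two_le
  obtain ⟨K, U, hU, hK⟩ := h3.exists_lipschitzOnWith
  have h4 : ∀ᶠ z in 𝓝 ζ, ContDiffAt ℝ 2 f z := eventually_contDiffAt (m := 2) (hf.of_le two_le)
  obtain ⟨ρ, hρ, hb⟩ := nhds_basis_closedBall.mem_iff.1 (inter_mem hU h4)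
  refine ⟨K + 1, by positivity, ?_⟩
  filter_upwards [closedBall_mem_nhds ζ hρ] with z hz
  have sub : closedBall ζ ‖z - ζ‖ ⊆ closedBall ζ ρ :=
    closedBall_subset_closedBall (mem_closedBall_iff_norm.1 hz)
  have h5 := (convex_closedBall ζ ‖z - ζ‖).norm_image_sub_le_of_norm_fderiv_le (𝕜 := ℝ) (f := f)
    (C := K * ‖z - ζ‖) (fun y hy => ContDiffAt.differentiableAt (n := 2) (hb (sub hy)).2 two_ne_zero)
    (fun y hy => by
      have := hK.norm_sub_le (hb (sub hy)).1 (hb (mem_closedBall_self hρ.le)).1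
      rw [h2, sub_zero] at this
      exact this.trans (mul_le_mul_of_nonneg_left (mem_closedBall_iff_norm.1 hy) K.2))
    (mem_closedBall_self (norm_nonneg _)) (mem_closedBall_iff_norm.2 le_rfl)
  rw [h0, sub_zero] at h5
  nlinarith [le_abs_self (f z), Real.norm_eq_abs (f z), sq_nonneg ‖z - ζ‖]

/-- the value at the pole -/
theorem val {G : Cm n → ℂ} {ζ : Cm n} {r K δ L : ℝ} (hr : 0 < r) (hL : 0 ≤ L)
    (hG : DifferentiableOn ℂ G (ball ζ r))
    (h1 : ENNReal.ofReal (4 * L + 1) ≤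
      ∫⁻ v in ball (0 : Cm n) r, ENNReal.ofReal (((K * ‖v‖ ^ 2 + δ) ^ n)⁻¹))
    (h2 : ∫⁻ z in ball ζ r, ENNReal.ofReal (‖G z‖ ^ 2 * ((K * ‖z - ζ‖ ^ 2 + δ) ^ n)⁻¹) ≤
      ENNReal.ofReal L) : ‖G ζ‖ ≤ 1 / 2 := by
  have h3 := Vale.Agent.P299.H570.mean_value
    (w := fun v : Cm n => ENNReal.ofReal (((K * ‖v‖ ^ 2 + δ) ^ n)⁻¹)) (by fun_prop)
    (fun c v hc => by simp only [norm_smul, hc, one_mul]) hr hG
  have h4 := (measurePreserving_add_left volume ζ).setLIntegral_comp_preimage_emb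
    (measurableEmbedding_addLeft ζ)
    (fun z => ENNReal.ofReal (‖G z‖ ^ 2 * ((K * ‖z - ζ‖ ^ 2 + δ) ^ n)⁻¹)) (ball ζ r)
  rw [preimage_add_left_ball, neg_add_cancel] at h4
  simp only [add_sub_cancel_left, ENNReal.ofReal_mul (sq_nonneg _)] at h4 h2
  have h5 := (mul_le_mul_right h1 _).trans (h3.trans (h4.le.trans h2))
  rw [← ENNReal.ofReal_mul (sq_nonneg _), ENNReal.ofReal_le_ofReal_iff hL] at h5
  by_contra h6
  have h7 : 1 / 4 < ‖G ζ‖ ^ 2 := by nlinarith [not_le.1 h6]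
  nlinarith

variable {M : Type} [MetricSpace M] [ChartedSpace (Cm n) M]

/-- a section supported in a coordinate ball -/
theorem glue2 (a : B1a n M) (k : ℤ) {e : Chart n M} (he : Hc e) {ζ : Cm n} {R ρ : ℝ} (hR : R < ρ)
    (hs : ball ζ ρ ⊆ e.target) {σ : Cm n → ℂ} (hσ : ∀ z ∈ ball ζ ρ, ContDiffAt ℝ ∞ σ z)
    (h0 : ∀ z ∈ ball ζ ρ, z ∉ closedBall ζ R → σ z = 0) : ∃ s : M → ℂ, SmSec n k s ∧
      (∀ z ∈ ball ζ ρ, co k s e z = σ z) ∧
      ∀ x ∉ e.symm '' closedBall ζ R, ∀ᶠ y in 𝓝 x, s y = 0 := by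
  classical
  obtain ⟨s, h1, h2⟩ := a.ext k e he ((ball ζ ρ).indicator σ)
  have sub : closedBall ζ R ⊆ ball ζ ρ := closedBall_subset_ball hR
  have h3 : ∀ x ∉ e.symm '' closedBall ζ R, s x = 0 := fun x hx => by
    by_cases hxe : x ∈ e.source
    · have h5 := h2 (e x) (e.map_source hxe)
      have h4 : (ball ζ ρ).indicator σ (e x) = 0 := indicator_apply_eq_zero.2 fun h =>
        h0 _ h fun h' => hx ⟨e x, h', e.left_inv hxe⟩
      rw [h4, co, e.left_inv hxe] at h5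
      exact (mul_eq_zero.1 h5).resolve_left
        (zpow_ne_zero _ (a.jac_ne e _ he (a.chart x) x hxe (mem_chart_source _ x)))
    · exact h1 x hxe
  have h4 : ∀ z ∈ ball ζ ρ, co k s e z = σ z := fun z hz => by
    rw [h2 z (hs hz), indicator_of_mem hz]
  have h5 : ∀ x ∉ e.symm '' closedBall ζ R, ∀ᶠ y in 𝓝 x, s y = 0 := fun x hx => by
    filter_upwards [((isCompact_closedBall ζ R).image_of_continuousOn
      (e.continuousOn_symm.mono (sub.trans hs))).isClosed.isOpen_compl.mem_nhds hx] with y hy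
    exact h3 y hy
  refine ⟨s, a.smSec_loc k s fun x => ?_, h4, h5⟩
  by_cases hx : x ∈ e.symm '' closedBall ζ R
  · obtain ⟨z, hz, rfl⟩ := hx
    have hzt := hs (sub hz)
    refine ⟨e, he, e.map_target hzt, ?_⟩
    rw [e.right_inv hzt]
    refine (hσ z (sub hz)).congr_of_eventuallyEq ?_
    filter_upwards [isOpen_ball.mem_nhds (sub hz)] with y hy using h4 y hy
  · exact ⟨_, a.chart x, mem_chart_source _ x, (contDiffAt_const (c := (0 : ℂ))).congr_of_eventuallyEq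
      (co_zero (mem_chart_source _ x) (h5 x hx))⟩

variable [RiemannianBundle (fun x : M => TangentSpace 𝓘(ℝ, Cm n) x)] [MeasurableSpace M]
  {μ : Measure M}

theorem l2_ball (v : B3 n μ) {k : ℤ} {ψ : M → ℝ} (hψ : Continuous ψ) {s : M → ℂ}
    (hs : SmSec n k s) {e : Chart n M} (he : Hc e) {ζ : Cm n} {R c : ℝ} (hR : 0 ≤ R) (hc : 0 ≤ c)
    (h1 : closedBall ζ R ⊆ e.target) (h2 : ∀ x ∉ e.symm '' closedBall ζ R, s x = 0)
    (h3 : ∀ z ∈ closedBall ζ R, ‖co k s e z‖ ^ 2 * Real.exp (-wt k ψ e z) ≤ c) :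
    L2 n μ k ψ s ≤ ENNReal.ofReal (c * ((R ^ 2) ^ n * v1 n)) := by
  rw [(v.l2 k ψ s hψ hs e he _ measurableSet_closedBall h1).2 h2, ENNReal.ofReal_mul hc,
    ← vol_closedBall ζ hR, ← setLIntegral_const]
  exact setLIntegral_mono' measurableSet_closedBall fun z hz => ENNReal.ofReal_le_ofReal (h3 z hz)

end Vale.Agent.P253Z.T2.Ot
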