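import Vale.Agent.P253Z.T2.OT3
import Vale.Agent.P253Z.T2.OT4
import Vale.Agent.P253Z.T2.LogP

/-!
# P253Z, T2, block OT: the extension theorem of Ohsawa and Takegoshi at a point
-/

open scoped Manifold ContDiff Bundle ENNReal Topology ComplexConjugate ComplexOrder
open Bundle IsManifold MeasureTheory Set Metric Filter Vale.Agent.P253.Mfd
open Vale.Agent.P272.K (Cm dz dzb cHess jacM Chart)
open Vale.Agent.P272.K.C2

noncomputable section

namespace Vale.Agent.P253Z.T2

open HJ Ot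

variable {n : ℕ} {M : Type} [MetricSpace M] [ChartedSpace (Cm n) M]
  [RiemannianBundle (fun x : M => TangentSpace 𝓘(ℝ, Cm n) x)]
  [MeasurableSpace M] [BorelSpace M] {μ : Measure M}

namespace Ot

theorem m_cont {α r : ℝ} (ha : 0 < α) (ha1 : α ≤ 1 / 10) (hr : 0 ≤ r) (hr1 : r ≤ 1 / 2) :
    ContinuousAt (mm α) r := by
  have p : 0 < r + α := by linarith
  have c1 : ContinuousAt (pp α) r := continuousAt_const.add
    (continuousAt_const.div ((continuousAt_id.add continuousAt_const).pow 2) (pow_pos p 2).ne')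
  exact c1.div ((c1.mul (y_sm p).continuousAt).add
    (continuousAt_id.mul ((q_sm p).continuousAt.pow 2))) (d_pos ha ha1 hr hr1).ne'

omit [MeasurableSpace M] [BorelSpace M] in
theorem exp_wt (k : ℤ) (φ : M → ℝ) {t : M → ℝ} {δ : ℝ} (e : Chart n M) {z : Cm n}
    (h : 0 < t (e.symm z) + δ) : Real.exp (-wt k (ph n φ t δ) e z) =
      ((t (e.symm z) + δ) ^ n)⁻¹ * Real.exp (-wt k φ e z) := by
  rw [wt, wt, neg_add, neg_add, Real.exp_add, Real.exp_add, exp_ph φ h, mul_left_comm]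

end Ot

theorem ota (hn : 1 ≤ n) (a : B1a n M) (b : B1b n M) (v : B3 n μ) (h : HOR n μ) : OTA n μ := by
  obtain ⟨K₀, hK₀, hχ⟩ := exists_chi
  have V0 := v1_pos (n := n)
  set C₁ := 48 * K₀ ^ 2 * 2 ^ n * v1 n with hC₁
  have C0 : 0 < C₁ := by positivity
  refine ⟨4 * v1 n + 14 * C₁, by positivity,
    fun k φ t V hφ ht h01 hc hV hfin e ζ c he hζ c0 t0 hlow => ?_⟩
  obtain ⟨K, hK, hup⟩ := quad (f := fun y => t (e.symm y)) (ht e he ζ hζ) t0 fun z => (h01 _).1
  set W := Real.exp (-wt k φ e ζ) with hW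
  have W0 : 0 < W := Real.exp_pos _
  have hW1 : ∀ᶠ z in 𝓝 ζ, Real.exp (-wt k φ e z) ∈ Icc (W / 2) (2 * W) :=
    (wt_sm b k hφ he hζ).continuousAt.neg.rexp.eventually
      (Icc_mem_nhds (half_lt_self W0) (lt_two_mul_self W0))
  obtain ⟨ρ, hρ, hb⟩ := Metric.eventually_nhds_iff_ball.1
    ((hlow.and hup).and (hW1.and (e.open_target.mem_nhds hζ)))
  have hs : ball ζ ρ ⊆ e.target := fun z hz => (hb z hz).2.2
  set α := min (1 / 10) (c * ρ ^ 2 / 4) with hα
  have ha : 0 < α := lt_min (by norm_num) (by positivity)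
  have ha1 : α ≤ 1 / 10 := min_le_left _ _
  have R2 : √(α / c) ^ 2 = α / c := Real.sq_sqrt (by positivity)
  have R0 := Real.sqrt_nonneg (α / c)
  generalize √(α / c) = R at R2 R0
  have R1 : R < ρ := by
    have : α / c ≤ ρ ^ 2 / 4 := by
      rw [div_le_iff₀ c0]; linarith [min_le_right (1 / 10) (c * ρ ^ 2 / 4)]
    nlinarith
  have sub : closedBall ζ R ⊆ ball ζ ρ := closedBall_subset_ball R1
  have R3 : ∀ z ∈ ball ζ ρ, z ∉ closedBall ζ R → α < t (e.symm z) := fun z hz hz' => by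
    have h1 : R ^ 2 < ‖z - ζ‖ ^ 2 :=
      pow_lt_pow_left₀ (not_le.1 fun h => hz' (mem_closedBall_iff_norm.2 h)) R0 two_ne_zero
    rw [R2, div_lt_iff₀' c0] at h1
    exact h1.trans_le (hb z hz).1.1
  obtain ⟨χ, χ', x1, x2, x3, x4, x5, x6, x7, x8, x9⟩ := hχ α ha
  obtain ⟨s₀, s1, s2, s3⟩ := glue2 a k he R1 hs (σ := fun z => (χ (t (e.symm z)) : ℂ))
    (fun z hz => contDiffAt_ofReal (x1.contDiffAt.comp z (ht e he z (hs hz))))
    fun z hz hz' => by rw [x7 _ (R3 z hz hz').le, Complex.ofReal_zero]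
  obtain ⟨w, w1, w2, w3⟩ := glue2 a k he R1 hs (σ := fun z => (χ' (t (e.symm z)) : ℂ))
    (fun z hz => contDiffAt_ofReal (x2.contDiffAt.comp z (ht e he z (hs hz))))
    fun z hz hz' => by rw [x9 _ (R3 z hz hz'), Complex.ofReal_zero]
  have r0 : 0 < min ρ √(α / 2 / K) := lt_min hρ (Real.sqrt_pos.2 (by positivity))
  have r1 : ball ζ (min ρ √(α / 2 / K)) ⊆ ball ζ ρ := ball_subset_ball (min_le_left _ _)
  have r2 : ∀ z ∈ ball ζ (min ρ √(α / 2 / K)), t (e.symm z) ≤ α / 2 := fun z hz => by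
    have h1 := pow_le_pow_left₀ (norm_nonneg _)
      ((mem_ball_iff_norm.1 hz).le.trans (min_le_right _ _)) 2
    rw [Real.sq_sqrt (by positivity), le_div_iff₀' hK] at h1
    exact (hb z (r1 hz)).1.2.trans h1
  generalize min ρ √(α / 2 / K) = r at r0 r1 r2
  have l0 : 0 < 4 - Real.log α := by linarith [Real.log_nonpos ha.le (by linarith)]
  obtain ⟨δ, hδ, hδa, hI⟩ := big hn hK r0 ha (4 * ((4 - Real.log α) * (2 / W) * (C₁ * W / c ^ n)) + 1)
  have p2 : ∀ x, 0 < t x + δ := fun x => by linarith [(h01 x).1]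
  have cφ := a.sm_cont φ hφ
  have tc := a.sm_cont t ht
  have cψ : Continuous (ph n φ t δ) :=
    cφ.add (continuous_const.mul ((tc.add continuous_const).log fun x => (p2 x).ne'))
  have sq : ∀ {x y : ℝ}, |x| ≤ y → ‖(x : ℂ)‖ ^ 2 ≤ y ^ 2 := fun hx => by
    rw [Complex.norm_real, Real.norm_eq_abs]
    exact pow_le_pow_left₀ (abs_nonneg _) hx 2
  have b1 : L2 n μ k φ s₀ ≤ _ := l2_ball v cφ s1 he R0 (c := 1 ^ 2 * (2 * W)) (by positivity)
    (sub.trans hs) (fun x hx => (s3 x hx).self_of_nhds) fun z hz => by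
      rw [s2 z (sub hz)]
      exact mul_le_mul (sq (x4 _)) (hb z (sub hz)).2.1.2 (Real.exp_pos _).le (by positivity)
  have b2 : L2 n μ k φ w ≤ _ := l2_ball v cφ w1 he R0 (c := (K₀ / α) ^ 2 * (2 * W))
    (by positivity) (sub.trans hs) (fun x hx => (w3 x hx).self_of_nhds) fun z hz => by
      rw [w2 z (sub hz)]
      exact mul_le_mul (sq (x5 _)) (hb z (sub hz)).2.1.2 (Real.exp_pos _).le (by positivity)
  have b3 : L2 n μ k (ph n φ t δ) w ≤ _ := l2_ball v cψ w1 he R0
    (c := (K₀ / α) ^ 2 * (((α / 2) ^ n)⁻¹ * (2 * W))) (by positivity) (sub.trans hs)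
    (fun x hx => (w3 x hx).self_of_nhds) fun z hz => by
      rw [w2 z (sub hz), exp_wt k φ e (p2 _)]
      rcases lt_or_ge (t (e.symm z)) (α / 2) with h1 | h1
      · rw [x8 _ h1, Complex.ofReal_zero, norm_zero, zero_pow two_ne_zero, zero_mul]
        positivity
      · have := p2 (e.symm z)
        gcongr ?_ * ((?_ ^ n)⁻¹ * ?_)
        exacts [sq (x5 _), by linarith, (hb z (sub hz)).2.1.2]
  obtain ⟨h₀, hh, H⟩ := chen a b v h hφ ht h01 hc hV ha ha1 hδ hδa s1
    (b1.trans_lt ENNReal.ofReal_lt_top) (b2.trans_lt ENNReal.ofReal_lt_top)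
    (fun x hx => by
      obtain ⟨z, hz, rfl⟩ : x ∈ e.symm '' closedBall ζ R := by
        by_contra h1
        exact hx (w3 x h1).self_of_nhds
      by_contra h1
      have h2 := w2 z (sub hz)
      have h3 := e.map_target (hs (sub hz))
      rw [x9 _ (not_le.1 h1), Complex.ofReal_zero, co] at h2
      exact hx ((mul_eq_zero.1 h2).resolve_left
        (zpow_ne_zero _ (a.jac_ne e _ he (a.chart _) _ h3 (mem_chart_source _ _)))))
    (fun x => by
      by_cases hx : x ∈ e.symm '' closedBall ζ R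
      · obtain ⟨z, hz, rfl⟩ := hx
        have hzt := hs (sub hz)
        refine ⟨e, he, e.map_target hzt, fun j => ?_⟩
        rw [e.right_inv hzt, w2 z (sub hz), ← dzb_comp_real j (u := fun y => t (e.symm y)) (x3 _)
          ((ht e he z hzt).differentiableAt (by simp))]
        refine dzb_congr j ?_
        filter_upwards [isOpen_ball.mem_nhds (sub hz)] with y hy using s2 y hy
      · have hxs := mem_chart_source (Cm n) x
        refine ⟨_, a.chart x, hxs, fun j => ?_⟩
        rw [dzb_congr j (co_zero hxs (s3 x hx)), dzb_const,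
          (co_zero (k := k) hxs (w3 x hx)).self_of_nhds, zero_mul])
  have hol := ((hV h₀).1 hh).1
  have H' := H.trans (mul_le_mul_right b3 _)
  rw [← ENNReal.ofReal_mul (by positivity), show 24 * α ^ 2 * ((K₀ / α) ^ 2 * (((α / 2) ^ n)⁻¹ *
    (2 * W)) * ((R ^ 2) ^ n * v1 n)) = C₁ * W / c ^ n by
      rw [R2, hC₁, div_pow α, div_pow α]; field_simp; ring] at H'
  have u1 := smSec_sub s1 (smSec_of_isSec hol)
  have z0 := fun s => nrm_nonneg a b k s
  refine ⟨h₀, hol, ?_, ?_⟩
  · have e1 : ∀ z ∈ ball ζ r, co k (s₀ - h₀) e z = 1 - co k h₀ e z := fun z hz => by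
      rw [co_sub, s2 z (r1 hz), x6 _ (r2 z hz), Complex.ofReal_one]
    have mA := meas b cψ u1 (F := fun x => mm α (t x)) (continuous_iff_continuousAt.2 fun x =>
      (m_cont ha ha1 (h01 x).1 (h01 x).2).comp tc.continuousAt)
    have l1 : 0 ≤ (4 - Real.log α) * (2 / W) := by positivity
    have e2 := val (G := fun z => 1 - co k h₀ e z) (ζ := ζ) r0 (by positivity) (fun z hz =>
      ((differentiableAt_const _).sub
        (hol e he z (hs (r1 hz))).differentiableAt).differentiableWithinAt) hI (by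
      rw [ENNReal.ofReal_mul l1]
      refine le_trans ?_ (mul_le_mul_right ((setLIntegral_le_lintegral (e.symm '' ball ζ r) _).trans
        H') _)
      rw [v.loc e he _ measurableSet_ball (r1.trans hs) _ mA,
        ← lintegral_const_mul' _ _ ENNReal.ofReal_ne_top]
      refine setLIntegral_mono' measurableSet_ball fun z hz => ?_
      have m0 := m_pos ha ha1 (h01 (e.symm z)).1 (h01 (e.symm z)).2
      have m1 := m_lo' ha ha1 (h01 (e.symm z)).1 ((r2 z hz).trans (half_le_self ha.le))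
      have q0 := p2 (e.symm z)
      rw [← ENNReal.ofReal_mul (mul_nonneg m0.le (mul_nonneg (z0 _ _) (Real.exp_pos _).le)),
        ← ENNReal.ofReal_mul l1, mul_assoc (mm α _),
        b.nrm_wt k _ _ e he z (hs (r1 hz)), e1 z hz, exp_wt k φ e q0]
      refine ENNReal.ofReal_le_ofReal ?_
      calc _ = 1 * (2 / W * (W / 2)) *
            (‖1 - co k h₀ e z‖ ^ 2 * ((K * ‖z - ζ‖ ^ 2 + δ) ^ n)⁻¹) := by field_simp
        _ ≤ (4 - Real.log α) * mm α (t (e.symm z)) * (2 / W * Real.exp (-wt k φ e z)) *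
            (‖1 - co k h₀ e z‖ ^ 2 * ((t (e.symm z) + δ) ^ n)⁻¹) := by
            gcongr
            exacts [(hb z (r1 hz)).2.1.1, (hb z (r1 hz)).1.2]
        _ = _ := by ring)
    have := norm_sub_norm_le (1 : ℂ) (co k h₀ e ζ)
    rw [norm_one] at this
    linarith
  · have e1 : L2 n μ k φ (h₀ - s₀) ≤ ENNReal.ofReal 7 * ENNReal.ofReal (C₁ * W / c ^ n) := by
      refine le_trans ?_ (mul_le_mul_right H' _)
      rw [L2, ← lintegral_const_mul' _ _ ENNReal.ofReal_ne_top]
      refine lintegral_mono fun x => ?_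
      rw [← ENNReal.ofReal_mul (by norm_num)]
      refine ENNReal.ofReal_le_ofReal ?_
      have e2 : nrm n k (h₀ - s₀) x = nrm n k (s₀ - h₀) x := by
        simp only [nrm, Pi.sub_apply, norm_sub_rev]
      have q0 := p2 x
      have q1 := z0 (s₀ - h₀) x
      rw [e2, exp_ph φ q0]
      calc _ = (t x + δ) ^ n * (nrm n k (s₀ - h₀) x *
            (((t x + δ) ^ n)⁻¹ * Real.exp (-φ x))) := by field_simp
        _ ≤ 7 * mm α (t x) * (nrm n k (s₀ - h₀) x * (((t x + δ) ^ n)⁻¹ * Real.exp (-φ x))) := by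
            gcongr
            exact m_lo ha ha1 (h01 x).1 (h01 x).2 hn hδ hδa
        _ = _ := by ring
    have e2 := v.add k φ s₀ (h₀ - s₀) cφ s1 (smSec_sub (smSec_of_isSec hol) s1)
    rw [add_sub_cancel] at e2
    have e3 : 1 ^ 2 * (2 * W) * ((R ^ 2) ^ n * v1 n) ≤ 2 * v1 n * W / c ^ n := by
      have : α ^ n ≤ 1 := pow_le_one₀ ha.le (by linarith)
      calc _ = α ^ n * (2 * v1 n * W / c ^ n) := by rw [R2, div_pow]; ring
        _ ≤ _ := mul_le_of_le_one_left (by positivity) this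
    calc _ ≤ _ := e2
      _ ≤ 2 * ENNReal.ofReal (2 * v1 n * W / c ^ n) +
          2 * (ENNReal.ofReal 7 * ENNReal.ofReal (C₁ * W / c ^ n)) := by
          gcongr
          exact b1.trans (ENNReal.ofReal_le_ofReal e3)
      _ = _ := by
          rw [← ENNReal.ofReal_mul (by norm_num), ← ENNReal.ofReal_ofNat 2,
            ← ENNReal.ofReal_mul zero_le_two, ← ENNReal.ofReal_mul zero_le_two,
            ← ENNReal.ofReal_add (by positivity) (by positivity)]
          congr 1
          ring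

theorem ot2 (hn : 1 ≤ n) (a : B1a n M) (b : B1b n M) (v : B3 n μ) (h : HOR n μ) : OT n μ :=
  ot_of_ota a b (logp a b) (ota hn a b v h)

end Vale.Agent.P253Z.T2
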