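import Vale.Agent.P253Z.T2.Hom
import Vale.Agent.P253Z.VS
import Mathlib.FieldTheory.Minpoly.IsIntegrallyClosed
import Mathlib.RingTheory.Polynomial.RationalRoot

/-!
# P253Z, T2: the primitive element with a monic irreducible equation
-/

open scoped Manifold ContDiff Bundle ENNReal Topology
open Bundle IsManifold MeasureTheory Set Metric Filter Vale.Agent.P253.Mfd
open Vale.Agent.P272.K (Cm Chart)

set_option linter.unusedSectionVars false

noncomputable section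

namespace Vale.Agent.P253Z.T2

open VS

namespace Pm

open Polynomial

/-- an extension of bounded degree has an integral primitive element -/
theorem prim' {A F : Type} [CommRing A] [IsDomain A] [CharZero A] [IsIntegrallyClosed A] [Field F]
    (φ : A →+* F) (hφ : Function.Injective φ) (J : ℕ)
    (h : ∀ x : F, ∃ Q : A[X], Q ≠ 0 ∧ Q.natDegree ≤ J ∧ Q.eval₂ φ x = 0) :
    ∃ (g : F) (P : A[X]), P.Monic ∧ P.eval₂ φ g = 0 ∧
      (∀ R : A[X], R ≠ 0 → R.natDegree < P.natDegree →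
        ∃ (U V : A[X]) (N : A), N ≠ 0 ∧ U * P + V * R = C N) ∧
      ∀ x, ∃ d : A, d ≠ 0 ∧ ∃ Q : A[X], φ d * x = Q.eval₂ φ g := by
  obtain ⟨g, -, -, -, hg⟩ := prim φ hφ J h
  let _ : Algebra A F := φ.toAlgebra
  have : FaithfulSMul A F := (faithfulSMul_iff_algebraMap_injective A F).2 hφ
  let K := FractionRing A
  let _ : Algebra K F := FractionRing.liftAlgebra A F
  have : IsScalarTower A K F := FractionRing.isScalarTower_liftAlgebra A F
  have hinj : Function.Injective (algebraMap A K) := IsFractionRing.injective A K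
  obtain ⟨Q₀, q1, -, q2⟩ := h g
  obtain ⟨y, hy, hi⟩ := IsAlgebraic.exists_integral_multiple (R := A) (z := g) ⟨Q₀, q1, q2⟩
  have he : y • g = φ y * g := Algebra.smul_def y g
  have hm := minpoly.isIntegrallyClosed_eq_field_fractions' K hi
  have clear : ∀ p : K[X], ∃ d : A, d ≠ 0 ∧ ∃ Q : A[X],
      Q.map (algebraMap A K) = C (algebraMap A K d) * p := by
    intro p
    obtain ⟨b, hb, hp⟩ := IsLocalization.integerNormalization_spec (nonZeroDivisors A) p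
    refine ⟨b, nonZeroDivisors.ne_zero hb, _, hp.trans ?_⟩
    rw [← IsScalarTower.algebraMap_smul K b p, smul_eq_C_mul]
  refine ⟨y • g, minpoly A (y • g), minpoly.monic hi, minpoly.aeval A (y • g), fun R r1 r2 => ?_,
    fun x => ?_⟩
  · have h1 : R.map (algebraMap A K) ≠ 0 := (Polynomial.map_ne_zero_iff hinj).2 r1
    have h2 : ¬ minpoly K (y • g) ∣ R.map (algebraMap A K) := fun h3 => by
      have h4 := natDegree_le_of_dvd h3 h1
      rw [hm, natDegree_map_eq_of_injective hinj, natDegree_map_eq_of_injective hinj] at h4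
      omega
    obtain ⟨u, v, huv⟩ := (minpoly.irreducible hi.tower_top).coprime_iff_not_dvd.2 h2
    obtain ⟨d, d0, U, hU⟩ := clear u
    obtain ⟨d', d0', V, hV⟩ := clear v
    refine ⟨C d' * U, C d * V, d * d', mul_ne_zero d0 d0', map_injective _ hinj ?_⟩
    simp only [Polynomial.map_add, Polynomial.map_mul, map_C, map_mul, hU, hV, ← hm]
    linear_combination (C (algebraMap A K d) * C (algebraMap A K d')) * huv
  · obtain ⟨d, d0, Q, hQ⟩ := hg x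
    refine ⟨y ^ Q.natDegree * d, mul_ne_zero (pow_ne_zero _ hy) d0, Q.scaleRoots y, ?_⟩
    rw [he, scaleRoots_eval₂_mul, map_mul, map_pow, mul_assoc, hQ]

/-- **Siegel-Thimm** with a monic irreducible equation -/
theorem alg' {n : ℕ} {X : Type} {T : ℕ → Submodule ℂ (X → ℂ)} (hn : 1 ≤ n) (h : Gr T)
    (𝓕 : Filter X) [𝓕.NeBot] (hne : ∀ m, ∀ s ∈ T m, s ≠ 0 → ∀ᶠ y in 𝓕, s y ≠ 0) {C : ℝ}
    (hC : ∀ m : ℕ, 1 ≤ m → Module.Finite ℂ (T m) ∧ (Module.finrank ℂ (T m) : ℝ) ≤ C * m ^ n)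
    {m : ℕ} (hm : 1 ≤ m) {s₀ : X → ℂ} {s : Fin n → X → ℂ} (h₀ : s₀ ∈ T m) (hs : ∀ i, s i ∈ T m)
    (hs₀ : s₀ ≠ 0) (hind : ∀ d : Pz n,
      (∀ᶠ y in 𝓕, MvPolynomial.eval (fun i => s i y / s₀ y) d = 0) → d = 0) :
    ∃ l, ∃ a ∈ T l, ∃ b ∈ T l, b ≠ 0 ∧ ∃ P : (Pz n)[X], P.Monic ∧ Irr P ∧
      (∀ᶠ y in 𝓕, ev P (fun i => s i y / s₀ y) (a y / b y) = 0) ∧
      ∀ l', ∀ a' ∈ T l', ∀ b' ∈ T l', b' ≠ 0 → ∃ d : Pz n, d ≠ 0 ∧
        ∃ Q : (Pz n)[X], ∀ᶠ y in 𝓕,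
          MvPolynomial.eval (fun i => s i y / s₀ y) d * (a' y / b' y) =
            ev Q (fun i => s i y / s₀ y) (a y / b y) := by
  obtain ⟨J, hJ⟩ := count hn h hC hm h₀ hs
  let R := RA T 𝓕 h hne
  let I : Ideal R := RI
  have : I.IsMaximal := RI_max
  let _ : Field (R ⧸ I) := Ideal.Quotient.field I
  let f : Fin n → R := fun i => ⟨fun y => s i y / s₀ y, m, s i, hs i, s₀, h₀, hne m s₀ h₀ hs₀,
    by simp⟩
  let φ₀ : MvPolynomial (Fin n) ℂ →+* R := (MvPolynomial.aeval f : _ →ₐ[ℂ] R)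
  let pr : R →+* R ⧸ I := Ideal.Quotient.mk I
  let ρ : X → (R →+* ℂ) := fun y => (Pi.evalRingHom (fun _ : X => ℂ) y).comp R.val.toRingHom
  have hρ : ∀ y (u : R), ρ y u = (u : X → ℂ) y := fun _ _ => rfl
  have hρφ : ∀ y, (ρ y).comp φ₀ = MvPolynomial.eval fun i => s i y / s₀ y := by
    intro y
    refine MvPolynomial.ringHom_ext (fun c => ?_) fun i => ?_
    · simp [φ₀, hρ]
    · simp [φ₀, hρ, f]
  have hval : ∀ (Q : (MvPolynomial (Fin n) ℂ)[X]) (u : R) y,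
      ((Q.eval₂ φ₀ u : R) : X → ℂ) y = ev Q (fun i => s i y / s₀ y) ((u : X → ℂ) y) := by
    intro Q u y
    rw [← hρ, hom_eval₂, hρφ, ev, eval_map, hρ]
  have hval0 : ∀ d y, ((φ₀ d : R) : X → ℂ) y = MvPolynomial.eval (fun i => s i y / s₀ y) d := by
    intro d y
    rw [← hρφ, ← hρ]
    rfl
  have hq : ∀ (Q : (MvPolynomial (Fin n) ℂ)[X]) (u : R),
      Q.eval₂ (pr.comp φ₀) (pr u) = pr (Q.eval₂ φ₀ u) := fun Q u => (hom_eval₂ Q φ₀ pr u).symm
  have hq0 : ∀ u : R, pr u = 0 ↔ ∀ᶠ y in 𝓕, (u : X → ℂ) y = 0 := fun u =>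
    Ideal.Quotient.eq_zero_iff_mem
  have : CharZero (MvPolynomial (Fin n) ℂ) :=
    charZero_of_injective_algebraMap (MvPolynomial.C_injective (Fin n) ℂ)
  obtain ⟨g, P, h0, h1, h2, h3⟩ := prim' (pr.comp φ₀) (by
    rw [injective_iff_map_eq_zero]
    intro d hd
    refine hind d ?_
    simpa only [hval0] using (hq0 _).1 hd) J (by
    intro x
    obtain ⟨u, rfl⟩ := Ideal.Quotient.mk_surjective x
    obtain ⟨l, a, ha, b, hb, e1, e2⟩ := u.2
    obtain ⟨Q, q1, q2, q3⟩ := hJ l a ha b hb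
    refine ⟨Q, q1, q2, (hq Q u).trans ((hq0 _).2 ?_)⟩
    filter_upwards [e1, e2, hne m s₀ h₀ hs₀] with y e3 e4 e5
    rw [hval, e4, q3 y e5 e3])
  obtain ⟨u, rfl⟩ := Ideal.Quotient.mk_surjective g
  obtain ⟨l, a, ha, b, hb, e1, e2⟩ := u.2
  refine ⟨l, a, ha, b, hb, ?_, P, h0, h2, ?_, fun l' a' ha' b' hb' hb0 => ?_⟩
  · rintro rfl
    obtain ⟨y, hy⟩ := e1.exists
    exact hy rfl
  · filter_upwards [e2, (hq0 _).1 ((hq P u).symm.trans h1)] with y e3 e4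
    rwa [hval, e3] at e4
  · let v : R := ⟨fun y => a' y / b' y, l', a', ha', b', hb', hne l' b' hb' hb0, by simp⟩
    obtain ⟨d, hd, Q, hQ⟩ := h3 (pr v)
    refine ⟨d, hd, Q, ?_⟩
    have h4 : pr (φ₀ d * v - Q.eval₂ φ₀ u) = 0 := by
      rw [map_sub, map_mul, ← hq, sub_eq_zero]
      exact hQ
    filter_upwards [e2, (hq0 _).1 h4] with y e3 e4
    have e5 : ((φ₀ d * v - Q.eval₂ φ₀ u : R) : X → ℂ) y =
        ((φ₀ d : R) : X → ℂ) y * (a' y / b' y) - ((Q.eval₂ φ₀ u : R) : X → ℂ) y := rfl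
    rwa [e5, hval, hval0, e3, sub_eq_zero] at e4

end Pm

variable {n : ℕ} {M : Type} [MetricSpace M] [ChartedSpace (Cm n) M] [IsManifold 𝓘(ℂ, Cm n) 1 M]
  [RiemannianBundle (fun x : M => TangentSpace 𝓘(ℝ, Cm n) x)] [MeasurableSpace M] {μ : Measure M}

theorem prim (hn : 1 ≤ n) (h : All n μ) (_et : ET n M) : PRIM n μ := by
  rintro p F m s₀ s hm h₀ hs ⟨x, hx⟩
  have : Nonempty M := ⟨x⟩
  have a := h.a
  obtain ⟨C, hC⟩ := dim_tame h.ord h.jet F
  have S₀ := h₀.1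
  have S := fun i => (hs i).1
  have hΦc : ∀ {y}, s₀ y ≠ 0 → ContinuousAt (Phi s₀ s) y := fun h =>
    continuousAt_pi.2 fun i => ratio_cont a (S i) S₀ h
  have hmap : ∀ {y}, Et s₀ s y → map (Phi s₀ s) (𝓝 y) = 𝓝 (Phi s₀ s y) := fun {y} h =>
    map_nhds (mem_chart_source _ y) (Phi_an a S₀ S (a.chart y) (mem_chart_source _ y) h.1)
      (h.2 _ (a.chart y) (mem_chart_source _ y)).2
  obtain ⟨l, u, hu, v, hv, hv0, P, p1, p2, hP, hall⟩ :=
    Pm.alg' hn (gr_tame a F) (gen a) (fun m s hs h0 => ⟨m, s, hs.1, h0, fun _ h => h⟩) hC hm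
      (tame_of_inH F hm h₀) (fun i => tame_of_inH F hm (hs i)) (fun h => hx.1 (congrFun h x))
      (by
        intro d hd
        by_contra h0
        have h2 := freq_ne h0 (Phi s₀ s x)
        rw [← hmap hx, frequently_map] at h2
        obtain ⟨w, h3, h4⟩ := (h2.and_eventually (ne_nhds a S₀ hx.1)).exists
        exact h3 (gen_zero a hd
          ((MvPolynomial.continuous_eval d).continuousAt.comp (hΦc h4))))
  have hevc : ∀ (Q : Polynomial (Pz n)) {y}, s₀ y ≠ 0 → v y ≠ 0 →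
      ContinuousAt (fun w => ev Q (Phi s₀ s w) (u w / v w)) y := fun Q y e1 e2 =>
    (continuous_ev Q).continuousAt.comp₂ (hΦc e1) (ratio_cont a hu.1 hv.1 e2)
  have hP0 : ∀ y, s₀ y ≠ 0 → v y ≠ 0 → ev P (Phi s₀ s y) (u y / v y) = 0 := fun y e1 e2 =>
    gen_zero a (u := fun w => ev P (Phi s₀ s w) (u w / v w)) hP (hevc P e1 e2)
  have hg : ∀ k, ∀ a' ∈ F.Tame k, ∀ b' ∈ F.Tame k, b' ≠ 0 → ∃ d : Pz n, d ≠ 0 ∧
      ∃ R : Polynomial (Pz n), ∀ x, s₀ x ≠ 0 → v x ≠ 0 → b' x ≠ 0 →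
        MvPolynomial.eval (Phi s₀ s x) d * (a' x / b' x) = ev R (Phi s₀ s x) (u x / v x) := by
    intro k a' ha b' hb h0
    obtain ⟨d, hd, Q, hQ⟩ := hall k a' ha b' hb h0
    refine ⟨d, hd, Q, fun w f3 f4 f5 => sub_eq_zero.1 (gen_zero a (u := fun w =>
      MvPolynomial.eval (Phi s₀ s w) d * (a' w / b' w) - ev Q (Phi s₀ s w) (u w / v w))
      (hQ.mono fun w hw => sub_eq_zero.2 hw) ?_)⟩
    exact (((MvPolynomial.continuous_eval d).continuousAt.comp (hΦc f3)).mul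
      (ratio_cont a ha.1 hb.1 f5)).sub (hevc Q f3 f4)
  refine ⟨⟨l, u, v, P, hu, hv, hv0, p1, p2, hP0, fun y y' hy hy' v1 v2 e5 e6 e7 => ?_, hg⟩⟩
  by_contra hne
  obtain ⟨m', hm', a', b', A, B, e1, e2, e3, e4⟩ := h.pk2 y y' hne
  obtain ⟨d, hd, Q, hQ⟩ := hg m' a' (tame_of_inH F hm' A) b' (tame_of_inH F hm' B)
    fun h => e3 (congrFun h y)
  have key : ∀ {w}, s₀ w ≠ 0 → v w ≠ 0 → b' w ≠ 0 → ∀ᶠ w' in 𝓝 w,
      ev P (Phi s₀ s w') (u w' / v w') = 0 ∧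
        MvPolynomial.eval (Phi s₀ s w') d * (a' w' / b' w') = ev Q (Phi s₀ s w') (u w' / v w') := by
    intro w f0 f1 f2
    filter_upwards [ne_nhds a S₀ f0, ne_nhds a hv.1 f1, ne_nhds a B.1 f2] with w' f3 f4 f5
    exact ⟨hP0 w' f3 f4, hQ w' f3 f4 f5⟩
  have h2 := same_val (g := fun w => u w / v w) (h := fun w => a' w / b' w) hd (hmap hy) (hmap hy')
    (ratio_cont a hu.1 hv.1 v1) (ratio_cont a hu.1 hv.1 v2) (ratio_cont a A.1 B.1 e3)
    (ratio_cont a A.1 B.1 e4) e5 e6 e7 (key hy.1 v1 e3) (key hy'.1 v2 e4)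
  simp only [e1, zero_div] at h2
  exact div_ne_zero e2 e4 h2.symm

end Vale.Agent.P253Z.T2
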