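import Vale.Agent.P253Z.T2.AnAll
import Vale.Agent.P253Z.T2.OT
import Vale.Agent.P253Z.T2.Asm
import Vale.Agent.P253Z.T2.Prim
import Vale.Agent.P253Z.T2.Et
import Vale.Agent.P253Z.T2.Clop
import Vale.Agent.P253Z.T2.Cut
import Vale.Agent.P253Z.T2.Conn
import Vale.Agent.P253Z.T2.Fin
import Vale.Agent.P253Z.T2.Root
import Vale.Agent.P253Z.T2.Liou

/-!
# P253Z, T2: the complement of a divisor is an affine variety
-/

open scoped Manifold ContDiff Bundle ENNReal Topology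
open Bundle IsManifold MeasureTheory Set Metric Filter Vale.Agent.P253.Mfd
open Vale.Agent.P272.K (Cm Chart)

noncomputable section

namespace Vale.Agent.P253Z.T2

variable {n : ℕ} {M : Type} [MetricSpace M] [ChartedSpace (Cm n) M]
  [IsManifold 𝓘(ℂ, Cm n) 1 M] [IsManifold 𝓘(ℝ, Cm n) ∞ M]
  [RiemannianBundle (fun x : M => TangentSpace 𝓘(ℝ, Cm n) x)]
  [IsContMDiffRiemannianBundle 𝓘(ℝ, Cm n) ∞ (Cm n) (fun x : M => TangentSpace 𝓘(ℝ, Cm n) x)]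
  [IsRiemannianManifold 𝓘(ℝ, Cm n) M] [CompleteSpace M] [ConnectedSpace M] [NoncompactSpace M]
  [MeasurableSpace M] [BorelSpace M] {μ : Measure M}

/-- **the analytic half of T2** -/
theorem bnrAll (c : Ctx n μ) : BNR n μ :=
  bnr_of_ot c (ot2 c.npos (all c).a (all c).b (all c).v (ctx_hor c))

theorem primAll (c : Ctx n μ) : PRIM n μ := prim c.npos (all c) (et (all c).a)

theorem bnjAll (c : Ctx n μ) : BNJ n μ :=
  bnj_of (primAll c) (cut (all c).a (et (all c).a)) (bnrAll c).bnd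

/-- **T2** -/
theorem aff (c : Ctx n μ) : AFF n μ := by
  have A := all c
  have e := et A.a
  exact aff_of A e (primAll c) (bnjAll c) (cut A.a e) (clop (root n) e)
    (conn (root n) (liou n)) (fin A.a (root n) e)

/-- the data of `Aff` as maps -/
theorem onto_of (A : All n μ) (h : AFF n μ) :
    ∃ (N m l : ℕ) (σ s₀ u v : M → ℂ) (s : Fin n → M → ℂ) (Φ : M → Cm n) (g : M → ℂ)
      (P : Polynomial (MvPolynomial (Fin n) ℂ)) (Q : MvPolynomial (Fin n) ℂ),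
      IsSec n (-N) σ ∧ σ ≠ 0 ∧ IsSec n (-m) s₀ ∧ (∀ i, IsSec n (-m) (s i)) ∧ IsSec n (-l) u ∧
      IsSec n (-l) v ∧ (∀ x i, Φ x i = s i x / s₀ x) ∧ (∀ x, g x = u x / v x) ∧ P.Monic ∧
      BijOn (fun x => (Φ x, g x)) {x | σ x ≠ 0}
        {q | MvPolynomial.eval q.1 Q ≠ 0 ∧ (P.map (MvPolynomial.eval q.1)).eval q.2 = 0} ∧
      ∀ x, σ x ≠ 0 → s₀ x ≠ 0 ∧ v x ≠ 0 ∧ (MDifferentiableAt 𝓘(ℂ, Cm n) 𝓘(ℂ, Cm n) Φ x ∧
        Function.Bijective (mfderiv 𝓘(ℂ, Cm n) 𝓘(ℂ, Cm n) Φ x)) ∧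
        MDifferentiableAt 𝓘(ℂ, Cm n) 𝓘(ℂ, ℂ) g x ∧
        (P.derivative.map (MvPolynomial.eval (Φ x))).eval (g x) ≠ 0 := by
  have a := A.a
  obtain ⟨F⟩ := A.fr (Classical.arbitrary M)
  obtain ⟨D⟩ := h _ F
  refine ⟨D.N, D.m, D.l, D.σ, D.s₀, D.u, D.v, D.s, Phi D.s₀ D.s, fun x => D.u x / D.v x, D.P, D.Q,
    D.hσ.1, D.σ_ne, D.h₀.1, fun i => (D.hs i).1, D.hu.1, D.hv.1, fun _ _ => rfl, fun _ => rfl,
    D.monic, ⟨fun x hx => ⟨D.neQ x hx, D.root x hx⟩, fun x hx y hy h =>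
      D.inj x y hx hy (congrArg Prod.fst h) (congrArg Prod.snd h), fun q hq => ?_⟩, fun y hy => ?_⟩
  · obtain ⟨x, h1, h2, h3⟩ := D.onto q.1 q.2 hq.1 hq.2
    exact ⟨x, h1, Prod.ext h2 h3⟩
  · have h2 := VS.has_of (u := Phi D.s₀ D.s) (VS.Phi_an a D.h₀.1 (fun i => (D.hs i).1)
      (a.chart y) (mem_chart_source _ y) (D.ne₀ y hy))
    refine ⟨D.ne₀ y hy, D.nev y hy, ⟨h2.mdifferentiableAt, ?_⟩, (VS.has_of (u := fun x => D.u x / D.v x)
      (VS.ratio_an' a D.hu.1 D.hv.1 (a.chart y) (mem_chart_source _ y)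
        (D.nev y hy))).mdifferentiableAt, D.simple y hy⟩
    rw [h2.mfderiv]
    exact (D.etale y hy _ (a.chart y) (mem_chart_source _ y)).comp
      ((mdifferentiable_chart (I := 𝓘(ℂ, Cm n)) y).mfderiv_bijective (mem_chart_source _ y))

end Vale.Agent.P253Z.T2
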