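import Vale.Agent.P253Z.T2.Out

/-!
# P253Z, T2: statements of the algebraic half

See notes/P253_T2.md.
-/

open scoped Manifold ContDiff Bundle ENNReal Topology
open Bundle IsManifold MeasureTheory Set Metric Filter Vale.Agent.P253.Mfd
open Vale.Agent.P272.K (Cm Chart)

noncomputable section

namespace Vale.Agent.P253Z.T2

open VS (ev)

variable {n : ℕ} {M : Type} [MetricSpace M] [ChartedSpace (Cm n) M]

/-- `s / s₀` is a local biholomorphism at `x` -/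
def Et (s₀ : M → ℂ) (s : Fin n → M → ℂ) (x : M) : Prop :=
  s₀ x ≠ 0 ∧ ∀ e : Chart n M, Hc e → x ∈ e.source →
    Function.Bijective (fderiv ℂ (fun z => Phi s₀ s (e.symm z)) (e x))

/-- polynomials in `z_1, …, z_n` -/
abbrev Pz (n : ℕ) : Type := MvPolynomial (Fin n) ℂ

/-- `P` is prime to all nonzero polynomials of smaller degree -/
def Irr (P : Polynomial (Pz n)) : Prop :=
  ∀ R : Polynomial (Pz n), R ≠ 0 → R.natDegree < P.natDegree →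
    ∃ (A B : Polynomial (Pz n)) (N : Pz n), N ≠ 0 ∧ A * P + B * R = Polynomial.C N

/-- the affine variety `P = 0`, `Q ≠ 0` -/
def Var (P : Polynomial (Pz n)) (Q : Pz n) : Set (Cm n × ℂ) :=
  {q | MvPolynomial.eval q.1 Q ≠ 0 ∧ ev P q.1 q.2 = 0}

/-- all roots of `P` over the points where `Q ≠ 0` are simple -/
def Sep (P : Polynomial (Pz n)) (Q : Pz n) : Prop :=
  ∀ q ∈ Var P Q, ev P.derivative q.1 q.2 ≠ 0

/-- **ROOT**: the roots near a point -/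
def ROOT (n : ℕ) : Prop :=
  ∀ (P : Polynomial (Pz n)) (Q : Pz n), P.Monic → Sep P Q → ∀ ζ : Cm n,
    MvPolynomial.eval ζ Q ≠ 0 → ∃ (ρ : ℝ) (t : Fin P.natDegree → Cm n → ℂ), 0 < ρ ∧
      (∀ i, AnalyticOnNhd ℂ (t i) (ball ζ ρ)) ∧ ∀ z ∈ ball ζ ρ, MvPolynomial.eval z Q ≠ 0 ∧
        (∀ i j, t i z = t j z → i = j) ∧ ∀ w, ev P z w = 0 ↔ ∃ i, t i z = w

/-- **LIOU**: functions of polynomial growth on the complement of a hypersurface -/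
def LIOU (n : ℕ) : Prop :=
  ∀ (Q : Pz n) (f : Cm n → ℂ) (C : ℝ) (N : ℕ),
    AnalyticOnNhd ℂ f {z | MvPolynomial.eval z Q ≠ 0} →
    (∀ z, MvPolynomial.eval z Q ≠ 0 → ‖f z‖ ≤ C * (1 + ‖z‖) ^ N) →
    ∃ R : Pz n, ∀ z, MvPolynomial.eval z Q ≠ 0 →
      MvPolynomial.eval z Q ^ 2 * f z = MvPolynomial.eval z R

/-- **CONN**: the variety is connected -/
def CONN (n : ℕ) : Prop :=
  ∀ (P : Polynomial (Pz n)) (Q : Pz n), P.Monic → Irr P → Sep P Q →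
    ∀ G : Set (Cm n × ℂ), G ⊆ Var P Q → G.Nonempty →
      (∀ q ∈ G, ∀ᶠ q' in 𝓝 q, q' ∈ Var P Q → q' ∈ G) →
      (∀ q ∈ Var P Q, q ∈ closure G → q ∈ G) → G = Var P Q

variable (n M) in
/-- **ET**: the etale locus -/
structure ET : Prop where
  /-- one chart is enough -/
  of_chart : ∀ (m : ℕ) (s₀ : M → ℂ) (s : Fin n → M → ℂ), IsSec n (-m) s₀ →
    (∀ i, IsSec n (-m) (s i)) → ∀ (x : M) (e : Chart n M), Hc e → x ∈ e.source → s₀ x ≠ 0 →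
    Function.Bijective (fderiv ℂ (fun z => Phi s₀ s (e.symm z)) (e x)) → Et s₀ s x
  /-- the etale locus is dense, also after removing the zeros of a section -/
  dense : ∀ (m : ℕ) (s₀ : M → ℂ) (s : Fin n → M → ℂ), 1 ≤ m → IsSec n (-m) s₀ →
    (∀ i, IsSec n (-m) (s i)) → (∃ x, Et s₀ s x) → ∀ (k : ℕ) (τ : M → ℂ), IsSec n (-k) τ →
    τ ≠ 0 → ∀ y : M, ∃ᶠ x in 𝓝 y, Et s₀ s x ∧ τ x ≠ 0
  /-- the local inverse -/
  inv : ∀ (m : ℕ) (s₀ : M → ℂ) (s : Fin n → M → ℂ), IsSec n (-m) s₀ →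
    (∀ i, IsSec n (-m) (s i)) → ∀ x, Et s₀ s x → ∃ (V : Set M) (ρ : ℝ) (j : Cm n → M),
      IsOpen V ∧ x ∈ V ∧ 0 < ρ ∧ ContinuousOn j (ball (Phi s₀ s x) ρ) ∧
      (∀ z ∈ ball (Phi s₀ s x) ρ, j z ∈ V ∧ Phi s₀ s (j z) = z) ∧
      ∀ y ∈ V, Et s₀ s y ∧ Phi s₀ s y ∈ ball (Phi s₀ s x) ρ ∧ j (Phi s₀ s y) = y
  /-- ratios are continuous -/
  cont : ∀ (k : ℤ) (a b : M → ℂ), IsSec n k a → IsSec n k b → ∀ x, b x ≠ 0 →
    ContinuousAt (fun y => a y / b y) x ∧ ∀ᶠ y in 𝓝 x, b y ≠ 0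
  /-- a bound on the ratio passes to the limit -/
  le : ∀ (k : ℤ) (a b : M → ℂ), IsSec n k a → IsSec n k b → ∀ (x : M) (C : ℝ),
    (∃ᶠ y in 𝓝 x, ‖a y‖ ≤ C * ‖b y‖) → ‖a x‖ ≤ C * ‖b x‖

variable [RiemannianBundle (fun x : M => TangentSpace 𝓘(ℝ, Cm n) x)] [MeasurableSpace M]

/-- A primitive element `u / v` of the field of ratios over the coordinates `s / s₀`. -/
structure Prim {μ : Measure M} {p : M} (F : Fr n μ p) (s₀ : M → ℂ) (s : Fin n → M → ℂ) where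
  /-- the degree of the primitive element -/
  l : ℕ
  /-- the numerator -/
  u : M → ℂ
  /-- the denominator -/
  v : M → ℂ
  /-- the minimal polynomial -/
  P : Polynomial (Pz n)
  hu : u ∈ F.Tame l
  hv : v ∈ F.Tame l
  v_ne : v ≠ 0
  monic : P.Monic
  irr : Irr P
  root : ∀ x, s₀ x ≠ 0 → v x ≠ 0 → ev P (Phi s₀ s x) (u x / v x) = 0
  inj : ∀ x y, Et s₀ s x → Et s₀ s y → v x ≠ 0 → v y ≠ 0 → Phi s₀ s x = Phi s₀ s y →
    u x / v x = u y / v y → ev P.derivative (Phi s₀ s x) (u x / v x) ≠ 0 → x = y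
  gen : ∀ k, ∀ a ∈ F.Tame k, ∀ b ∈ F.Tame k, b ≠ 0 → ∃ d : Pz n, d ≠ 0 ∧
    ∃ R : Polynomial (Pz n), ∀ x, s₀ x ≠ 0 → v x ≠ 0 → b x ≠ 0 →
      MvPolynomial.eval (Phi s₀ s x) d * (a x / b x) = ev R (Phi s₀ s x) (u x / v x)

variable (n) in
/-- **PRIM**: Siegel-Thimm with a monic irreducible equation -/
def PRIM (μ : Measure M) : Prop :=
  ∀ (p : M) (F : Fr n μ p) (m : ℕ) (s₀ : M → ℂ) (s : Fin n → M → ℂ), 1 ≤ m → InH n μ m s₀ →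
    (∀ i, InH n μ m (s i)) → (∃ x, Et s₀ s x) → Nonempty (Prim F s₀ s)

variable (n) in
/-- **BNDa**: the analytic half -/
def BNDa (μ : Measure M) : Prop :=
  ∀ (p : M) (m : ℕ) (s₀ : M → ℂ) (s : Fin n → M → ℂ), 1 ≤ m → InH n μ m s₀ →
    (∀ i, InH n μ m (s i)) → (∃ x, Et s₀ s x) →
    ∃ (F : Fr n μ p) (r : ℕ) (k : Fin r → ℕ) (a b : Fin r → M → ℂ),
      (∀ i, a i ∈ F.Tame (k i) ∧ b i ∈ F.Tame (k i) ∧ b i ≠ 0) ∧
      ∀ (c : Cm n) (ρ C : ℝ) (j : Cm n → M), 0 < ρ → ContinuousOn j (ball c ρ) →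
        (∀ z ∈ ball c ρ, Et s₀ s (j z) ∧ Phi s₀ s (j z) = z) →
        (∀ i, ∀ z ∈ ball c ρ, ‖a i (j z)‖ ≤ C * ‖b i (j z)‖) →
        ∀ ζ ∈ sphere c ρ, ∃ x, Et s₀ s x ∧ MapClusterPt x (𝓝[ball c ρ] ζ) j

variable (n) in
/-- another name of `BNDa` -/
abbrev BND (μ : Measure M) : Prop := BNDa n μ

/-- The polynomial `Q` that is removed: off its zeros the roots are simple, the ratios `a / b` are
locally bounded, and `v` cannot tend to zero. -/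
structure Cut {μ : Measure M} {p : M} {F : Fr n μ p} {s₀ : M → ℂ} {s : Fin n → M → ℂ}
    (D : Prim F s₀ s) {r : ℕ} (a b : Fin r → M → ℂ) (Q : Pz n) : Prop where
  ne : Q ≠ 0
  sep : Sep D.P Q
  bd : ∀ K : Set (Cm n), IsCompact K → (∀ z ∈ K, MvPolynomial.eval z Q ≠ 0) → ∃ C : ℝ,
    ∀ i x, s₀ x ≠ 0 → Phi s₀ s x ∈ K → ‖a i x‖ ≤ C * ‖b i x‖
  nev : ∀ x, s₀ x ≠ 0 → MvPolynomial.eval (Phi s₀ s x) Q ≠ 0 → D.v x ≠ 0

variable (n) in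
/-- **CUT** -/
def CUT (μ : Measure M) : Prop :=
  ∀ (p : M) (F : Fr n μ p) (m : ℕ) (s₀ : M → ℂ) (s : Fin n → M → ℂ), 1 ≤ m → InH n μ m s₀ →
    (∀ i, InH n μ m (s i)) → (∃ x, Et s₀ s x) → ∀ (D : Prim F s₀ s) (r : ℕ) (k : Fin r → ℕ)
    (a b : Fin r → M → ℂ), (∀ i, a i ∈ F.Tame (k i) ∧ b i ∈ F.Tame (k i) ∧ b i ≠ 0) →
    ∃ Q, Cut D a b Q

/-- the image of the etale locus in the variety -/
def Img (s₀ : M → ℂ) (s : Fin n → M → ℂ) (u v : M → ℂ) (Q : Pz n) : Set (Cm n × ℂ) :=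
  {q | MvPolynomial.eval q.1 Q ≠ 0 ∧ ∃ x, Et s₀ s x ∧ Phi s₀ s x = q.1 ∧ u x / v x = q.2}

variable (n) in
/-- **CLOP**: the image is open and closed -/
def CLOP (μ : Measure M) : Prop :=
  ∀ (p : M) (F : Fr n μ p) (m : ℕ) (s₀ : M → ℂ) (s : Fin n → M → ℂ), IsSec n (-m) s₀ →
    (∀ i, IsSec n (-m) (s i)) → ∀ (D : Prim F s₀ s) (r : ℕ) (a b : Fin r → M → ℂ) (Q : Pz n),
    Cut D a b Q →
    (∀ (c : Cm n) (ρ C : ℝ) (j : Cm n → M), 0 < ρ → ContinuousOn j (ball c ρ) →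
        (∀ z ∈ ball c ρ, Et s₀ s (j z) ∧ Phi s₀ s (j z) = z) →
        (∀ i, ∀ z ∈ ball c ρ, ‖a i (j z)‖ ≤ C * ‖b i (j z)‖) →
        ∀ ζ ∈ sphere c ρ, ∃ x, Et s₀ s x ∧ MapClusterPt x (𝓝[ball c ρ] ζ) j) →
    (∀ q ∈ Img s₀ s D.u D.v Q, ∀ᶠ q' in 𝓝 q, q' ∈ Var D.P Q → q' ∈ Img s₀ s D.u D.v Q) ∧
      ∀ q ∈ Var D.P Q, q ∈ closure (Img s₀ s D.u D.v Q) → q ∈ Img s₀ s D.u D.v Q

variable (n) in
/-- **FIN**: the data of `Aff` -/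
def FIN (μ : Measure M) : Prop :=
  ∀ (p : M) (F : Fr n μ p) (m : ℕ) (s₀ : M → ℂ) (s : Fin n → M → ℂ), 1 ≤ m → InH n μ m s₀ →
    (∀ i, InH n μ m (s i)) → (∃ x, Et s₀ s x) → ∀ (D : Prim F s₀ s) (r : ℕ)
    (a b : Fin r → M → ℂ) (Q : Pz n), Cut D a b Q → Img s₀ s D.u D.v Q = Var D.P Q →
    Nonempty (Aff F)

variable (n) in
/-- **T2**, the form that is proved -/
def AFFE (μ : Measure M) : Prop := ∀ p : M, ∃ F : Fr n μ p, Nonempty (Aff F)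

theorem affe_of {μ : Measure M} (h3 : PK3 n μ) (et : ET n M) (prim : PRIM n μ) (bnd : BNDa n μ)
    (cut : CUT n μ) (clop : CLOP n μ) (conn : CONN n) (fin : FIN n μ) : AFFE n μ := by
  intro p
  obtain ⟨e, he, hx, m, hm, s₀, s, h₀, hs, hne, hb⟩ := h3 p
  have hE : ∃ x, Et s₀ s x :=
    ⟨p, et.of_chart m s₀ s h₀.1 (fun i => (hs i).1) p e he hx hne hb⟩
  obtain ⟨F, r, k, a, b, hab, hB⟩ := bnd p m s₀ s hm h₀ hs hE
  obtain ⟨D⟩ := prim p F m s₀ s hm h₀ hs hE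
  obtain ⟨Q, hQ⟩ := cut p F m s₀ s hm h₀ hs hE D r k a b hab
  obtain ⟨h1, h2⟩ := clop p F m s₀ s h₀.1 (fun i => (hs i).1) D r a b Q hQ hB
  refine ⟨F, fin p F m s₀ s hm h₀ hs hE D r a b Q hQ
    (conn D.P Q D.monic D.irr hQ.sep _ ?_ ?_ h1 h2)⟩
  · rintro q ⟨h4, x, h5, h6, h7⟩
    refine ⟨h4, ?_⟩
    rw [← h6, ← h7]
    exact D.root x h5.1 (hQ.nev x h5.1 (h6 ▸ h4))
  · obtain ⟨x, hx⟩ := hE
    obtain ⟨V, ρ, j, -, -, hρ, -, h4, h5⟩ := et.inv m s₀ s h₀.1 (fun i => (hs i).1) x hx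
    have h6 : ∃ z ∈ ball (Phi s₀ s x) ρ, MvPolynomial.eval z Q ≠ 0 := by
      by_contra h
      push Not at h
      refine hQ.ne (MvPolynomial.funext fun z => ?_)
      have h7 : AnalyticOnNhd ℂ (fun z : Cm n => MvPolynomial.eval z Q) univ :=
        AnalyticOnNhd.eval_mvPolynomial Q
      have h8 := h7.eqOn_zero_of_preconnected_of_eventuallyEq_zero isPreconnected_univ
        (mem_univ (Phi s₀ s x)) (by filter_upwards [ball_mem_nhds _ hρ] with w hw using h w hw)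
      simpa using h8 (mem_univ z)
    obtain ⟨z, hz, h7⟩ := h6
    exact ⟨(z, D.u (j z) / D.v (j z)), h7, j z, (h5 _ (h4 z hz).1).1, (h4 z hz).2, rfl⟩

end Vale.Agent.P253Z.T2
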