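import Vale.Agent.P253Z.T2.Alg

/-!
# P253Z, T2: homogeneous polynomials in sections
-/

open scoped Manifold Bundle
open Bundle MeasureTheory Set
open Vale.Agent.P272.K (Cm)

noncomputable section

namespace Vale.Agent.P253Z.T2

variable {n : ℕ} {M : Type}

/-- a polynomial in the ratios `s i / s₀` is a ratio -/
theorem hom {T : ℕ → Submodule ℂ (M → ℂ)} (h : VS.Gr T) {m : ℕ} {s₀ : M → ℂ}
    {s : Fin n → M → ℂ} (h₀ : s₀ ∈ T m) (hs : ∀ i, s i ∈ T m) (d : Pz n) :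
    ∃ (D : ℕ) (w : M → ℂ), w ∈ T (D * m) ∧
      ∀ x, s₀ x ≠ 0 → w x = s₀ x ^ D * MvPolynomial.eval (Phi s₀ s x) d := by
  induction d using MvPolynomial.induction_on with
  | C c => exact ⟨0, c • 1, by simpa using (T 0).smul_mem c h.one, fun x _ => by simp⟩
  | add p q hp hq =>
    obtain ⟨D, w, h1, h2⟩ := hp
    obtain ⟨D', w', h3, h4⟩ := hq
    refine ⟨D + D', w * s₀ ^ D' + s₀ ^ D * w', ?_, fun x hx => ?_⟩
    · rw [Nat.add_mul]
      exact add_mem (h.mul _ _ _ h1 _ (h.pow h₀ D')) (h.mul _ _ _ (h.pow h₀ D) _ h3)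
    · simp only [Pi.add_apply, Pi.mul_apply, Pi.pow_apply, h2 x hx, h4 x hx, map_add]
      ring
  | mul_X p i hp =>
    obtain ⟨D, w, h1, h2⟩ := hp
    refine ⟨D + 1, w * s i, ?_, fun x hx => ?_⟩
    · rw [Nat.add_mul, one_mul]
      exact h.mul _ _ _ h1 _ (hs i)
    · simp only [Pi.mul_apply, h2 x hx, map_mul, MvPolynomial.eval_X, Phi]
      field_simp
      ring

variable [MetricSpace M] [ChartedSpace (Cm n) M]
  [RiemannianBundle (fun x : M => TangentSpace 𝓘(ℝ, Cm n) x)] [MeasurableSpace M]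

theorem gr_tame {μ : Measure M} {p : M} (a : B1a n M) (F : Fr n μ p) : VS.Gr F.Tame :=
  ⟨one_tame F, fun _ _ _ hs _ ht => mul_tame a F hs ht⟩

end Vale.Agent.P253Z.T2
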