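import Vale.Agent.P253Z.T2.An
import Vale.Agent.P253Z.T2.Hom

/-!
# P253Z, T2: inverse branches extend across the boundary
-/

open scoped Manifold ContDiff Bundle ENNReal Topology ComplexConjugate ComplexOrder
open Bundle IsManifold MeasureTheory Set Metric Filter Vale.Agent.P253.Mfd
open Vale.Agent.P272.K (Cm dz dzb cHess jacM Chart)

noncomputable section

namespace Vale.Agent.P253Z.T2

open VS (ev Jac)

namespace Bnd

/-- the determinant is bounded below by the trace of the inverse -/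
theorem det_ge {n : ℕ} {H : Matrix (Fin n) (Fin n) ℂ} (hH : H.PosDef) {τ : ℝ}
    (h : (H⁻¹).trace.re ≤ τ) : ((max τ 1) ^ n)⁻¹ ≤ H.det.re := by
  have hG := hH.inv
  have h1 := hG.isHermitian.det_eq_prod_eigenvalues
  have h2 := hG.isHermitian.trace_eq_sum_eigenvalues
  have h3 : ∀ i, 0 < hG.isHermitian.eigenvalues i := hG.eigenvalues_pos
  have h4 : ∑ i, hG.isHermitian.eigenvalues i ≤ τ := by
    rw [h2] at h
    simpa using h
  have h5 : ∏ i, hG.isHermitian.eigenvalues i ≤ (max τ 1) ^ n := by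
    calc _ ≤ ∏ _i : Fin n, max τ 1 := Finset.prod_le_prod (fun i _ => (h3 i).le) fun i _ =>
          ((Finset.single_le_sum (fun j _ => (h3 j).le) (Finset.mem_univ i)).trans h4).trans
            (le_max_left _ _)
      _ = _ := by simp
  have h6 : 0 < ∏ i, hG.isHermitian.eigenvalues i := Finset.prod_pos fun i _ => h3 i
  have h7 : H.det = ((∏ i, hG.isHermitian.eigenvalues i : ℝ)⁻¹ : ℝ) := by
    rw [Matrix.det_nonsing_inv, Ring.inverse_eq_inv'] at h1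
    rw [← inv_inv H.det, h1]
    push_cast
    rfl
  rw [h7, Complex.ofReal_re]
  exact inv_anti₀ h6 h5

variable {n : ℕ} {M : Type} [MetricSpace M] [ChartedSpace (Cm n) M]

theorem smSec {k : ℤ} {s : M → ℂ} (h : IsSec n k s) : SmSec n k s :=
  fun e he z hz => ((h e he z hz).contDiffAt (n := ∞)).restrict_scalars ℝ

variable [RiemannianBundle (fun x : M => TangentSpace 𝓘(ℝ, Cm n) x)]

/-- a section whose coefficient is bounded below does not vanish at the limit -/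
theorem ne_lim (b : B1b n M) {k : ℕ} {s : M → ℂ} (hs : IsSec n (-k) s) {e : Chart n M} (he : Hc e)
    {γ : ℝ → Cm n} {l : Filter ℝ} [l.NeBot] {x : M} {c δ : ℝ} (hc : 0 < c) (hδ : 0 < δ)
    (hT : Tendsto (fun t => e.symm (γ t)) l (𝓝 x))
    (h : ∀ᶠ t in l, γ t ∈ e.target ∧ c ≤ ‖co (-k) s e (γ t)‖ ∧ δ ≤ vd e (γ t)) : s x ≠ 0 := by
  have h1 := ((b.nrm_cont _ s (smSec hs)).tendsto x).comp hT
  have h2 : c ^ 2 * δ ^ k ≤ nrm n (-k) s x := by
    refine ge_of_tendsto h1 ?_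
    filter_upwards [h] with t ht
    rw [Function.comp_apply, b.nrm_eq _ s e he _ ht.1, neg_neg, zpow_natCast]
    exact mul_le_mul (pow_le_pow_left₀ hc.le ht.2.1 2) (pow_le_pow_left₀ hδ.le ht.2.2 k)
      (by positivity) (by positivity)
  intro h0
  rw [nrm, h0, norm_zero, zero_pow two_ne_zero, zero_mul] at h2
  exact absurd h2 (not_le.2 (by positivity))

end Bnd

variable {n : ℕ} {M : Type} [MetricSpace M] [ChartedSpace (Cm n) M]
  [IsManifold 𝓘(ℂ, Cm n) 1 M]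
  [RiemannianBundle (fun x : M => TangentSpace 𝓘(ℝ, Cm n) x)] [MeasurableSpace M]
  {μ : Measure M}

/-- sections of large degree which do not vanish at a point -/
theorem ex_sec (A : All n μ) (x : M) :
    ∃ (m' : ℕ) (t : M → ℂ), n ≤ m' ∧ 1 ≤ m' ∧ InH n μ m' t ∧ t x ≠ 0 := by
  obtain ⟨c, hc, h⟩ := A.pk1
  obtain ⟨m', ⟨t, h1, h2, h3⟩, h4, h5⟩ :=
    ((h x).and ((eventually_ge_atTop n).and (eventually_ge_atTop 1))).exists
  refine ⟨m', t, h4, h5, ⟨h1, h2.trans_lt ENNReal.one_lt_top⟩, fun h0 => ?_⟩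
  have he := A.a.chart x
  have hz := (chartAt (Cm n) x).map_source (mem_chart_source (Cm n) x)
  have h6 : 0 < ricDen n x :=
    div_pos (Complex.pos_iff.1 (A.r _ he _ hz).det_pos).1 (A.b.vd_pos _ he _ hz)
  rw [nrm, h0, norm_zero, zero_pow two_ne_zero, zero_mul] at h3
  have : (0 : ℝ) < m' := by exact_mod_cast h5
  exact absurd h3 (not_le.2 (by positivity))

theorem bnr (A : All n μ) (h0 : CHJ n M) (h1 : PCX n M) (h2 : TAU n μ) (h3 : VOL n μ)
    (h4 : RAY n M) : BNR n μ := by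
  intro p m s₀ s hm h₀ hs x₁ hx₁
  obtain ⟨k1, k2⟩ := h0 m s₀ s hm h₀.1 fun i => (hs i).1
  have hJ₁ : Jac s₀ s x₁ ≠ 0 := (k1 x₁).1 hx₁
  obtain ⟨F, r, l, a, C', hJt, ha, hb, H⟩ := h2 p m s₀ s hm h₀ hs
    (fun h => hx₁.1 (by rw [h]; rfl)) (fun h => hJ₁ (by rw [h]; rfl))
  obtain ⟨m', t, hm1, hm2, ht, htx⟩ := ex_sec A x₁
  have G := gr_tame A.a F
  have t₀ := tame_of_inH F hm h₀
  refine ⟨F, r + 2, Fin.cons (m * (m * (2 * n + 1) - 1 + m)) (Fin.cons (m * m') fun _ => l),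
    Fin.cons (s₀ ^ (m * (2 * n + 1) - 1 + m)) (Fin.cons (s₀ ^ m') a),
    Fin.cons ((Jac s₀ s * s₀) ^ m) (Fin.cons (t ^ m) fun _ => Jac s₀ s * s₀ * s₀ ^ (n + 4)),
    fun i => ?_, hJt, fun c ρ C j hρ hj hΦ hab ζ hζ => ?_⟩
  · refine Fin.cases ?_ (fun i => Fin.cases ?_ (fun i => ?_) i) i
    · simp only [Fin.cons_zero]
      exact ⟨mul_comm m _ ▸ G.pow t₀ _, G.pow hJt _, pow_ne_zero _ (mul_ne_zero hJ₁ hx₁.1)⟩
    · simp only [Fin.cons_succ, Fin.cons_zero]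
      exact ⟨mul_comm m _ ▸ G.pow t₀ _, G.pow (tame_of_inH F hm2 ht) _, pow_ne_zero _ htx⟩
    · simp only [Fin.cons_succ]
      exact ⟨ha i, hb, mul_ne_zero (mul_ne_zero hJ₁ hx₁.1) (pow_ne_zero _ hx₁.1)⟩
  obtain ⟨e, he, hT, hej⟩ := k2 _ j isOpen_ball hj hΦ
  have hsub : ball c ρ ⊆ e.target := hT.ge
  have hτ : ∀ z ∈ ball c ρ, ((P253Z.hm e z)⁻¹).trace.re ≤
      max C' 0 * C ^ 2 * (1 + (‖c‖ + ρ)) ^ (2 * n) := fun z hz => by
    refine (H e he z (hsub hz) C fun i => ?_).trans ?_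
    · have := hab i.succ.succ z hz
      simpa only [Fin.cons_succ, hej z hz] using this
    · have : ‖z‖ ≤ ‖c‖ + ρ := norm_le_of_mem_closedBall (ball_subset_closedBall hz)
      gcongr
      exact le_max_left _ _
  obtain ⟨⟨δ, hδ, hlow⟩, hint⟩ := h3 m m' s₀ t s hm hm1 h₀.1 (fun i => (hs i).1) ht e he _ C _
    measurableSet_ball hsub
    (fun z hz => by simpa only [Fin.cons_zero, hej z hz] using hab 0 z hz)
    (fun z hz => by simpa only [Fin.cons_succ, Fin.cons_zero, hej z hz] using hab (Fin.succ 0) z hz)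
    hτ
  have hcl : ζ ∈ closure (ball c ρ) := by
    rw [closure_ball c hρ.ne']; exact sphere_subset_closedBall hζ
  obtain ⟨z₀, hz₀, x₀, hL⟩ := h4 e he.1 _ ζ _ isOpen_ball (convex_ball c ρ) (nonempty_ball.2 hρ)
    hsub hcl hτ hint
  have hmem : ∀ᶠ t : ℝ in 𝓝[>] 0, ζ + t • (z₀ - ζ) ∈ ball c ρ := by
    filter_upwards [Ioc_mem_nhdsGT (zero_lt_one' ℝ)] with t ht
    have := (convex_ball c ρ).add_smul_sub_mem_interior' hcl
      (by rwa [isOpen_ball.interior_eq]) ht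
    rwa [isOpen_ball.interior_eq] at this
  refine ⟨x₀, (k1 x₀).2 ?_, cluster_of_seg hρ hζ hz₀ hej hL⟩
  refine Bnd.ne_lim A.b (VS.Jac_sec A.a hm h₀.1 fun i => (hs i).1) he.1
    (pow_pos hδ (2 * n + 1)) hδ hL (hmem.mono fun t ht => ⟨hsub ht, ?_, (hlow _ ht).2⟩)
  rw [((h1 m s₀ s hm h₀.1 fun i => (hs i).1).2 e he _ (hsub ht)).1, norm_pow]
  exact pow_le_pow_left₀ hδ.le (hlow _ ht).1 _

end Vale.Agent.P253Z.T2
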