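import Vale.Agent.P253Z.T2.An
import Vale.Agent.P253Z.FR
import Vale.Agent.P253Z.GR

/-!
# P253Z, T2: frames with their bounds, growth from an integral bound
-/

open scoped Manifold ContDiff Bundle ENNReal Topology ComplexConjugate ComplexOrder
open Bundle IsManifold MeasureTheory Set Metric Filter Vale.Agent.P253.Mfd
open Vale.Agent.P272.K (Cm dz dzb cHess jacM Chart)

noncomputable section

namespace Vale.Agent.P253Z.T2

variable {n : ℕ} {M : Type} [MetricSpace M] [ChartedSpace (Cm n) M]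
  [IsManifold 𝓘(ℂ, Cm n) 1 M] [IsManifold 𝓘(ℝ, Cm n) ∞ M]
  [RiemannianBundle (fun x : M => TangentSpace 𝓘(ℝ, Cm n) x)]
  [IsContMDiffRiemannianBundle 𝓘(ℝ, Cm n) ∞ (Cm n) (fun x : M => TangentSpace 𝓘(ℝ, Cm n) x)]
  [IsRiemannianManifold 𝓘(ℝ, Cm n) M] [CompleteSpace M] [ConnectedSpace M] [NoncompactSpace M]
  [MeasurableSpace M] [BorelSpace M] {μ : Measure M}

open FRa in
theorem fr2 (a : B1a n M) (b : B1b n M) (h1 : WT n M) (h2 : RB n M) (h3 : HJ n μ)
    (h4 : GR n μ) : FR2 n μ := by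
  intro p
  obtain ⟨κ, hκ, hW⟩ := h1 p
  obtain ⟨Λ, hΛ, hJ⟩ := h3
  obtain ⟨e, he, hpe, hep, hsub, hnear⟩ := exists_chart a p (ρ := 1 / 8) (by norm_num)
  obtain ⟨l, hl, hlow⟩ := unif (isCompact_closedBall (0 : Cm n) 2) (H := hm e)
    (fun j k z hz => (b.wsm e he z (hsub hz) j k).continuousAt.continuousWithinAt)
    (fun z hz => b.wpos e he z (hsub hz))
  set q : ℝ := 2 * Λ / (κ * l) with hq
  have hq0 : 0 < q := by positivity
  obtain ⟨C, δ, -, hδ, hδ1, hS⟩ := hJ 1 (q * (5 / 4)) (1 / 2) (by norm_num)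
  have hR : ∀ ν : ℕ, (2 : ℝ) ≤ ν + 2 := fun ν => by linarith [Nat.cast_nonneg (α := ℝ) ν]
  choose A W c hA hD hcc hc0 hcκ hL hW1 hW2 using fun ν : ℕ => hW (ν + 2) (hR ν)
  choose u hu hu1 hu2 using fun ν : ℕ => h2 (W ν) (c ν) (hcc ν) (hc0 ν) (hL ν)
  have hth : ∀ ν (e' : Chart n M) z, th 1 (fun x => q * u ν x) e' z =
      (q : ℂ) • cHess (fun y => u ν (e'.symm y)) z := by
    intro ν e' z
    rw [← cHess_smul]
    unfold th
    congr 1
    funext y
    simp [wt]
  have hsm : ∀ ν, Sm n fun x => q * u ν x := fun ν e' he' z hz =>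
    contDiffAt_const.mul (hu ν e' he' z hz)
  have hΩ : ∀ ν, ∃ Ω : M → ℂ, IsSec n 1 Ω ∧ L2 n μ 1 (fun x => q * u ν x) Ω ≤ ENNReal.ofReal C ∧
      ∀ z ∈ closedBall (0 : Cm n) δ, 1 / 2 ≤ ‖co 1 Ω e z‖ := by
    intro ν
    refine (hS 1 (fun x => q * u ν x) (hsm ν) (fun e' he' z hz => ?_)
      (fun _ => e) (fun _ _ => 1) (fun _ _ => 1) (fun _ => he) (fun _ => hsub)
      (fun i j hij => absurd (Subsingleton.elim i j) hij) (fun _ z hz => ?_)).imp
      fun s ⟨hs, hs2, hs3⟩ => ⟨hs, hs2, fun z hz => ?_⟩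
    · rw [hth]
      refine Matrix.PosSemidef.smul ?_ (Complex.zero_le_real.mpr hq0.le)
      have h5 := (hu2 ν e' he' z hz).add ((b.wpos e' he' z hz).posSemidef.smul
        (Complex.zero_le_real.mpr (half_pos (hc0 ν (e'.symm z))).le))
      rwa [sub_add_cancel] at h5
    · have hz8 := hnear z hz
      have hk := hcκ ν (e.symm z) (mem_closedBall.mpr hz8.le)
      refine ⟨?_, analyticAt_const, analyticAt_const, one_ne_zero, by simp, ?_⟩
      · rw [hth]
        have h5 := (hu2 ν e he z (hsub hz)).smul (Complex.zero_le_real.mpr hq0.le)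
        have h6 := (hlow z hz).smul (a := ((q * (c ν (e.symm z) / 2) : ℝ) : ℂ))
          (Complex.zero_le_real.mpr (mul_pos hq0 (half_pos (hc0 ν _))).le)
        have h7 : 0 ≤ q * (c ν (e.symm z) / 2) * l - Λ := by
          have : q * (κ / 2) * l = Λ := by rw [hq]; field_simp
          rw [← this, sub_nonneg]
          gcongr
        have h8 := (Matrix.PosSemidef.one (n := Fin n) (R := ℂ)).smul
          (Complex.zero_le_real.mpr h7)
        refine (congrArg Matrix.PosSemidef ?_).mp ((h5.add h6).add h8)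
        push_cast
        module
      · have h5 := hu1 ν (e.symm z)
        have h6 := hW1 ν (e.symm z)
        have h7 : |u ν (e.symm z)| ≤ 5 / 4 := by
          have := abs_add_le (u ν (e.symm z) - W ν (e.symm z)) (W ν (e.symm z))
          rw [sub_add_cancel] at this
          linarith
        have h8 : wt 1 (fun x => q * u ν x) e z = q * u ν (e.symm z) := by simp [wt]
        rw [h8, norm_one, one_pow, Real.log_one, zero_sub, abs_neg, abs_mul, abs_of_pos hq0]
        exact mul_le_mul_of_nonneg_left h7 hq0.le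
    · have h5 := (hs3 0).1 z hz
      simp only [div_one] at h5
      have h6 := norm_sub_norm_le (1 : ℂ) (co 1 s e z)
      rw [norm_sub_rev, norm_one] at h6
      linarith
  choose Ω hΩ1 hΩ2 hΩ3 using hΩ
  have hA0 : ∀ ν, 0 ≤ A ν := fun ν => (Real.log_nonneg (by linarith [hR ν])).trans (hA ν)
  have ht0 : ∀ (ν : ℕ) x, 0 ≤ tl p (ν + 2) x := fun ν x => le_max_right _ _
  have ht1 : ∀ (ν : ℕ) x, dist x p - (ν + 2) ≤ tl p (ν + 2) x := fun ν x => le_max_left _ _
  have hδ2 : closedBall (0 : Cm n) δ ⊆ closedBall 0 2 := closedBall_subset_closedBall (by linarith)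
  refine ⟨
    { C₂ := 2 * q + 2 * n
      C₂_pos := by positivity
      R := fun ν => ν + 2
      A := A
      A_top := tendsto_atTop_mono hA (Real.tendsto_log_atTop.comp
        (tendsto_atTop_add_const_right _ 2 tendsto_natCast_atTop_atTop))
      dom := hD
      Ω := Ω
      sec := hΩ1
      e := e
      he := he
      src := hpe
      ep := hep
      δ := δ
      δ_pos := hδ
      sub := hδ2.trans hsub
      near := fun z hz => (hnear z (hδ2 hz)).le.trans (by norm_num)
      low := hΩ3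
      l2 := fun m hm s hs => ?_
      ψ := fun ν x => q * u ν x
      cont := fun ν => a.sm_cont _ (hsm ν)
      C₁ := C
      bd := hΩ2
      C₃ := 3 * q
      C₃_pos := by positivity
      le := fun ν x => ?_
      lg := fun ν x => (log_le dist_nonneg (hR ν) (hA ν) (ht0 ν x) (ht1 ν x)).trans_eq (by ring)
      A_nn := hA0 }⟩
  swap
  · have h5 := (abs_le.mp (hu1 ν x)).2
    have h6 := hW2 ν x
    have h7 : u ν x ≤ 3 * (A ν + 1 + tl p (ν + 2) x) := by linarith [hA0 ν, ht0 ν x]
    exact (mul_le_mul_of_nonneg_left h7 hq0.le).trans_eq (by ring)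
  obtain ⟨C', hC'⟩ := h4 p m hm s hs C
  refine ⟨C' + m * (5 * q + 2 * n), fun ν x => ?_⟩
  have hA0 := hA0 ν
  have ht0 := ht0 ν x
  have ht1 := ht1 ν x
  refine (hC' (Ω ν) _ (hΩ1 ν) (a.sm_cont _ (hsm ν)) (hΩ2 ν) x
    (q * (A ν + 5 + 2 * tl p (ν + 2) x)) (by positivity) fun y hy => ?_).trans ?_
  · refine mul_le_mul_of_nonneg_left ?_ hq0.le
    have h5 := (abs_le.mp (hu1 ν y)).2
    have h6 := hW2 ν y
    have h7 : tl p (ν + 2) y ≤ tl p (ν + 2) x + 1 := by
      refine max_le ?_ (by linarith)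
      have := dist_triangle y x p
      rw [mem_ball] at hy
      linarith
    linarith
  · refine Real.exp_le_exp.mpr ?_
    have h5 := log_le (dist_nonneg (x := x) (y := p)) (hR ν) (hA ν) ht0 ht1
    have hn : (0 : ℝ) ≤ n := Nat.cast_nonneg n
    have hm0 : (0 : ℝ) ≤ m := Nat.cast_nonneg m
    have h6 : q * (A ν + 5 + 2 * tl p (ν + 2) x) + 2 * n * Real.log (dist x p + 1) ≤
        (5 * q + 2 * n) + (2 * q + 2 * n) * (A ν + tl p (ν + 2) x) := by
      nlinarith [mul_le_mul_of_nonneg_left h5 hn, mul_nonneg hq0.le hA0]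
    have h7 := mul_le_mul_of_nonneg_left h6 hm0
    linarith

namespace FR2a

theorem rpow_le {t b : ℝ} {m : ℕ} (ht : 0 ≤ t) (hb : 0 ≤ b) (h : t ^ 2 ≤ b ^ (m + 1)) :
    t ^ (2 / (m + 1 : ℝ)) ≤ b := by
  calc t ^ (2 / (m + 1 : ℝ)) = (t ^ 2) ^ (m + 1 : ℝ)⁻¹ := by
        rw [div_eq_mul_inv, Real.rpow_mul ht, Real.rpow_two]
    _ ≤ (b ^ (m + 1)) ^ (m + 1 : ℝ)⁻¹ := by gcongr
    _ = b := by rw [← Nat.cast_succ, Real.pow_rpow_inv_natCast hb (Nat.succ_ne_zero m)]

end FR2a

open GR FR2a in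
theorem gen2 (a : B1a n M) (b : B1b n M) (v : B3 n μ) (h1 : MV n μ) (h2 : BG n μ) :
    GEN n μ := by
  intro p F k C' hC'
  obtain ⟨A, hA, h1⟩ := h1
  obtain ⟨B, hB, h2⟩ := h2
  have := properSpace_riemannian (Cm n) M
  have fin : ∀ (x : M) r, μ (ball x r) ≠ ⊤ := fun x r =>
    ((measure_mono ball_subset_closedBall).trans_lt (v.fin _ (isCompact_closedBall x r))).ne
  have pos : ∀ x : M, 0 < μ.real (ball x 1) := fun x =>
    ENNReal.toReal_pos (v.pos _ isOpen_ball ⟨x, mem_ball_self one_pos⟩).ne' (fin x 1)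
  have hp := pos p
  have h3 := F.C₃_pos
  obtain ⟨m, hm⟩ : ∃ m : ℕ, m = k + 1 := ⟨_, rfl⟩
  have hm1 : 1 ≤ m := by omega
  refine ⟨m * (C' + F.C₃ + 2 * n), by positivity, fun N s G C hs G0 cG hS H => ?_⟩
  set S := (∫⁻ x, ENNReal.ofReal (G x) ∂μ).toReal with hS'
  have hS0 : 0 ≤ S := ENNReal.toReal_nonneg
  set q : ℝ := 2 / (m + 1) with hq
  have hm' : (1 : ℝ) ≤ m := by exact_mod_cast hm1
  have q0 : 0 < q := by positivity
  have q1 : q ≤ 1 := (div_le_one (by positivity)).2 (by linarith)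
  set K := A * (1 / q) ^ (2 * n) * (1 + (S + |F.C₁|) * (B / μ.real (ball p 1))) with hK
  have K0 : 0 < K := by positivity
  refine ⟨(m + 1) / 2 * Real.log K + m * (|C| + C' + 2 * F.C₃ + 2 * n), fun ν x => ?_⟩
  have hΩ := F.sec ν
  have A0 := F.A_nn ν
  set Ω := F.Ω ν with hΩ'
  set t := tl p (F.R ν) x with ht
  have t0 : 0 ≤ t := le_max_right _ _
  have tl1 : ∀ y ∈ ball x 1, tl p (F.R ν) y ≤ t + 1 := fun y hy => by
    refine max_le ?_ (by linarith)
    have h4 := dist_triangle y x p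
    have h5 : dist x p - F.R ν ≤ t := le_max_left _ _
    rw [mem_ball] at hy
    linarith
  set X := |C| + C' * (F.A ν + t + 1) with hX
  set T := F.C₃ * (F.A ν + t + 2) with hT
  set Y := 2 * n * (F.A ν + 1 + t) with hY
  have X0 : 0 ≤ X := by positivity
  have T0 : 0 ≤ T := by positivity
  have Y0 : 0 ≤ Y := by positivity
  refine (le_exp (K := K) (X := X + T + Y) hm1 (norm_nonneg _) K0 (by positivity) ?_).trans_eq
    (congrArg _ (by rw [hX, hT, hY]; ring))
  have s1 : ∀ l : ℕ, IsSec n (-N + l) (s * Ω ^ l) := fun l => by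
    induction l with
    | zero => simpa using hs
    | succ l ih =>
      rw [pow_succ, Nat.cast_succ, ← add_assoc, ← mul_assoc]
      exact a.sec_mul _ _ _ _ ih hΩ
  have s2 : IsSec n 0 (s * Ω ^ N) := by simpa only [neg_add_cancel] using s1 N
  have n0 : ∀ y, 0 ≤ nrm n 1 Ω y := fun y => mul_nonneg (sq_nonneg _)
    (zpow_pos (b.vd_pos _ (a.chart y) _ (mem_chart_target _ y)) _).le
  have eX := Real.one_le_exp X0
  have eT := Real.one_le_exp T0
  have eY := Real.one_le_exp Y0
  have e1 : ∀ y ∈ ball x 1, ENNReal.ofReal (‖(s * Ω ^ N) y‖ ^ q) ≤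
      ENNReal.ofReal (Real.exp X) * (1 + (ENNReal.ofReal (G y) + ENNReal.ofReal (Real.exp T) *
        ENNReal.ofReal (nrm n 1 Ω y * Real.exp (-F.ψ ν y)))) := by
    intro y hy
    have g0 := G0 y
    have n1 := n0 y
    rw [← ENNReal.ofReal_mul (Real.exp_pos _).le, ← ENNReal.ofReal_add g0 (by positivity),
      ← ENNReal.ofReal_one, ← ENNReal.ofReal_add zero_le_one (by positivity),
      ← ENNReal.ofReal_mul (Real.exp_pos _).le]
    refine ENNReal.ofReal_le_ofReal ((rpow_le (b := Real.exp X * (1 + G y + nrm n 1 Ω y))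
      (norm_nonneg _) (by positivity) ((H ν y).trans ?_)).trans ?_)
    · rw [mul_pow, mul_comm]
      refine mul_le_mul ((Real.exp_le_exp.2 ?_).trans (le_self_pow₀ eX (by omega)))
        (pow_le_pow_right₀ (by linarith) (by omega)) (by positivity) (by positivity)
      have := mul_le_mul_of_nonneg_left (tl1 y hy) hC'
      linarith [le_abs_self C]
    · refine mul_le_mul_of_nonneg_left ?_ (Real.exp_pos _).le
      rw [add_assoc, mul_left_comm, ← Real.exp_add]
      have h4 := mul_le_mul_of_nonneg_left (tl1 y hy) h3.le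
      have h5 := F.le ν y
      have := le_mul_of_one_le_right n1 (Real.one_le_exp (x := T + -F.ψ ν y) (by linarith))
      linarith
  have e2 : ∫⁻ y in ball x 1, ENNReal.ofReal (‖(s * Ω ^ N) y‖ ^ q) ∂μ ≤ ENNReal.ofReal
      (Real.exp X * (μ.real (ball x 1) + (S + |F.C₁|) * Real.exp T)) := by
    refine (setLIntegral_mono' measurableSet_ball e1).trans ?_
    rw [lintegral_const_mul' _ _ ENNReal.ofReal_ne_top, lintegral_add_left measurable_const,
      setLIntegral_one, ENNReal.ofReal_mul (Real.exp_pos _).le,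
      ENNReal.ofReal_add (pos x).le (by positivity), ofReal_measureReal (fin x 1)]
    refine mul_le_mul_right (add_le_add le_rfl ((setLIntegral_le_lintegral _ _).trans ?_)) _
    rw [lintegral_add_left cG.measurable.ennreal_ofReal,
      lintegral_const_mul' _ _ ENNReal.ofReal_ne_top, ← ENNReal.ofReal_toReal hS.ne, ← hS']
    refine (add_le_add le_rfl (mul_le_mul_right
      ((F.bd ν).trans (ENNReal.ofReal_le_ofReal (le_abs_self F.C₁))) _)).trans ?_
    rw [← ENNReal.ofReal_mul (Real.exp_pos _).le, ← ENNReal.ofReal_add hS0 (by positivity)]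
    exact ENNReal.ofReal_le_ofReal (by nlinarith)
  have e3 := (h1 _ s2 x 1 q one_pos q0 q1).trans (mul_le_mul_right e2 _)
  have px := pos x
  rw [← ENNReal.ofReal_mul (by positivity), ← ofReal_measureReal (fin x 1),
    ← ENNReal.ofReal_mul (by positivity), ENNReal.ofReal_le_ofReal_iff (by positivity)] at e3
  have d0 := dist_nonneg (x := x) (y := p)
  have e5 : (dist x p + 1) ^ (2 * n) ≤ Real.exp Y := by
    rw [← Real.exp_log (show 0 < (dist x p + 1) ^ (2 * n) by positivity), Real.log_pow]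
    push_cast
    exact Real.exp_le_exp.2 (mul_le_mul_of_nonneg_left (F.lg ν x) (by positivity))
  have e4 : 1 ≤ B / μ.real (ball p 1) * (Real.exp Y * μ.real (ball x 1)) := by
    have h4 := h2 x 1 (dist x p + 1) one_pos (by linarith)
    rw [div_one] at h4
    rw [div_mul_eq_mul_div, le_div_iff₀ hp, one_mul, ← mul_assoc]
    refine ((measureReal_mono (ball_subset ?_) (fin _ _)).trans h4).trans (by gcongr)
    rw [dist_comm]
    linarith
  refine le_of_mul_le_mul_right (e3.trans ?_) px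
  have e6 : μ.real (ball x 1) + (S + |F.C₁|) * Real.exp T ≤
      (1 + (S + |F.C₁|) * (B / μ.real (ball p 1))) *
        (Real.exp T * Real.exp Y * μ.real (ball x 1)) := by
    have h4 := le_mul_of_one_le_right (show 0 ≤ (S + |F.C₁|) * Real.exp T by positivity) e4
    have h5 := le_mul_of_one_le_left px.le (one_le_mul_of_one_le_of_one_le eT eY)
    linarith
  refine (mul_le_mul_of_nonneg_left (mul_le_mul_of_nonneg_left e6 (Real.exp_pos X).le)
    (show 0 ≤ A * (1 / q) ^ (2 * n) by positivity)).trans (le_of_eq ?_)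
  rw [Real.exp_add (X + T), Real.exp_add X, hK]
  ring

end Vale.Agent.P253Z.T2
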