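import Vale.Agent.P253Z.T2.An

/-!
# P253Z, T2: the weighted Bergman space and the Jacobian are tame for some frame
-/

open scoped Manifold ContDiff Bundle ENNReal Topology ComplexConjugate ComplexOrder
open Bundle IsManifold MeasureTheory Set Metric Filter Vale.Agent.P253.Mfd
open Vale.Agent.P272.K (Cm dz dzb cHess jacM Chart)

set_option linter.unusedSectionVars false

noncomputable section

namespace Vale.Agent.P253Z.T2

open VS (ev Jac)

namespace HT44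

theorem pack {K : ℝ} (c d X : ℝ) (j : ℕ) (hK : 0 < K) :
    K * Real.exp (c + d * X) ^ j = Real.exp (Real.log K + j * c + j * d * X) := by
  rw [← Real.exp_nat_mul, add_assoc, Real.exp_add (Real.log K), Real.exp_log hK]
  congr 2
  ring

theorem est₁ {J t o w A B C : ℝ} {k n : ℕ} (ht : 0 ≤ t) (ho : 0 ≤ o) (hw : 0 ≤ w)
    (h1 : J ≤ t * w ^ n) (h2 : w * o ^ (2 * (k + 1)) ≤ C * A ^ 4) (h3 : t * o ^ (k + 1) ≤ A ^ 2)
    (h4 : t ≤ B) (h5 : o ≤ B) :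
    J * o ^ (2 * (k + 1) * n + k) * (t * o ^ (k + 1)) ≤
      B ^ (k + 1) * ((|C| + 1) ^ n * A ^ (4 * n + 2)) := by
  have hB := ht.trans h4
  have h6 : w * o ^ (2 * (k + 1)) ≤ (|C| + 1) * A ^ 4 :=
    h2.trans (mul_le_mul_of_nonneg_right (by linarith [le_abs_self C]) (by positivity))
  calc J * o ^ (2 * (k + 1) * n + k) * (t * o ^ (k + 1))
      ≤ t * w ^ n * o ^ (2 * (k + 1) * n + k) * (t * o ^ (k + 1)) := by gcongr
    _ = t * o ^ k * ((w * o ^ (2 * (k + 1))) ^ n * (t * o ^ (k + 1))) := by ring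
    _ ≤ B * B ^ k * (((|C| + 1) * A ^ 4) ^ n * A ^ 2) := by gcongr
    _ = _ := by rw [mul_pow]; ring

theorem est₂ {g S t o w A B C : ℝ} {k n : ℕ} (hS : 0 ≤ S) (ht : 0 ≤ t) (ho : 0 ≤ o)
    (hw : 0 ≤ w) (hA : 1 ≤ A) (hB : 1 ≤ B) (h2 : w * o ^ (2 * (k + 1)) ≤ C * A ^ 4)
    (h3 : S * o ^ (k + 1) ≤ o ^ (k + 1) + (n + 1) * A ^ 2) (h4 : t ≤ B) (h5 : o ≤ B) (h6 : g ≤ B) :
    g * ((1 + w) * S ^ (n + 2)) * o ^ ((n + 3) * (k + 1) + k) * (t * o ^ (k + 1)) ≤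
      B ^ ((n + 5) * (k + 1) + 1) * ((|C| + 1) * (n + 2) ^ (n + 2) * A ^ (2 * n + 8)) := by
  have a1 : ∀ j, 1 ≤ A ^ j := fun _ => one_le_pow₀ hA
  have b1 : ∀ j, 1 ≤ B ^ j := fun _ => one_le_pow₀ hB
  have o1 : ∀ j, o ^ j ≤ B ^ j := fun j => pow_le_pow_left₀ ho h5 j
  have h7 : (1 + w) * o ^ (2 * (k + 1)) ≤ B ^ (2 * (k + 1)) * ((|C| + 1) * A ^ 4) := by
    have e1 : C * A ^ 4 ≤ B ^ (2 * (k + 1)) * (|C| * A ^ 4) :=
      (mul_le_mul_of_nonneg_right (le_abs_self C) (by positivity)).trans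
        (le_mul_of_one_le_left (by positivity) (b1 _))
    have e2 := (o1 (2 * (k + 1))).trans (le_mul_of_one_le_right (by positivity) (a1 4))
    linarith
  have h8 : S * o ^ (k + 1) ≤ B ^ (k + 1) * ((n + 2) * A ^ 2) := by
    have e1 : (n + 1) * A ^ 2 ≤ B ^ (k + 1) * ((n + 1) * A ^ 2) :=
      le_mul_of_one_le_left (by positivity) (b1 _)
    have e2 := (o1 (k + 1)).trans (le_mul_of_one_le_right (by positivity) (a1 2))
    linarith
  calc g * ((1 + w) * S ^ (n + 2)) * o ^ ((n + 3) * (k + 1) + k) * (t * o ^ (k + 1))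
      = g * t * o ^ k * ((1 + w) * o ^ (2 * (k + 1)) * (S * o ^ (k + 1)) ^ (n + 2)) := by ring
    _ ≤ B * B * B ^ k * (B ^ (2 * (k + 1)) * ((|C| + 1) * A ^ 4) *
        (B ^ (k + 1) * ((n + 2) * A ^ 2)) ^ (n + 2)) := by gcongr
    _ = _ := by rw [mul_pow, mul_pow]; ring

variable {n : ℕ} {M : Type} [MetricSpace M] [ChartedSpace (Cm n) M]
  [RiemannianBundle (fun x : M => TangentSpace 𝓘(ℝ, Cm n) x)] [MeasurableSpace M] {μ : Measure M}

theorem tl_lip (p : M) (R : ℝ) {x y : M} (h : y ∈ ball x 1) : tl p R y ≤ tl p R x + 1 := by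
  have h1 := dist_triangle y x p
  have h2 := mem_ball.1 h
  have h3 := le_max_left (dist x p - R) 0
  have h4 := le_max_right (dist x p - R) 0
  exact max_le (by unfold tl; linarith) (by unfold tl; linarith)

/-- the frame with a larger constant -/
def big {p : M} (F : Fr2 n μ p) (C : ℝ) (hC : 0 ≤ C) : Fr n μ p :=
  { F.toFr with
    C₂ := F.C₂ + C
    C₂_pos := add_pos_of_pos_of_nonneg F.C₂_pos hC
    l2 := fun m hm s hs => (F.l2 m hm s hs).imp fun c hc ν x => (hc ν x).trans (by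
      have : 0 ≤ F.A ν + tl p (F.R ν) x := add_nonneg (F.A_nn ν) (le_max_right _ _)
      gcongr
      exact le_add_of_nonneg_right hC) }

theorem big_tame {p : M} (F : Fr2 n μ p) {C C' c : ℝ} (hC : 0 ≤ C) (h1 : C' ≤ C)
    {N : ℕ} (hN : 1 ≤ N) {s : M → ℂ} (hs : IsSec n (-N) s)
    (h : ∀ ν x, ‖s x * F.Ω ν x ^ N‖ ≤ Real.exp (c + C' * (F.A ν + tl p (F.R ν) x))) :
    s ∈ (big F C hC).Tame N := by
  refine ⟨hs, c, fun ν x => (h ν x).trans ?_⟩
  have : 0 ≤ F.A ν + tl p (F.R ν) x := add_nonneg (F.A_nn ν) (le_max_right _ _)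
  have h2 : (1 : ℝ) ≤ N := by exact_mod_cast hN
  have h3 : C' ≤ (F.C₂ + C) * N := by nlinarith [F.C₂_pos]
  exact Real.exp_le_exp.2 (add_le_add le_rfl (mul_le_mul_of_nonneg_right h3 this))

variable (a : B1a n M) (b : B1b n M)
include a b

theorem vd0 (y : M) : 0 < vd (chartAt (Cm n) y) (chartAt (Cm n) y y) :=
  b.vd_pos _ (a.chart y) _ (mem_chart_target _ y)

theorem nrm0 (k : ℤ) (t : M → ℂ) (y : M) : 0 ≤ nrm n k t y :=
  mul_nonneg (sq_nonneg _) (zpow_pos (vd0 a b y) _).le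

theorem nrm_sq (m : ℕ) (s Ω : M → ℂ) (y : M) :
    ‖s y * Ω y ^ m‖ ^ 2 = nrm n (-m) s y * nrm n 1 Ω y ^ m := by
  have := (vd0 a b y).ne'
  simp only [nrm, norm_mul, norm_pow, neg_neg, zpow_natCast, zpow_neg, zpow_one, mul_pow, inv_pow]
  field_simp
  ring

theorem nrm_sq₂ (N m : ℕ) (t s Ω : M → ℂ) (y : M) : ‖(t * s) y * Ω y ^ (N + m)‖ ^ 2 =
    nrm n (-N) t y * nrm n 1 Ω y ^ N * (nrm n (-m) s y * nrm n 1 Ω y ^ m) := by
  rw [← nrm_sq a b, ← nrm_sq a b, ← mul_pow, ← norm_mul, Pi.mul_apply, pow_add, mul_mul_mul_comm]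

omit a in
theorem cont {k : ℤ} {s : M → ℂ} (hs : IsSec n k s) : Continuous (nrm n k s) :=
  b.nrm_cont _ _ fun e he z hz => (hs e he z hz).contDiffAt.restrict_scalars ℝ

end HT44

variable {n : ℕ} {M : Type} [MetricSpace M] [ChartedSpace (Cm n) M]
  [IsManifold 𝓘(ℂ, Cm n) 1 M] [IsManifold 𝓘(ℝ, Cm n) ∞ M]
  [RiemannianBundle (fun x : M => TangentSpace 𝓘(ℝ, Cm n) x)]
  [IsContMDiffRiemannianBundle 𝓘(ℝ, Cm n) ∞ (Cm n) (fun x : M => TangentSpace 𝓘(ℝ, Cm n) x)]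
  [IsRiemannianManifold 𝓘(ℝ, Cm n) M] [CompleteSpace M] [ConnectedSpace M] [NoncompactSpace M]
  [MeasurableSpace M] [BorelSpace M] {μ : Measure M}

open HT44 in
theorem ht (a : B1a n M) (b : B1b n M) (_v : B3 n μ) (h1 : FR2 n μ) (h2 : GEN n μ)
    (h3 : LSE n M) : HT n μ := by
  intro p m s₀ s w hm h₀ hs _ W
  obtain ⟨k, rfl⟩ : ∃ k, m = k + 1 := ⟨m - 1, by omega⟩
  obtain ⟨F⟩ := h1 p
  obtain ⟨c₀, hc₀⟩ := F.l2 _ hm s₀ h₀
  choose c hc using fun i => F.l2 _ hm (s i) (hs i)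
  obtain ⟨Cw, hw⟩ := W.up
  obtain ⟨d, hd⟩ : ∃ d, d = F.C₂ * (k + 1 : ℕ) := ⟨_, rfl⟩
  have d0 : 0 ≤ d := hd ▸ mul_nonneg F.C₂_pos.le (Nat.cast_nonneg _)
  rw [← hd] at hc₀ hc
  obtain ⟨c', c0, c1, c2⟩ : ∃ c', 0 ≤ c' ∧ c₀ + d ≤ c' ∧ ∀ i, c i + d ≤ c' := by
    have e := fun i => Finset.single_le_sum (f := fun i => |c i|) (fun _ _ => abs_nonneg _)
      (Finset.mem_univ i)
    have e' : 0 ≤ ∑ i, |c i| := Finset.sum_nonneg fun _ _ => abs_nonneg _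
    exact ⟨|c₀| + ∑ i, |c i| + d, by positivity, by linarith [le_abs_self c₀],
      fun i => by linarith [le_abs_self (c i), e i, abs_nonneg c₀]⟩
  have X0 : ∀ ν x, 0 ≤ F.A ν + tl p (F.R ν) x := fun ν x =>
    add_nonneg (F.A_nn ν) (le_max_right _ _)
  have loc : ∀ ν x, ∀ y ∈ ball x 1,
      ‖s₀ y * F.Ω ν y ^ (k + 1)‖ ≤ Real.exp (c' + d * (F.A ν + tl p (F.R ν) x)) ∧
      ∀ i, ‖s i y * F.Ω ν y ^ (k + 1)‖ ≤ Real.exp (c' + d * (F.A ν + tl p (F.R ν) x)) := by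
    intro ν x y hy
    have e := mul_le_mul_of_nonneg_left (tl_lip p (F.R ν) hy) d0
    exact ⟨(hc₀ ν y).trans (Real.exp_le_exp.2 (by linarith)),
      fun i => (hc i ν y).trans (Real.exp_le_exp.2 (by linarith [c2 i]))⟩
  have up := fun ν x => hw (F.Ω ν) x _ (F.sec ν) (loc ν x)
  have sq : ∀ ν x {t : M → ℂ},
      ‖t x * F.Ω ν x ^ (k + 1)‖ ≤ Real.exp (c' + d * (F.A ν + tl p (F.R ν) x)) →
      nrm n (-(k + 1 : ℕ)) t x * nrm n 1 (F.Ω ν) x ^ (k + 1) ≤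
        Real.exp (c' + d * (F.A ν + tl p (F.R ν) x)) ^ 2 := fun ν x t h =>
    (nrm_sq a b _ _ _ _).ge.trans (pow_le_pow_left₀ (norm_nonneg _) h 2)
  obtain ⟨C₁, p₁, g₁⟩ := h2 p F (k + 1) ((4 * n + 2 : ℕ) * d) (by positivity)
  obtain ⟨C₂, p₂, g₂⟩ := h2 p F ((n + 5) * (k + 1) + 1) ((2 * n + 8 : ℕ) * d) (by positivity)
  refine ⟨big F (C₁ + C₂) (by positivity), ?_, fun h hh hL => ?_⟩
  · have sJ := VS.sec_mul a (VS.Jac_sec a hm h₀.1 fun i => (hs i).1) h₀.1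
    have jac := W.jac
    rw [show (k + 1) * (2 * n + 1) - 1 = 2 * (k + 1) * n + k from
      Nat.sub_eq_of_eq_add (by ring)] at sJ jac ⊢
    obtain ⟨C₀, h4⟩ := g₁ _ _ (nrm n (-(k + 1 : ℕ)) s₀)
      (Real.log ((|Cw| + 1) ^ n) + (4 * n + 2 : ℕ) * c') sJ (nrm0 a b _ _) (cont b h₀.1) h₀.2
      fun ν y => by
        rw [nrm_sq₂ a b, ← pack _ _ _ _ (by positivity)]
        exact est₁ (nrm0 a b _ _ _) (nrm0 a b _ _ _) (W.nn y) (jac y) (up ν y)
          (sq ν y (loc ν y y (mem_ball_self one_pos)).1) (by linarith [nrm0 a b 1 (F.Ω ν) y])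
          (by linarith [nrm0 a b (-(k + 1 : ℕ)) s₀ y])
    exact big_tame F _ (by linarith) (by omega) sJ h4
  · have sJ := VS.sec_mul a hh h₀.1
    rw [show (n + 4) * (k + 1) - 1 = (n + 3) * (k + 1) + k from
      Nat.sub_eq_of_eq_add (by ring)] at sJ hh hL ⊢
    have w1 : ∀ y, 0 < 1 + w y := fun y => by linarith [W.nn y]
    have cg : Continuous fun y => nrm n (-((n + 3) * (k + 1) + k : ℕ)) h y *
        Real.exp (-(Real.log (1 + w y) + (n + 2) * kap (k + 1) s₀ s y)) :=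
      (cont b hh).mul (((continuous_const.add (a.sm_cont _ W.sm)).log fun y => (w1 y).ne').add
        (continuous_const.mul (a.sm_cont _ (h3 _ s₀ s h₀.1 fun i => (hs i).1).1))).neg.rexp
    have g0 : ∀ y, 0 ≤ nrm n (-((n + 3) * (k + 1) + k : ℕ)) h y *
        Real.exp (-(Real.log (1 + w y) + (n + 2) * kap (k + 1) s₀ s y)) := fun y =>
      mul_nonneg (nrm0 a b _ _ _) (Real.exp_pos _).le
    obtain ⟨C₀, h4⟩ := g₂ _ _ (fun y => nrm n (-((n + 3) * (k + 1) + k : ℕ)) h y *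
        Real.exp (-(Real.log (1 + w y) + (n + 2) * kap (k + 1) s₀ s y)) + nrm n (-(k + 1 : ℕ)) s₀ y)
      (Real.log ((|Cw| + 1) * (n + 2) ^ (n + 2)) + (2 * n + 8 : ℕ) * c') sJ
      (fun y => add_nonneg (g0 y) (nrm0 a b _ _ _)) (cg.add (cont b h₀.1)) (by
        simp only [ENNReal.ofReal_add (g0 _) (nrm0 a b _ _ _)]
        rw [lintegral_add_left cg.measurable.ennreal_ofReal]
        exact ENNReal.add_lt_top.2 ⟨hL, h₀.2⟩)
      fun ν y => by
        have S0 : 0 ≤ ∑ i, nrm n (-(k + 1 : ℕ)) (s i) y :=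
          Finset.sum_nonneg fun i _ => nrm0 a b _ _ _
        have t0 := nrm0 a b (-(k + 1 : ℕ)) s₀ y
        have o0 := nrm0 a b 1 (F.Ω ν) y
        have g1 := g0 y
        have l := loc ν y y (mem_ball_self one_pos)
        have e : nrm n (-((n + 3) * (k + 1) + k : ℕ)) h y =
            nrm n (-((n + 3) * (k + 1) + k : ℕ)) h y *
            Real.exp (-(Real.log (1 + w y) + (n + 2) * kap (k + 1) s₀ s y)) * ((1 + w y) *
            (1 + nrm n (-(k + 1 : ℕ)) s₀ y + ∑ i, nrm n (-(k + 1 : ℕ)) (s i) y) ^ (n + 2)) := by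
          rw [Real.exp_neg, Real.exp_add, Real.exp_log (w1 y), kap,
            show (n + 2 : ℝ) = (n + 2 : ℕ) by norm_num, Real.exp_nat_mul,
            Real.exp_log (by positivity), inv_mul_cancel_right₀ (by have := w1 y; positivity)]
        rw [nrm_sq₂ a b, ← pack _ _ _ _ (by positivity)]
        refine le_of_eq_of_le (by rw [← e]) (est₂ (by positivity) t0 o0 (W.nn y)
          (Real.one_le_exp (add_nonneg c0 (mul_nonneg d0 (X0 ν y)))) (by linarith) (up ν y) ?_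
          (by linarith) (by linarith) (by linarith))
        have e1 := Finset.sum_le_card_nsmul Finset.univ _ _ fun i _ => sq ν y (l.2 i)
        rw [← Finset.sum_mul, Finset.card_univ, Fintype.card_fin, nsmul_eq_mul] at e1
        linarith [sq ν y l.1]
    exact big_tame F _ (by linarith) (by omega) sJ h4

end Vale.Agent.P253Z.T2
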