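import Vale.Agent.P253Z.T2.LSE.Good

/-!
# P253Z, T2: sums of positively curved weights
-/

open scoped Manifold ContDiff Bundle ENNReal Topology ComplexConjugate ComplexOrder
open Bundle IsManifold MeasureTheory Set Metric Filter Vale.Agent.P253.Mfd
open Vale.Agent.P272.K (Cm dz dzb cHess jacM Chart)

noncomputable section

namespace Vale.Agent.P253Z.T2

variable {n : ℕ} {M : Type} [MetricSpace M] [ChartedSpace (Cm n) M]
  [RiemannianBundle (fun x : M => TangentSpace 𝓘(ℝ, Cm n) x)]

theorem lse (_a : B1a n M) (b : B1b n M) (r : B2 n M) : LSE n M := by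
  intro m s₀ s h₀ hs
  have G : ∀ e : Chart n M, Hc e → Good (fun z => ‖co (-m) s₀ e z‖ ^ 2 +
      ∑ i, ‖co (-m) (s i) e z‖ ^ 2) e.target := fun e he =>
    (good_sq e.open_target (h₀ e he)).add
      (good_sum _ fun i _ => good_sq e.open_target (hs i e he))
  have E : ∀ e : Chart n M, Hc e → ∀ z ∈ e.target,
      nrm n (-m) s₀ (e.symm z) + ∑ i, nrm n (-m) (s i) (e.symm z) =
        (‖co (-m) s₀ e z‖ ^ 2 + ∑ i, ‖co (-m) (s i) e z‖ ^ 2) * vd e z ^ m := fun e he z hz => by
    simp only [b.nrm_eq _ _ e he z hz, neg_neg, zpow_natCast, add_mul, Finset.sum_mul]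
  have K : kap m s₀ s = fun x => Real.log (1 + (nrm n (-m) s₀ x + ∑ i, nrm n (-m) (s i) x)) :=
    funext fun x => by rw [kap, add_assoc]
  rw [K]
  refine ⟨fun e he z hz => ?_, fun e he z hz =>
    th_psd b r he rfl e.open_target Subset.rfl (G e he) (E e he) hz⟩
  have p := mul_nonneg ((G e he).nonneg hz) (pow_pos (b.vd_pos e he z hz) m).le
  refine ((contDiffAt_const.add (((G e he).2 z hz).mul ((b.vd_sm e he z hz).pow m))).log
    (add_pos_of_pos_of_nonneg one_pos p).ne').congr_of_eventuallyEq ?_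
  filter_upwards [e.open_target.mem_nhds hz] with y hy
  rw [E e he y hy]

end Vale.Agent.P253Z.T2
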