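import Vale.Agent.P253Z.T2.An

/-!
# P253Z, T2: a segment of finite length
-/

open scoped Manifold ContDiff Bundle ENNReal Topology ComplexConjugate ComplexOrder
open Bundle IsManifold MeasureTheory Set Metric Filter Vale.Agent.P253.Mfd
open Vale.Agent.P272.K (Cm dz dzb cHess jacM Chart)

noncomputable section

namespace Vale.Agent.P253Z.T2

variable {n : ℕ}

namespace Ray

open Matrix Unitary in
/-- the largest eigenvalue is at most `det H * (tr H⁻¹)^(n-1)` -/
theorem psd_bound {H : Matrix (Fin n) (Fin n) ℂ} (hH : H.PosDef) {τ : ℝ}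
    (hτ : (H⁻¹).trace.re ≤ τ) :
    (((H.det.re * τ ^ (n - 1) : ℝ) : ℂ) • (1 : Matrix (Fin n) (Fin n) ℂ) - H).PosSemidef := by
  have hp := hH.eigenvalues_pos
  have hdet : H.det.re = ∏ i, hH.1.eigenvalues i := by
    rw [hH.1.det_eq_prod_eigenvalues]
    exact_mod_cast Complex.ofReal_re _
  have hs := hH.1.spectral_theorem
  generalize hH.1.eigenvalues = l at hp hdet hs
  generalize hH.1.eigenvectorUnitary = U at hs
  have hinv : H⁻¹ = conjStarAlgAut ℂ _ U (diagonal fun i => ((l i)⁻¹ : ℝ)) := by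
    refine inv_eq_right_inv ?_
    rw [hs, ← map_mul, diagonal_mul_diagonal, ← map_one (conjStarAlgAut ℂ _ U), ← diagonal_one]
    congr 2
    funext i
    simp [(hp i).ne']
  have hle : ∀ i, 1 ≤ l i * τ := fun i => by
    rw [hinv, conjStarAlgAut_apply, trace_mul_cycle, coe_star_mul_self, one_mul, trace_diagonal,
      ← Complex.ofReal_sum, Complex.ofReal_re] at hτ
    exact (inv_le_iff_one_le_mul₀' (hp i)).1 ((Finset.single_le_sum
      (fun j _ => (inv_pos.2 (hp j)).le) (Finset.mem_univ i)).trans hτ)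
  have hc : ∀ i, l i ≤ (∏ j, l j) * τ ^ (n - 1) := fun i => by
    have h := Finset.one_le_prod (s := Finset.univ.erase i) fun j _ => hle j
    rw [Finset.prod_mul_distrib, Finset.prod_const, Finset.card_erase_of_mem (Finset.mem_univ i),
      Finset.card_univ, Fintype.card_fin] at h
    rw [← Finset.mul_prod_erase _ _ (Finset.mem_univ i), mul_assoc]
    exact le_mul_of_one_le_right (hp i).le h
  rw [hdet]
  conv => enter [1, 2]; rw [hs]
  rw [← map_one (conjStarAlgAut ℂ _ U), ← map_smul, ← map_sub, conjStarAlgAut_apply,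
    smul_one_eq_diagonal, diagonal_sub]
  refine PosSemidef.mul_mul_conjTranspose_same (PosSemidef.diagonal fun i => ?_) _
  simpa [← Complex.ofReal_prod, ← Complex.ofReal_pow, ← Complex.ofReal_mul] using hc i

/-- a curve of finite length converges -/
theorem lim {M : Type} [MetricSpace M] [CompleteSpace M] {γ : ℝ → M} {g : ℝ → ℝ≥0∞}
    (hg : ∫⁻ t in Ioc 0 1, g t ≠ ⊤) (h : ∀ s t, 0 < s → s ≤ t → t ≤ 1 →
      edist (γ s) (γ t) ≤ ∫⁻ u in Ioc s t, g u) : ∃ x, Tendsto γ (𝓝[>] 0) (𝓝 x) := by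
  refine cauchy_map_iff_exists_tendsto.1 (EMetric.cauchy_iff.2 ⟨NeBot.ne inferInstance,
    fun ε hε => ?_⟩)
  obtain ⟨δ, hδ, H⟩ := exists_pos_setLIntegral_lt_of_measure_lt hg hε.ne'
  obtain ⟨r, hr, hrδ⟩ := ENNReal.lt_iff_exists_nnreal_btwn.1 (lt_min hδ zero_lt_one)
  have h1 : (r : ℝ) ≤ 1 := by exact_mod_cast (hrδ.trans_le (min_le_right _ _)).le
  have key : ∀ s ∈ Ioc (0 : ℝ) r, ∀ t ∈ Ioc (0 : ℝ) r, s ≤ t → edist (γ s) (γ t) < ε := by
    intro s hs t ht hst
    have h2 := H (Ioc 0 r) ((Measure.restrict_apply_le _ _).trans_lt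
      (by simpa using hrδ.trans_le (min_le_left _ _)))
    rw [Measure.restrict_restrict_of_subset (Ioc_subset_Ioc_right h1)] at h2
    exact ((h s t hs.1 hst (ht.2.trans h1)).trans
      (lintegral_mono_set (Ioc_subset_Ioc hs.1.le ht.2))).trans_lt h2
  refine ⟨_, image_mem_map (Ioc_mem_nhdsGT (by exact_mod_cast hr : (0 : ℝ) < r)), ?_⟩
  rintro _ ⟨s, hs, rfl⟩ _ ⟨t, ht, rfl⟩
  rcases le_total s t with h | h
  · exact key s hs t ht h
  · rw [edist_comm]
    exact key t ht s hs h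

/-- averaging over the rays which end at `b` -/
theorem fub {φ : (Fin n → ℂ) → ℝ≥0∞} (hφ : Measurable φ) (h : ∫⁻ z, φ z ≠ ⊤) (b : Fin n → ℂ)
    {S : Set (Fin n → ℂ)} (hS : IsOpen S) (hne : S.Nonempty) :
    ∃ z ∈ S, ∫⁻ t in Ioc (0 : ℝ) 1, ENNReal.ofReal (t ^ (2 * n)) * φ (b + t • (z - b)) ≠ ⊤ := by
  have hm : Measurable fun q : (Fin n → ℂ) × ℝ =>
      ENNReal.ofReal (q.2 ^ (2 * n)) * φ (b + q.2 • (q.1 - b)) := by fun_prop
  have h1 : ∫⁻ z, ∫⁻ t in Ioc (0 : ℝ) 1, ENNReal.ofReal (t ^ (2 * n)) * φ (b + t • (z - b)) ≠ ⊤ := by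
    rw [lintegral_lintegral_swap hm.aemeasurable, setLIntegral_congr_fun measurableSet_Ioc
      (g := fun _ => ∫⁻ z, φ z)]
    · simpa using h
    intro t ht
    have h2 : Measurable fun z => φ (b + z) := by fun_prop
    have h3 := lintegral_map (μ := volume) h2 (measurable_const_smul t)
    have h4 : 0 < t ^ (2 * n) := pow_pos ht.1 _
    rw [Measure.map_addHaar_smul _ ht.1.ne', lintegral_smul_measure, lintegral_add_left_eq_self,
      show Module.finrank ℝ (Fin n → ℂ) = 2 * n by simp [Module.finrank_pi_fintype, mul_comm],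
      abs_of_pos (inv_pos.2 h4)] at h3
    beta_reduce
    rw [lintegral_const_mul' _ _ ENNReal.ofReal_ne_top,
      lintegral_sub_right_eq_self (fun z => φ (b + t • z)), ← h3, smul_eq_mul, ← mul_assoc,
      ← ENNReal.ofReal_mul h4.le, mul_inv_cancel₀ h4.ne', ENNReal.ofReal_one, one_mul]
  obtain ⟨z, hz, h2⟩ := Measure.exists_mem_of_measure_ne_zero_of_ae (hS.measure_pos volume hne).ne'
    (ae_restrict_of_ae (ae_lt_top hm.lintegral_prod_right' h1))
  exact ⟨z, hz, h2.ne⟩

theorem young {t D : ℝ} (ht : 0 < t) (hD : 0 ≤ D) :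
    √D ≤ t ^ (-(2 * n : ℝ) / (2 * n + 1)) + t ^ (2 * n) * D ^ (n + 1) := by
  have h0 := Real.rpow_pos_of_pos ht (-(2 * n : ℝ) / (2 * n + 1))
  have h1 : t ^ (2 * n) * (t ^ (-(2 * n : ℝ) / (2 * n + 1))) ^ (2 * n + 1) = 1 := by
    rw [← Real.rpow_natCast, ← Real.rpow_natCast, ← Real.rpow_mul ht.le, ← Real.rpow_add ht]
    push_cast
    rw [div_mul_cancel₀ _ (by positivity), add_neg_cancel, Real.rpow_zero]
  rcases le_total √D (t ^ (-(2 * n : ℝ) / (2 * n + 1))) with h | h
  · exact h.trans (le_add_of_nonneg_right (by positivity))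
  · refine le_add_of_nonneg_of_le h0.le ?_
    have h2 : D ^ (n + 1) = √D ^ (2 * n + 1) * √D := by
      rw [← pow_succ, add_assoc, ← mul_add_one, pow_mul, Real.sq_sqrt hD]
    rw [h2, ← mul_assoc]
    refine le_mul_of_one_le_left (Real.sqrt_nonneg _) (h1.ge.trans ?_)
    gcongr

end Ray

variable {M : Type} [MetricSpace M] [ChartedSpace (Cm n) M]
  [IsManifold 𝓘(ℂ, Cm n) 1 M] [IsManifold 𝓘(ℝ, Cm n) ∞ M]
  [RiemannianBundle (fun x : M => TangentSpace 𝓘(ℝ, Cm n) x)]
  [IsContMDiffRiemannianBundle 𝓘(ℝ, Cm n) ∞ (Cm n) (fun x : M => TangentSpace 𝓘(ℝ, Cm n) x)]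
  [IsRiemannianManifold 𝓘(ℝ, Cm n) M] [CompleteSpace M]

open Ray in
theorem ray (b : B1b n M) : RAY n M := by
  classical
  intro e he S p τ hS hc hne hsub hp hτ hI
  have hφ : Measurable (S.piecewise (fun z => ENNReal.ofReal (vd e z ^ (n + 1))) 0) :=
    ContinuousOn.measurable_piecewise (fun z hz => (ENNReal.continuous_ofReal.continuousAt.comp
      ((b.vd_sm e he z (hsub hz)).continuousAt.pow _)).continuousWithinAt) continuousOn_const
      hS.measurableSet
  obtain ⟨z₀, hz₀, H⟩ := fub hφ (by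
    rw [piecewise_eq_indicator, lintegral_indicator hS.measurableSet]
    exact hI.ne) p hS hne
  have hmem : ∀ t ∈ Ioc (0 : ℝ) 1, p + t • (z₀ - p) ∈ S := fun t ht => by
    have := hc.add_smul_sub_mem_interior' hp (by rwa [hS.interior_eq]) ht
    rwa [hS.interior_eq] at this
  set v := z₀ - p
  set K := √(τ ^ (n - 1) * ∑ j, ‖v j‖ ^ 2)
  have hK : ∀ z ∈ S, √(chartG e z v v) ≤ K * √(vd e z) := fun z hz => by
    have h1 := psd_bound (b.wpos e he z (hsub hz)) (hτ z hz)
    have h2 := (b.psd _ h1.1).1 h1 v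
    rw [← Real.sqrt_mul' _ (b.vd_pos e he z (hsub hz)).le, chartG_apply, b.quad e he z (hsub hz)]
    refine Real.sqrt_le_sqrt ?_
    simp only [Matrix.sub_apply, Matrix.smul_apply, Matrix.one_apply, smul_eq_mul, sub_mul,
      mul_ite, ite_mul, mul_one, mul_zero, zero_mul, Finset.sum_sub_distrib, Finset.sum_ite_eq,
      Finset.mem_univ, if_true, Complex.sub_re, sub_nonneg, ← Finset.mul_sum, Complex.mul_conj',
      ← Complex.ofReal_pow, ← Complex.ofReal_sum, ← Complex.ofReal_mul, Complex.ofReal_re] at h2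
    exact h2.trans_eq (by rw [vd]; ring)
  have hα : IntegrableOn (fun t : ℝ => t ^ (-(2 * n : ℝ) / (2 * n + 1))) (Ioc 0 1) :=
    (intervalIntegral.intervalIntegrable_rpow' (by
      rw [lt_div_iff₀ (by positivity)]; linarith)).1
  refine ⟨z₀, hz₀, lim (g := fun t => ENNReal.ofReal K *
    (‖t ^ (-(2 * n : ℝ) / (2 * n + 1))‖ₑ + ENNReal.ofReal (t ^ (2 * n)) *
      S.piecewise (fun z => ENNReal.ofReal (vd e z ^ (n + 1))) 0 (p + t • v))) ?_
    fun s t hs hst ht => ?_⟩
  · rw [lintegral_const_mul' _ _ ENNReal.ofReal_ne_top, lintegral_add_left' hα.1.enorm]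
    exact ENNReal.mul_ne_top ENNReal.ofReal_ne_top (ENNReal.add_ne_top.2 ⟨hα.2.ne, H⟩)
  · have h1 := dist_le_chart (mem_maximalAtlas_real he) (c := fun u => p + u • v)
      (c' := fun _ => v) hst
      (fun u _ => by
        simpa using (((hasDerivAt_id u).smul_const v).const_add p).hasDerivWithinAt)
      continuousOn_const fun u hu => hsub (hmem u ⟨hs.trans_le hu.1, hu.2.trans ht⟩)
    rw [edist_dist]
    refine (ENNReal.ofReal_le_ofReal h1).trans ?_
    rw [intervalIntegral.integral_of_le hst]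
    refine (Real.ofReal_le_enorm _).trans ((enorm_integral_le_lintegral_enorm _).trans
      (setLIntegral_mono' measurableSet_Ioc fun u hu => ?_))
    have hu0 := hs.trans hu.1
    have hu' := hmem u ⟨hu0, hu.2.trans ht⟩
    have hD := (b.vd_pos e he _ (hsub hu')).le
    rw [piecewise_eq_of_mem _ _ _ hu', Real.enorm_eq_ofReal (Real.sqrt_nonneg _),
      Real.enorm_eq_ofReal (by positivity), ← ENNReal.ofReal_mul (by positivity),
      ← ENNReal.ofReal_add (by positivity) (by positivity),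
      ← ENNReal.ofReal_mul (Real.sqrt_nonneg _)]
    exact ENNReal.ofReal_le_ofReal ((hK _ hu').trans
      (mul_le_mul_of_nonneg_left (young hu0 hD) (Real.sqrt_nonneg _)))

end Vale.Agent.P253Z.T2
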