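import Vale.Agent.P253Z.T2.An
import Vale.Agent.P272.K.C2.Wirt

/-!
# P253Z, T2: the inverse metric is bounded by finitely many ratios
-/

open scoped Manifold ContDiff Bundle ENNReal Topology ComplexConjugate ComplexOrder
open Bundle IsManifold MeasureTheory Set Metric Filter Vale.Agent.P253.Mfd
open Vale.Agent.P272.K (Cm dz dzb cHess jacM Chart)

noncomputable section

namespace Vale.Agent.P253Z.T2

open VS (ev Jac)

namespace Tau

theorem quasi {ι : Type} [Fintype ι] (q : (ι → ℂ) → ℝ) (h0 : ∀ x, x ≠ 0 → 0 < q x)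
    (hs : ∀ (c : ℂ) x, q (c • x) = ‖c‖ ^ 2 * q x) (ha : ∀ x y, q (x + y) ≤ 2 * q x + 2 * q y) :
    ∃ c, 0 < c ∧ ∀ x, c * ‖x‖ ^ 2 ≤ q x := by
  classical
  have q0 : q 0 = 0 := by simpa using hs 0 0
  have nn : ∀ x, 0 ≤ q x := fun x => (eq_or_ne x 0).elim (fun h => by rw [h, q0]) fun h => (h0 x h).le
  have h1 : ∀ s : Finset ι,
      Tendsto (fun x : ι → ℂ => q (∑ i ∈ s, x i • Pi.single i 1)) (𝓝 0) (𝓝 0) := fun s => by
    induction s using Finset.cons_induction with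
    | empty => simp [q0]
    | cons a s _ ih =>
      have : Continuous fun x : ι → ℂ => 2 * (‖x a‖ ^ 2 * q (Pi.single a 1)) := by fun_prop
      refine squeeze_zero (fun _ => nn _) (fun x => ?_)
        (by simpa using (this.tendsto 0).add (ih.const_mul 2))
      rw [Finset.sum_cons, ← hs]
      exact ha _ _
  have h2 : Tendsto q (𝓝 0) (𝓝 0) := (h1 Finset.univ).congr fun x => by rw [← pi_eq_sum_univ']
  have h3 : ∀ᶠ c in 𝓝 (0 : ℝ), ∀ y ∈ sphere (0 : ι → ℂ) 1, c ≤ q y := by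
    refine (isCompact_sphere _ _).eventually_forall_of_forall_eventually fun y hy => ?_
    have h4 : 0 < q y / 4 := div_pos (h0 y (ne_zero_of_mem_unit_sphere ⟨y, hy⟩)) four_pos
    have h5 : Tendsto (fun z : ℝ × (ι → ℂ) => y - z.2) (𝓝 (0, y)) (𝓝 0) :=
      Continuous.tendsto' (by fun_prop) _ _ (by simp)
    filter_upwards [(h2.comp h5).eventually (gt_mem_nhds h4),
      continuousAt_fst.eventually (gt_mem_nhds h4)] with z a1 a2
    have := ha z.2 (y - z.2)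
    rw [add_sub_cancel] at this
    simp only [Function.comp_apply] at a1
    linarith
  obtain ⟨c, c1, c0⟩ := ((h3.filter_mono (nhdsWithin_le_nhds (s := Ioi 0))).and
    self_mem_nhdsWithin).exists
  refine ⟨c, c0, fun x => (eq_or_ne x 0).elim (fun h => by simp [h, q0]) fun h => ?_⟩
  have h4 := norm_pos_iff.2 h
  have h5 := c1 (((‖x‖⁻¹ : ℝ) : ℂ) • x) (by simp [norm_smul, h])
  rw [hs, Complex.norm_real, norm_inv, norm_norm, inv_pow, inv_mul_eq_div,
    le_div_iff₀ (by positivity)] at h5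
  exact h5

theorem ev_bd {X : Type} [AddCommGroup X] [Module ℂ X] [Module.Finite ℂ X] (q : X → ℝ)
    (h0 : ∀ x, x ≠ 0 → 0 < q x) (hs : ∀ (c : ℂ) x, q (c • x) = ‖c‖ ^ 2 * q x)
    (ha : ∀ x y, q (x + y) ≤ 2 * q x + 2 * q y) :
    ∃ (r : ℕ) (B : Fin r → X) (C : ℝ), 0 ≤ C ∧ ∀ (T : X →ₗ[ℂ] ℂ) (A : ℝ),
      (∀ i, ‖T (B i)‖ ≤ A) → ∀ x, ‖T x‖ ^ 2 ≤ C * A ^ 2 * q x := by
  let B := Module.finBasis ℂ X
  obtain ⟨c, c0, hc⟩ := quasi (fun y => q (B.equivFun.symm y))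
    (fun y hy => h0 _ (B.equivFun.symm.map_ne_zero_iff.2 hy)) (fun c y => by rw [map_smul, hs])
    fun y y' => by rw [map_add]; exact ha _ _
  refine ⟨_, B, Module.finrank ℂ X ^ 2 / c, by positivity, fun T A hA x => ?_⟩
  have h1 := hc (B.equivFun x)
  rw [LinearEquiv.symm_apply_apply, ← le_div_iff₀' c0] at h1
  have h2 : ‖T x‖ ≤ Module.finrank ℂ X * (‖B.equivFun x‖ * A) := by
    conv_lhs => rw [← B.sum_equivFun x, map_sum]
    refine (norm_sum_le _ _).trans ((Finset.sum_le_card_nsmul _ _ (‖B.equivFun x‖ * A)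
      fun i _ => ?_).trans_eq (by simp))
    rw [map_smul, norm_smul]
    exact mul_le_mul (norm_le_pi_norm _ i) (hA i) (norm_nonneg _) (norm_nonneg _)
  refine (pow_le_pow_left₀ (norm_nonneg _) h2 2).trans ?_
  rw [mul_pow, mul_pow]
  refine (mul_le_mul_of_nonneg_left (mul_le_mul_of_nonneg_right h1 (sq_nonneg A))
    (sq_nonneg _)).trans_eq ?_
  ring

theorem sq_bd {a b t R N : ℝ} (ha : 0 ≤ a) (ht : 0 ≤ t) (hR : 1 ≤ R) (hN : 1 ≤ N)
    (h : t ≤ a + R * b) : ((2 * N * R)⁻¹ * t) ^ 2 ≤ a ^ 2 + b ^ 2 / N := by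
  have h1 : (2 * N * R)⁻¹ * t ≤ a / 2 + b / N / 2 := by
    rw [inv_mul_le_iff₀ (by positivity)]
    have : 2 * N * R * (a / 2 + b / N / 2) = N * R * a + R * b := by field_simp
    nlinarith [mul_nonneg ha (sub_nonneg.2 (one_le_mul_of_one_le_of_one_le hN hR))]
  have h2 : (b / N) ^ 2 ≤ b ^ 2 / N := by
    rw [div_pow]
    exact div_le_div_of_nonneg_left (sq_nonneg b) (by positivity) (by nlinarith)
  refine (pow_le_pow_left₀ (by positivity) h1 2).trans ?_
  nlinarith [sq_nonneg (a - b / N), sq_nonneg a, sq_nonneg (b / N)]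

variable {n : ℕ} {M : Type} [MetricSpace M] [ChartedSpace (Cm n) M]
  [IsManifold 𝓘(ℂ, Cm n) 1 M] {e : Chart n M} {z : Cm n} {k : ℤ} {ψ : M → ℝ} {s : M → ℂ}

theorem co_inv (a : B1a n M) (he : Hc e) (hz : z ∈ e.target) (j : ℕ) (s : M → ℂ) :
    s (e.symm z) = (jacM e (chartAt (Cm n) (e.symm z)) (e.symm z)).det ^ j * co (-j) s e z := by
  rw [co, zpow_neg, zpow_natCast, mul_inv_cancel_left₀ (pow_ne_zero _ (VS.jd_ne a he hz))]

variable [RiemannianBundle (fun x : M => TangentSpace 𝓘(ℝ, Cm n) x)]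

omit [IsManifold 𝓘(ℂ, Cm n) 1 M]

theorem vd_pos (a : B1a n M) (b : B1b n M) (k : ℤ) (x : M) :
    0 < vd (chartAt (Cm n) x) (chartAt (Cm n) x x) ^ k :=
  zpow_pos (b.vd_pos _ (a.chart x) _ (mem_chart_target _ x)) k

theorem nrm_nn (a : B1a n M) (b : B1b n M) (k : ℤ) (s : M → ℂ) (x : M) : 0 ≤ nrm n k s x :=
  mul_nonneg (sq_nonneg _) (vd_pos a b _ x).le

theorem wt_sm (b : B1b n M) (k : ℤ) (hψ : Sm n ψ) (he : Hc e) (hz : z ∈ e.target) :
    ContDiffAt ℝ 2 (wt k ψ e) z :=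
  ((contDiffAt_const.mul ((b.vd_sm e he z hz).log (b.vd_pos e he z hz).ne')).add
    (hψ e he z hz)).of_le (by norm_cast)

theorem ewt (b : B1b n M) (j : ℕ) (hk : k = 1 - j) (f : M → ℝ) (he : Hc e) (hz : z ∈ e.target)
    (hf : 0 < f (e.symm z)) :
    Real.exp (wt k (fun y => Real.log (f y)) e z) = f (e.symm z) / vd e z ^ j := by
  rw [wt, show ((k : ℤ) : ℝ) - 1 = -(j : ℝ) by rw [hk]; push_cast; ring, neg_mul, ← Real.log_pow,
    Real.exp_add, Real.exp_neg, Real.exp_log hf, Real.exp_log (pow_pos (b.vd_pos e he z hz) _),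
    inv_mul_eq_div]

variable [MeasurableSpace M] {μ : Measure M}

theorem L2_smul (c : ℂ) (s : M → ℂ) :
    L2 n μ k ψ (c • s) = ENNReal.ofReal (‖c‖ ^ 2) * L2 n μ k ψ s := by
  rw [L2, L2, ← lintegral_const_mul' _ _ ENNReal.ofReal_ne_top]
  refine lintegral_congr fun x => ?_
  rw [← ENNReal.ofReal_mul (sq_nonneg _)]
  simp only [nrm, Pi.smul_apply, smul_eq_mul, norm_mul, mul_pow, mul_assoc]

omit [RiemannianBundle (fun x : M => TangentSpace 𝓘(ℝ, Cm n) x)] [MeasurableSpace M] in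
theorem sm_of (h : IsSec n k s) : SmSec n k s := fun e he z hz =>
  (h e he z hz).contDiffAt.restrict_scalars ℝ

theorem ex_V (v : B3 n μ) (k : ℤ) (hψ : Continuous ψ) :
    ∃ V : Submodule ℂ (M → ℂ), ∀ s, s ∈ V ↔ IsSec n k s ∧ L2 n μ k ψ s < ⊤ := by
  refine ⟨⟨⟨⟨{s | IsSec n k s ∧ L2 n μ k ψ s < ⊤}, ?_⟩, ?_⟩, ?_⟩, fun _ => Iff.rfl⟩
  · refine fun {s t} hs ht => ⟨fun e he z hz => ?_,
      (v.add k ψ s t hψ (sm_of hs.1) (sm_of ht.1)).trans_lt ?_⟩
    · rw [show co k (s + t) e = _ from (coL k e).map_add s t]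
      exact (hs.1 e he z hz).add (ht.1 e he z hz)
    · exact ENNReal.add_lt_top.2 ⟨ENNReal.mul_lt_top (by simp) hs.2, ENNReal.mul_lt_top (by simp) ht.2⟩
  · refine ⟨fun e _ z _ => ?_, by simp [L2, nrm]⟩
    rw [show co k 0 e = _ from (coL k e).map_zero]
    exact analyticAt_const
  · refine fun c s hs => ⟨fun e he z hz => ?_, ?_⟩
    · rw [show co k (c • s) e = _ from (coL k e).map_smul c s]
      exact (hs.1 e he z hz).const_smul
    · rw [L2_smul]
      exact ENNReal.mul_lt_top ENNReal.ofReal_lt_top hs.2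

theorem L2_ne [BorelSpace M] (a : B1a n M) (b : B1b n M) (v : B3 n μ) (hψ : Continuous ψ)
    (hs : IsSec n k s) (h : s ≠ 0) : L2 n μ k ψ s ≠ 0 := fun h0 => by
  have hc : Continuous fun x => nrm n k s x * Real.exp (-ψ x) :=
    (b.nrm_cont k s (sm_of hs)).mul hψ.neg.rexp
  obtain ⟨x, hx⟩ := Function.ne_iff.1 h
  refine (v.pos _ (isOpen_lt continuous_const hc) ⟨x, mul_pos (mul_pos
    (pow_pos (norm_pos_iff.2 hx) 2) (vd_pos a b _ x)) (Real.exp_pos _)⟩).ne' ?_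
  exact measure_mono_null (fun y hy h => (ENNReal.ofReal_pos.2 hy).ne' h)
    ((lintegral_eq_zero_iff hc.measurable.ennreal_ofReal).1 h0)

end Tau

variable {n : ℕ} {M : Type} [MetricSpace M] [ChartedSpace (Cm n) M]
  [IsManifold 𝓘(ℂ, Cm n) 1 M] [RiemannianBundle (fun x : M => TangentSpace 𝓘(ℝ, Cm n) x)]
  [MeasurableSpace M] [BorelSpace M] {μ : Measure M}

open Tau Vale.Agent.P272.K in
theorem tau (_c : Ctx n μ) (A : All n μ) (h1 : PCX n M) (h2 : LSE n M) (h3 : WR n M)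
    (h4 : HT n μ) (h5 : OT n μ) : TAU n μ := by
  intro p m s₀ s m1 h₀ hs hne hJ
  have a := A.a
  have b := A.b
  obtain ⟨w, W⟩ := h3 m s₀ s m1 h₀.1 (fun i => (hs i).1) hne hJ
  obtain ⟨k1, k2⟩ := h2 m s₀ s h₀.1 fun i => (hs i).1
  obtain ⟨F, f1, f2⟩ := h4 p m s₀ s w m1 h₀ hs hne W
  obtain ⟨-, pc⟩ := h1 m s₀ s m1 h₀.1 fun i => (hs i).1
  have n1 : 1 ≤ (n + 4) * m := Nat.mul_pos (by omega) m1
  have n2 : 1 ≤ m * (2 * n + 1) := Nat.mul_pos m1 (by omega)
  set N := (n + 4) * m - 1 with hN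
  set ψ : M → ℝ := fun x => Real.log (1 + w x) + (n + 2) * kap m s₀ s x
  have w0 : ∀ x, 0 < 1 + w x := fun x => add_pos_of_pos_of_nonneg one_pos (W.nn x)
  have hl : Sm n fun x => Real.log (1 + w x) := fun e he z hz =>
    (contDiffAt_const.add (W.sm e he z hz)).log (w0 _).ne'
  have hψ : Sm n ψ := fun e he z hz => (hl e he z hz).add (contDiffAt_const.mul (k1 e he z hz))
  have ewt' : ∀ e : Chart n M, wt (-N) ψ e = fun y => wt (1 - 2 * m) (fun x => Real.log (1 + w x)) e y +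
      (n + 2 : ℝ) * wt (1 - m) (kap m s₀ s) e y := fun e => funext fun y => by
    simp only [wt, ψ, hN, Int.cast_neg, Nat.cast_sub n1]
    push_cast
    ring
  have cψ := a.sm_cont ψ hψ
  obtain ⟨V, hV⟩ := ex_V A.v (-N) cψ
  have t₀ := tame_of_inH F m1 h₀
  have ts := fun i => tame_of_inH F m1 (hs i)
  have tV : ∀ h : V, h.1 * s₀ ∈ F.Tame (N + m) := fun h =>
    f2 h ((hV h).1 h.2).1 ((hV h).1 h.2).2
  have hfin : Module.Finite ℂ V := by
    obtain ⟨_, hd⟩ := dim_tame A.ord A.jet F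
    have := (hd (N + m) (by omega)).1
    refine Module.Finite.of_injective (LinearMap.codRestrict _
      ((LinearMap.mulRight ℂ s₀).comp V.subtype) tV) ((injective_iff_map_eq_zero _).2 fun h e => ?_)
    by_contra h'
    exact VS.mul_ne a ((hV h).1 h.2).1 h₀.1 (fun e' => h' (Subtype.ext e')) hne
      (congrArg Subtype.val e)
  obtain ⟨r, B, C₁, C1, hB⟩ := ev_bd (fun h : V => (L2 n μ (-N) ψ h).toReal)
    (fun h h' => ENNReal.toReal_pos (L2_ne a b A.v cψ ((hV h).1 h.2).1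
      fun e' => h' (Subtype.ext e')) ((hV h).1 h.2).2.ne)
    (fun c h => by
      rw [Submodule.coe_smul, L2_smul, ENNReal.toReal_mul, ENNReal.toReal_ofReal (sq_nonneg _)])
    fun h h' => by
      have g1 := ((hV h).1 h.2).2.ne
      have g2 := ((hV h').1 h'.2).2.ne
      refine (ENNReal.toReal_mono (by finiteness) (A.v.add _ ψ h h' cψ (sm_of ((hV h).1 h.2).1)
        (sm_of ((hV h').1 h'.2).1))).trans_eq ?_
      rw [ENNReal.toReal_add (by finiteness) (by finiteness)]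
      simp
  have gr : VS.Gr F.Tame := ⟨one_tame F, fun _ _ _ hs _ ht => mul_tame a F hs ht⟩
  obtain ⟨C, C0, hC⟩ := h5
  refine ⟨F, r, _, fun i => B i * s₀ * s₀ ^ (2 * n + 1), 4 * C₁ * C * (2 * (n + 1)) ^ (2 * n), f1,
    fun i => mul_tame a F (tV (B i)) (gr.pow t₀ (2 * n + 1)), by
      convert mul_tame a F f1 (gr.pow t₀ (n + 4)) using 2
      rw [mul_comm (2 * n + 1)]
      omega, fun e he z hz C₂ hC₂ => ?_⟩
  set c : ℝ := 2 * (n + 1) * (1 + ‖z‖) with hc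
  have c0 : 0 < c := by positivity
  refine le_of_le_of_eq (b := 4 * (C₁ * C₂ ^ 2 * C * c ^ (2 * n))) ?_ (by rw [hc, mul_pow]; ring)
  obtain ⟨p1, p2, -⟩ := pc e he z hz
  have hx := he.2 _ (e.map_target hz)
  rw [e.right_inv hz] at hx
  have u0 := norm_pos_iff.2 p2
  have g1 : ∀ i, ‖co (-N) (B i) e z‖ ≤ C₂ * ‖co (-m) s₀ e z‖ ^ (n + 4) := fun i => by
    have j0 := VS.jd_ne a he.1 hz
    have := (div_le_iff₀ (norm_pos_iff.2 (mul_ne_zero (mul_ne_zero ((VS.co_ne a he.1 hz).1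
      (p1 ▸ pow_ne_zero _ p2)) hx.1) (pow_ne_zero _ hx.1)))).2 (hC₂ i)
    rw [← norm_div] at this
    rw [← div_le_iff₀ (by positivity), ← norm_pow, ← norm_div]
    refine le_of_eq_of_le (congrArg norm ?_) this
    simp only [Pi.mul_apply, Pi.pow_apply]
    rw [co_inv a he.1 hz N (B i), co_inv a he.1 hz _ (Jac s₀ s), p1, co_inv a he.1 hz m s₀, hN,
      pow_sub₀ _ j0 n1, pow_sub₀ _ j0 n2]
    field_simp
    ring
  have k0 : ∀ y, 0 < 1 + nrm n (-m) s₀ y + ∑ i, nrm n (-m) (s i) y := fun y =>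
    add_pos_of_pos_of_nonneg (add_pos_of_pos_of_nonneg one_pos (nrm_nn a b _ _ y))
      (Finset.sum_nonneg fun i _ => nrm_nn a b _ _ y)
  obtain ⟨h, g2, g3, g4⟩ := hC (-N) m ψ (kap m s₀ s) (fun i => ((c⁻¹ : ℝ) : ℂ) • (s i - z i • s₀))
    V hψ k1 (fun i => ((F.Tame m).smul_mem _ (sub_mem (ts i) ((F.Tame m).smul_mem _ t₀))).1)
    (fun y => by
      have g : ∀ i, nrm n (-m) (((c⁻¹ : ℝ) : ℂ) • (s i - z i • s₀)) y ≤
          nrm n (-m) (s i) y + nrm n (-m) s₀ y / (n + 1) := fun i => by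
        simp only [nrm, Pi.smul_apply, Pi.sub_apply, smul_eq_mul]
        rw [mul_div_right_comm, ← add_mul, norm_mul, Complex.norm_real,
          Real.norm_of_nonneg (inv_pos.2 c0).le]
        refine mul_le_mul_of_nonneg_right (sq_bd (norm_nonneg _) (norm_nonneg _)
          (by linarith [norm_nonneg z]) (by linarith [Nat.cast_nonneg (α := ℝ) n])
          ((norm_sub_le _ _).trans (add_le_add_right ?_ _))) (vd_pos a b _ y).le
        rw [norm_mul]
        exact mul_le_mul_of_nonneg_right ((norm_le_pi_norm z i).trans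
          (le_add_of_nonneg_left zero_le_one)) (norm_nonneg _)
      refine (Finset.sum_le_sum fun i _ => g i).trans ?_
      rw [kap, Real.exp_log (k0 y), Finset.sum_add_distrib, Finset.sum_const, Finset.card_fin,
        nsmul_eq_mul, ← mul_div_assoc]
      have : n * nrm n (-m) s₀ y / (n + 1) ≤ nrm n (-m) s₀ y := by
        rw [div_le_iff₀ (by positivity)]
        linarith [nrm_nn a b (-m) s₀ y]
      linarith) k2
    (fun e he z hz => by
      rw [th, ewt', C2.cHess_add (wt_sm b _ hl he hz) (contDiffAt_const.mul (wt_sm b _ k1 he hz)),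
        C2.cHess_const_mul _ (wt_sm b _ k1 he hz), th, add_sub_cancel_right]
      exact W.pos e he z hz) hV hfin e he.1 z hz (fun y => ((c⁻¹ : ℝ) : ℂ) * co (-m) s₀ e y)
    (mul_ne_zero (by simpa using c0.ne') p2) (analyticAt_const.mul (h₀.1 e he.1 z hz)) (by
      filter_upwards [e.open_target.mem_nhds hz] with y hy i
      have := (pc e he y hy).2.2 i
      simp only [co, Pi.smul_apply, Pi.sub_apply, smul_eq_mul] at this ⊢
      linear_combination ((c⁻¹ : ℝ) : ℂ) * this)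
  have g5 := hB (((LinearMap.proj z).comp (coL (-N) e)).comp V.subtype) _ g1
    ⟨h, (hV h).2 ⟨g2, g4.trans_lt ENNReal.ofReal_lt_top⟩⟩
  have g6 := ((pow_le_pow_left₀ (by norm_num) g3 2).trans g5).trans (mul_le_mul_of_nonneg_left
    (ENNReal.toReal_le_of_le_ofReal (by positivity) g4) (by positivity))
  have D0 := b.vd_pos e he.1 z hz
  have g7 := ewt b (2 * m) (k := 1 - 2 * m) (by push_cast; ring) (fun x => 1 + w x) he.1 hz (w0 _)
  have g8 : Real.exp (wt (1 - m) (kap m s₀ s) e z) = _ := ewt b m rfl _ he.1 hz (k0 _)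
  have g9 := b.nrm_eq (-m) s₀ e he.1 z hz
  rw [neg_neg, zpow_natCast] at g9
  rw [ewt'] at g6
  simp only at g6
  set U := ‖co (-m) s₀ e z‖ with hU
  set W₁ := wt (1 - 2 * m) (fun x => Real.log (1 + w x)) e z
  set W₂ := wt (1 - m) (kap m s₀ s) e z
  have i1 : ((hm e z)⁻¹).trace.re * U ^ 4 ≤ Real.exp W₁ := by
    rw [g7, le_div_iff₀ (by positivity), W.val e he z hz, g9]
    exact le_trans (le_of_eq (by ring)) (le_add_of_nonneg_left zero_le_one)
  have i2 : U ^ 2 ≤ Real.exp W₂ := by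
    rw [g8, le_div_iff₀ (by positivity), ← g9]
    linarith [Finset.sum_nonneg fun i (_ : i ∈ Finset.univ) => nrm_nn a b (-m) (s i) (e.symm z)]
  rw [show -(W₁ + (n + 2) * W₂) + n * W₂ = -(W₁ + (W₂ + W₂)) by ring, Real.exp_neg, Real.exp_add,
    Real.exp_add, norm_mul, Complex.norm_real, Real.norm_of_nonneg (inv_pos.2 c0).le, ← hU] at g6
  have i3 : Real.exp W₁ * (Real.exp W₂ * Real.exp W₂) ≤
      4 * (C₁ * C₂ ^ 2 * C * c ^ (2 * n)) * U ^ 8 := by
    refine (le_of_eq (by ring)).trans ((mul_le_mul_of_nonneg_left g6 (by positivity :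
      0 ≤ 4 * (Real.exp W₁ * (Real.exp W₂ * Real.exp W₂)))).trans_eq ?_)
    rw [mul_pow c⁻¹, inv_pow]
    field_simp
    ring
  refine le_of_mul_le_mul_right (le_trans ?_ i3) (pow_pos u0 8)
  calc _ = ((hm e z)⁻¹).trace.re * U ^ 4 * (U ^ 2 * U ^ 2) := by ring
    _ ≤ Real.exp W₁ * (U ^ 2 * U ^ 2) := mul_le_mul_of_nonneg_right i1 (by positivity)
    _ ≤ _ := by gcongr

end Vale.Agent.P253Z.T2
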