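import Vale.Agent.P253Z.T2.An
import Vale.Agent.P253Z.B2

/-!
# P253Z, T2, block TRI: `log tr H⁻¹` is plurisubharmonic
-/

open scoped Manifold ContDiff Bundle ENNReal Topology ComplexConjugate ComplexOrder Matrix
open Bundle IsManifold MeasureTheory Set Metric Filter Vale.Agent.P253.Mfd
open Vale.Agent.P272.K (Cm dz dzb cHess jacM Chart)
open Vale.Agent.P272.K.C2

noncomputable section

namespace Vale.Agent.P253Z.T2

namespace TriA

variable {n : ℕ} {G : Cm n → Matrix (Fin n) (Fin n) ℂ} {z : Cm n}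

theorem mc_one (m : WithTop ℕ∞) : MC m (fun _ : Cm n => (1 : Matrix (Fin n) (Fin n) ℂ)) z :=
  fun _ _ => contDiffAt_const

theorem rm_one (k l : Fin n) : RM k l (fun _ : Cm n => (1 : Matrix (Fin n) (Fin n) ℂ)) z = 0 := by
  have : DMb l (fun _ : Cm n => (1 : Matrix (Fin n) (Fin n) ℂ)) = fun _ => 0 :=
    funext fun _ => DMb_const _
  simp only [RM, D2, this, DM_const, neg_zero, Matrix.zero_mul, add_zero]

/-- the trace of the inverse is smooth and positive -/
theorem tr_sm [NeZero n] (hG : MC 2 G z) (hp : (G z).PosDef) :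
    ContDiffAt ℝ 2 (fun y => ((G y)⁻¹).trace.re) z ∧ 0 < ((G z)⁻¹).trace.re := by
  refine ⟨Complex.reCLM.contDiff.contDiffAt.comp z (hG.inv (posDef_det_ne_zero hp)).trace, ?_⟩
  simpa using trace_re_pos hp (Matrix.PosDef.one (n := Fin n) (R := ℂ))

/-- the entries of the complex Hessian of `log tr G⁻¹` -/
theorem entry [NeZero n] (hG : MC 2 G z) (hGp : ∀ᶠ y in 𝓝 z, (G y).PosDef) :
    ∃ C : Fin n → Matrix (Fin n) (Fin n) ℂ, ∀ k l,
      ((((G z)⁻¹).trace.re : ℝ) : ℂ) * cHess (fun y => Real.log ((G y)⁻¹).trace.re) z k l =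
        (C k * (C l)ᴴ * (G z)⁻¹).trace + ((G z)⁻¹ * RM k l G z * (G z)⁻¹).trace := by
  have hG1 : MC 1 G z := hG.mono (by norm_num)
  have g0 := posDef_det_ne_zero hGp.self_of_nhds
  have hGh : ∀ᶠ y in 𝓝 z, (G y).IsHermitian := hGp.mono fun y hy => hy.isHermitian
  obtain ⟨hTr, tpos⟩ := tr_sm hG hGp.self_of_nhds
  have one : (1 : Matrix (Fin n) (Fin n) ℂ).PosDef := Matrix.PosDef.one
  set H : Cm n → Matrix (Fin n) (Fin n) ℂ := fun _ => 1 with hH
  set P := (G z)⁻¹ with hP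
  set t : ℝ := P.trace.re with ht
  have t0 : (t : ℂ) ≠ 0 := by exact_mod_cast tpos.ne'
  have htc : (t : ℂ) = P.trace := by
    simpa using trace_re_eq hGp.self_of_nhds one
  set b : Fin n → ℂ := fun k => (BM k G H z * P).trace with hb
  have ec : (fun y => ((((G y)⁻¹).trace.re : ℝ) : ℂ)) =ᶠ[𝓝 z]
      fun y => ((G y)⁻¹ * H y).trace := by
    filter_upwards [hGp] with y h1
    simpa [hH] using trace_re_eq h1 one
  have hdz : ∀ k, dz k (fun y => ((((G y)⁻¹).trace.re : ℝ) : ℂ)) z = b k := fun k => by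
    rw [dz_congr k ec, dz_trace_inv_mul hG1 (mc_one 1) g0]
  have hdzb : ∀ k, dzb k (fun y => ((((G y)⁻¹).trace.re : ℝ) : ℂ)) z = conj (b k) := fun k => by
    rw [dzb_real k (hTr.differentiableAt (by norm_num)), hdz]
  have hHs : ∀ k l, cHess (fun y => ((G y)⁻¹).trace.re) z k l =
      (BM k G H z * (BM l G H z)ᴴ * P).trace + (P * RM k l G z * P).trace := by
    intro k l
    rw [cHess_apply, dz_congr k (dzb_eventuallyEq l ec), dz_dzb_trace_inv_mul hG (mc_one 2) hGh
      (Eventually.of_forall fun _ => one.isHermitian) g0 (posDef_det_ne_zero one), rm_one]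
    simp [hP, hH]
  refine ⟨fun k => BM k G H z - (b k / t) • 1, fun k l => ?_⟩
  have hPe : Pᴴ = P := by
    rw [hP, Matrix.conjTranspose_nonsing_inv, hGh.self_of_nhds]
  have x2 : ((BM l G H z)ᴴ * P).trace = conj (b l) := by
    have : (BM l G H z)ᴴ * P = (P * BM l G H z)ᴴ := by
      rw [Matrix.conjTranspose_mul, hPe]
    rw [this, Matrix.trace_conjTranspose, Matrix.trace_mul_comm]
    rfl
  have x1 : (BM k G H z * P).trace = b k := rfl
  have hst : star (b l / (t : ℂ)) = conj (b l) / t := by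
    rw [RCLike.star_def, map_div₀, Complex.conj_ofReal]
  rw [cHess_log hTr tpos k l, hHs, hdz, hdzb, Matrix.conjTranspose_sub, Matrix.conjTranspose_smul,
    Matrix.conjTranspose_one]
  simp only [Matrix.sub_mul, Matrix.mul_sub, Matrix.smul_mul, Matrix.mul_smul, Matrix.trace_sub,
    Matrix.trace_smul, Matrix.mul_one, Matrix.one_mul, x1, x2, ← htc, smul_eq_mul, hst]
  rw [← hP, ← ht]
  field_simp
  ring

theorem tr_conj {P R : Matrix (Fin n) (Fin n) ℂ} (hP : Pᴴ = P) :
    (P * R * P).trace = ∑ i, P i ⬝ᵥ (R *ᵥ star (P i)) := by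
  refine Finset.sum_congr rfl fun i _ => ?_
  have : ∀ j, P j i = star (P i j) := fun j => by
    conv_lhs => rw [← hP]
    rfl
  simp only [Matrix.diag_apply, Matrix.mul_apply, dotProduct, Matrix.mulVec, Finset.sum_mul,
    Finset.mul_sum, this, Pi.star_apply]
  rw [Finset.sum_comm]
  exact Finset.sum_congr rfl fun j _ => Finset.sum_congr rfl fun k _ => by ring

/-- nonnegative curvature of `G` gives the positivity of the quadratic form -/
theorem quad [NeZero n] (hG : MC 2 G z) (hGp : ∀ᶠ y in 𝓝 z, (G y).PosDef) (v : Cm n)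
    (hR : ∀ a : Cm n, 0 ≤ (a ⬝ᵥ ((∑ l, ∑ k, (v k * conj (v l)) • RM k l G z) *ᵥ star a)).re) :
    0 ≤ (∑ j, ∑ k, cHess (fun y => Real.log ((G y)⁻¹).trace.re) z j k *
      (v j * conj (v k))).re := by
  obtain ⟨C, hC⟩ := entry hG hGp
  obtain ⟨-, tpos⟩ := tr_sm hG hGp.self_of_nhds
  have hPp := hGp.self_of_nhds.inv
  set P := (G z)⁻¹ with hP
  set S := ∑ k, v k • C k with hS
  have e1 : ((P.trace.re : ℝ) : ℂ) * ∑ j, ∑ k,
      cHess (fun y => Real.log ((G y)⁻¹).trace.re) z j k * (v j * conj (v k)) =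
      (S * Sᴴ * P).trace + (P * (∑ l, ∑ k, (v k * conj (v l)) • RM k l G z) * P).trace := by
    have e0 : S * Sᴴ = ∑ k, ∑ l, (v k * conj (v l)) • (C k * (C l)ᴴ) := by
      rw [hS, Matrix.conjTranspose_sum, Matrix.sum_mul]
      refine Finset.sum_congr rfl fun k _ => ?_
      rw [Matrix.mul_sum]
      refine Finset.sum_congr rfl fun l _ => ?_
      rw [Matrix.conjTranspose_smul, Matrix.smul_mul, Matrix.mul_smul, smul_smul]
      rfl
    rw [Finset.sum_comm (f := fun l k => (v k * conj (v l)) • RM k l G z), e0]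
    simp only [Finset.mul_sum, ← mul_assoc, hC, Matrix.sum_mul, Matrix.trace_sum,
      Matrix.smul_mul, Matrix.mul_smul, Matrix.trace_smul, smul_eq_mul, ← Finset.sum_add_distrib]
    exact Finset.sum_congr rfl fun k _ => Finset.sum_congr rfl fun l _ => by ring
  have p1 : 0 ≤ (S * Sᴴ * P).trace.re :=
    (Complex.le_def.1 (trace_mul_nonneg (Matrix.posSemidef_self_mul_conjTranspose S)
      hPp.posSemidef)).1
  have p2 : 0 ≤ (P * (∑ l, ∑ k, (v k * conj (v l)) • RM k l G z) * P).trace.re := by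
    rw [tr_conj hPp.isHermitian, Complex.re_sum]
    exact Finset.sum_nonneg fun i _ => hR _
  have e2 := congrArg Complex.re e1
  rw [Complex.re_ofReal_mul, Complex.add_re] at e2
  exact (mul_nonneg_iff_of_pos_left tpos).1 (e2 ▸ add_nonneg p1 p2)

end TriA

variable {n : ℕ} {M : Type} [MetricSpace M] [ChartedSpace (Cm n) M]
  [IsManifold 𝓘(ℂ, Cm n) 1 M] [IsManifold 𝓘(ℝ, Cm n) ∞ M]
  [RiemannianBundle (fun x : M => TangentSpace 𝓘(ℝ, Cm n) x)]
  [IsContMDiffRiemannianBundle 𝓘(ℝ, Cm n) ∞ (Cm n) (fun x : M => TangentSpace 𝓘(ℝ, Cm n) x)]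
  [MeasurableSpace M] {μ : Measure M}

theorem tri (c : Ctx n μ) (_a : B1a n M) (b : B1b n M) : TRI n M := by
  intro e he z hz
  have : NeZero n := ⟨by have := c.npos; omega⟩
  have hU : ∀ᶠ y in 𝓝 z, y ∈ e.target := e.open_target.mem_nhds hz
  have hW : MC 2 (B2A.mat (chartG e)) z := fun j k => (b.wsm e he z hz j k).of_le B2A.two_le
  have hP : ∀ᶠ y in 𝓝 z, (B2A.mat (chartG e) y).PosDef := hU.mono fun y hy => b.wpos e he y hy
  obtain ⟨h1, h2⟩ := TriA.tr_sm hW hP.self_of_nhds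
  refine (b.psd _ (b.herm _ z (h1.log h2.ne'))).2 fun v => TriA.quad hW hP v fun a => ?_
  rw [B2A.rm_eq (localKahler_chartG c.kahler he) hz hW hP
    (hU.mono fun y hy => b.quad e he y hy) b.levi v a]
  rcases eq_or_ne v 0 with rfl | hv
  · have := LocalKahler.Rc_smul (G := chartG e) 0 1 z 0 a
    rw [zero_smul, one_smul] at this
    rw [this]; simp
  rcases eq_or_ne a 0 with rfl | ha
  · have := LocalKahler.Rc_smul (G := chartG e) 1 0 z v 0
    rw [zero_smul, one_smul] at this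
    rw [this]; simp
  exact (Rc_pos_chartG c.kahler he hz (c.pos _) _ _ hv ha).le

end Vale.Agent.P253Z.T2
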