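import Vale.Agent.P253Z.T2.An

/-!
# P253Z, T2: the volume density is integrable where two ratios are bounded
-/

open scoped Manifold ContDiff Bundle ENNReal Topology ComplexConjugate ComplexOrder
open Bundle IsManifold MeasureTheory Set Metric Filter Vale.Agent.P253.Mfd
open Vale.Agent.P272.K (Cm dz dzb cHess jacM Chart)

noncomputable section

namespace Vale.Agent.P253Z.T2

open VS (ev Jac)

variable {n : ℕ} {M : Type} [MetricSpace M] [ChartedSpace (Cm n) M]

namespace Vol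

theorem co_pow (m k : ℕ) (s : M → ℂ) (e : Chart n M) (z : Cm n) :
    co (-(k * m : ℕ)) (s ^ k) e z = co (-m) s e z ^ k := by
  have h : (-(k * m : ℕ) : ℤ) = -m * (k : ℤ) := by push_cast; ring
  rw [co, co, h, zpow_mul, zpow_natCast, mul_pow, Pi.pow_apply]

theorem co_le (k : ℤ) {s t : M → ℂ} (e : Chart n M) {z : Cm n} {C : ℝ}
    (h : ‖s (e.symm z)‖ ≤ C * ‖t (e.symm z)‖) : ‖co k s e z‖ ≤ max C 1 * ‖co k t e z‖ := by
  rw [co, co, norm_mul, norm_mul, mul_left_comm]
  exact mul_le_mul_of_nonneg_left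
    (h.trans (mul_le_mul_of_nonneg_right (le_max_left _ _) (norm_nonneg _))) (norm_nonneg _)

/-- the determinant is bounded below by the trace of the inverse -/
theorem det_ge {H : Matrix (Fin n) (Fin n) ℂ} (hH : H.PosDef) {τ : ℝ}
    (h : (H⁻¹).trace.re ≤ τ) : ((max τ 1) ^ n)⁻¹ ≤ H.det.re := by
  have hG := hH.inv
  have h1 := hG.isHermitian.det_eq_prod_eigenvalues
  have h2 := hG.isHermitian.trace_eq_sum_eigenvalues
  have h3 : ∀ i, 0 < hG.isHermitian.eigenvalues i := hG.eigenvalues_pos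
  have h4 : ∑ i, hG.isHermitian.eigenvalues i ≤ τ := by
    rw [h2] at h
    simpa using h
  have h5 : ∏ i, hG.isHermitian.eigenvalues i ≤ (max τ 1) ^ n := by
    calc _ ≤ ∏ _i : Fin n, max τ 1 := Finset.prod_le_prod (fun i _ => (h3 i).le) fun i _ =>
          ((Finset.single_le_sum (fun j _ => (h3 j).le) (Finset.mem_univ i)).trans h4).trans
            (le_max_left _ _)
      _ = _ := by simp
  have h6 : 0 < ∏ i, hG.isHermitian.eigenvalues i := Finset.prod_pos fun i _ => h3 i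
  have h7 : H.det = ((∏ i, hG.isHermitian.eigenvalues i : ℝ)⁻¹ : ℝ) := by
    rw [Matrix.det_nonsing_inv, Ring.inverse_eq_inv'] at h1
    rw [← inv_inv H.det, h1]
    push_cast
    rfl
  rw [h7, Complex.ofReal_re]
  exact inv_anti₀ h6 h5

variable [RiemannianBundle (fun x : M => TangentSpace 𝓘(ℝ, Cm n) x)] [MeasurableSpace M]
  {μ : Measure M}

theorem int_fin (b : B1b n M) (v : B3 n μ) {l : ℕ} (hl : n ≤ l) {t : M → ℂ} (ht : InH n μ l t)
    {e : Chart n M} (he : Hc e) {S : Set (Cm n)} (hS : MeasurableSet S) (hSe : S ⊆ e.target)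
    {c δ : ℝ} (hc : 0 < c) (hδ : 0 < δ) (h : ∀ z ∈ S, c ≤ ‖co (-l) t e z‖)
    (h' : ∀ z ∈ S, δ ≤ vd e z) : ∫⁻ z in S, ENNReal.ofReal (vd e z ^ (n + 1)) < ⊤ := by
  have h1 := (v.l2 (-l) 0 t continuous_const
    (fun e he z hz => (ht.1 e he z hz).contDiffAt.restrict_scalars ℝ) e he _ hS hSe).1
  have h2 : L2 n μ (-l) 0 t < ⊤ := by simpa [L2] using ht.2
  obtain ⟨r, rfl⟩ := Nat.exists_eq_add_of_le hl
  calc ∫⁻ z in S, ENNReal.ofReal (vd e z ^ (n + 1))
      ≤ ∫⁻ z in S, ENNReal.ofReal (1 / (c ^ 2 * δ ^ r)) *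
          ENNReal.ofReal (‖co (-(n + r : ℕ)) t e z‖ ^ 2 *
            Real.exp (-wt (-(n + r : ℕ)) 0 e z)) := by
        refine setLIntegral_mono' hS fun z hz => ?_
        have k1 := b.vd_pos e he z (hSe hz)
        have k2 : Real.exp (-wt (-(n + r : ℕ)) 0 e z) = vd e z ^ r * vd e z ^ (n + 1) := by
          rw [← pow_add, ← Real.exp_log (pow_pos k1 _), Real.log_pow, wt]
          congr 1
          push_cast
          simp only [Pi.zero_apply]
          ring
        rw [k2, ← ENNReal.ofReal_mul (by positivity)]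
        refine ENNReal.ofReal_le_ofReal ?_
        rw [div_mul_eq_mul_div, one_mul, le_div_iff₀ (by positivity), mul_comm, ← mul_assoc]
        gcongr
        exacts [h z hz, h' z hz]
    _ < ⊤ := by
        rw [lintegral_const_mul' _ _ ENNReal.ofReal_ne_top]
        exact ENNReal.mul_lt_top ENNReal.ofReal_lt_top (h1.trans_lt h2)

end Vol

variable [RiemannianBundle (fun x : M => TangentSpace 𝓘(ℝ, Cm n) x)] [MeasurableSpace M]
  {μ : Measure M}

/-- **VOL** -/
theorem vol (a : B1a n M) (b : B1b n M) (v : B3 n μ) (h1 : PCX n M) : VOL n μ := by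
  intro m l s₀ t s hm hl h₀ hs ht e he S C τ hS hSe H₁ H₂ H₃
  have hC : 0 < max C 1 := by positivity
  have hτ : 0 < ((max τ 1) ^ n)⁻¹ := by positivity
  have key : ∀ z ∈ S, 1 / max C 1 ≤ ‖co (-m) s₀ e z‖ := by
    intro z hz
    obtain ⟨k1, k2, -⟩ := (h1 m s₀ s hm h₀ hs).2 e he z (hSe hz)
    have k3 := Vol.co_le (-((m * (2 * n + 1) - 1 + m) * m : ℕ)) e (H₁ z hz)
    rw [Vol.co_pow, mul_comm _ m, Vol.co_pow, Nat.cast_add, neg_add,
      a.co_mul _ _ _ _ e he.1 z (hSe hz), k1, ← pow_succ, ← pow_mul, norm_pow, norm_pow] at k3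
    have k4 : (2 * n + 1 + 1) * m = m * (2 * n + 1) - 1 + m + 1 := by
      have : 1 ≤ m * (2 * n + 1) := Nat.mul_pos hm (by omega)
      have k : (2 * n + 1 + 1) * m = m * (2 * n + 1) + m := by ring
      omega
    have k5 : 0 < ‖co (-m) s₀ e z‖ ^ (m * (2 * n + 1) - 1 + m) := by positivity
    rw [k4, pow_succ] at k3
    rw [div_le_iff₀ hC]
    nlinarith
  have kd : ∀ z ∈ S, ((max τ 1) ^ n)⁻¹ ≤ vd e z := fun z hz =>
    Vol.det_ge (b.wpos e he.1 z (hSe hz)) (H₃ z hz)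
  refine ⟨⟨min (1 / max C 1) ((max τ 1) ^ n)⁻¹, by positivity, fun z hz =>
    ⟨(min_le_left _ _).trans (key z hz), (min_le_right _ _).trans (kd z hz)⟩⟩,
    Vol.int_fin b v hl ht he.1 hS hSe (c := min 1 ((1 / max C 1) ^ l / max C 1)) (by positivity)
      hτ (fun z hz => ?_) kd⟩
  rcases le_total 1 ‖co (-l) t e z‖ with k | k
  · exact (min_le_left _ _).trans k
  refine (min_le_right _ _).trans ?_
  have k3 := Vol.co_le (-(l * m : ℕ)) e (H₂ z hz)
  rw [Vol.co_pow, mul_comm l m, Vol.co_pow, norm_pow, norm_pow] at k3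
  rw [div_le_iff₀ hC]
  calc (1 / max C 1) ^ l ≤ ‖co (-m) s₀ e z‖ ^ l := by gcongr; exact key z hz
    _ ≤ max C 1 * ‖co (-l) t e z‖ ^ m := k3
    _ ≤ _ := by
      rw [mul_comm]
      gcongr
      exact pow_le_of_le_one (norm_nonneg _) k (by omega)

end Vale.Agent.P253Z.T2
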