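import Vale.Agent.P253Z.T2.An
import Vale.Agent.P253Z.T2.WR.Wro
import Vale.Agent.P253Z.SCH

/-!
# P253Z, T2, block WR: the Wronskian weight
-/

open scoped Manifold ContDiff Bundle ENNReal Topology ComplexConjugate ComplexOrder
open Bundle IsManifold MeasureTheory Set Metric Filter Vale.Agent.P253.Mfd
open Vale.Agent.P272.K (Cm dz dzb cHess jacM Chart)

set_option linter.unusedSectionVars false

noncomputable section

namespace Vale.Agent.P253Z.T2

open VS (ev Jac)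

variable {n : ℕ} {M : Type} [MetricSpace M] [ChartedSpace (Cm n) M]
  [IsManifold 𝓘(ℂ, Cm n) 1 M] [IsManifold 𝓘(ℝ, Cm n) ∞ M]
  [RiemannianBundle (fun x : M => TangentSpace 𝓘(ℝ, Cm n) x)]
  [IsContMDiffRiemannianBundle 𝓘(ℝ, Cm n) ∞ (Cm n) (fun x : M => TangentSpace 𝓘(ℝ, Cm n) x)]
  [IsRiemannianManifold 𝓘(ℝ, Cm n) M] [CompleteSpace M] [ConnectedSpace M] [NoncompactSpace M]
  [MeasurableSpace M] [BorelSpace M] {μ : Measure M}

namespace Wro

variable {m : ℕ} {s₀ : M → ℂ} {s : Fin n → M → ℂ} {e e' : Chart n M} {x : M} {z : Cm n}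

/-- the weight in the chart `e` -/
def wl (m : ℕ) (s₀ : M → ℂ) (s : Fin n → M → ℂ) (e : Chart n M) (z : Cm n) : ℝ :=
  vd e z ^ (2 * m) * qf (hm e z) (TM (co (-m) s₀ e) (fun i => co (-m) (s i) e) z)

/-- the weight -/
def ww (m : ℕ) (s₀ : M → ℂ) (s : Fin n → M → ℂ) (x : M) : ℝ :=
  wl m s₀ s (chartAt (Cm n) x) (chartAt (Cm n) x x)

theorem two_le : (2 : WithTop ℕ∞) ≤ ((⊤ : ℕ∞) : WithTop ℕ∞) :=
  WithTop.coe_le_coe.2 (le_top (a := (2 : ℕ∞)))

theorem grad_le (c : Ctx n μ) (a : B1a n M) (b : B1b n M) {f : M → ℂ} (hf : IsSec n 0 f)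
    {A : ℝ} (h : ∀ y ∈ ball x 1, ‖f y‖ ≤ A) (he : Hc e) (hx : x ∈ e.source) (v : Cm n) :
    ‖fderiv ℂ (fun w => f (e.symm w)) (e x) v‖ ≤
      9 * A * √(∑ j, ∑ k, hm e (e x) j k * (v j * conj (v k))).re := by
  have := properSpace_riemannian (Cm n) M
  have : Nonempty (Fin n) := ⟨⟨0, c.npos⟩⟩
  have hf' := (a.sec_zero f).1 hf
  have h0 : 0 ≤ A := (norm_nonneg _).trans (h x (mem_ball_self one_pos))
  have h1 : Sch.S (Cm n) f x ≤ 9 * A := le_of_forall_pos_le_add fun δ hδ => by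
    have h2 := Sch.grad c.kahler (fun x => Sch.nonneg (c.pos x)) hf' (A := A + δ / 9)
      (by positivity) (fun y hy => (h y hy).trans (by linarith)) (mem_closedBall_self zero_le_one)
    rw [dist_self, sub_zero, mul_one] at h2
    linarith
  have e1 : Sch.S (Cm n) f x = _ := P253.R2.H451.Sn_eq (Sch.homQ ℂ) hf' he hx
  have h2 := P253.R2.H451.norm_le_Sq (T := P253.R2.H451.dF f e (e x)) (Sch.homQ ℂ)
    ((localKahler_chartG c.kahler he).pos _ (e.map_source hx)) fun _ => v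
  rw [← e1, Fin.prod_univ_one, chartG_apply, b.quad e he _ (e.map_source hx)] at h2
  exact h2.trans (mul_le_mul_of_nonneg_right h1 (Real.sqrt_nonneg _))

variable (a : B1a n M) (b : B1b n M) (h₀ : IsSec n (-m) s₀) (hs : ∀ i, IsSec n (-m) (s i))
include a b h₀ hs

theorem wl_ch (he : Hc e) (he' : Hc e') (hx : x ∈ e.source) (hx' : x ∈ e'.source) :
    wl m s₀ s e (e x) = wl m s₀ s e' (e' x) := by
  have hz := e.map_source hx
  have hz' := e'.map_source hx'
  have hx2 : e.symm (e x) ∈ e'.source := by rwa [e.left_inv hx]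
  have hJ := a.jac_ne e e' he he' x hx hx'
  have h1 : ∀ t : M → ℂ, co (-m) t e =ᶠ[𝓝 (e x)] fun y =>
      (jacM e e' (e.symm y)).det ^ (-m : ℤ) * co (-m) t e' (e' (e.symm y)) := fun t => by
    filter_upwards [e.open_target.mem_nhds hz,
      (e.tendsto_symm hx).eventually (e'.open_source.mem_nhds hx')] with y h2 h3
    rw [← a.co_ch _ t e e' he he' _ (e.map_target h2) h3, e.right_inv h2]
  have h2 := (a.hol e e' he he' _ hz hx2).differentiableAt
  have h3 : ∀ t, IsSec n (-m) t → DifferentiableAt ℂ (co (-m) t e') (e' (e.symm (e x))) :=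
    fun t ht => (ht e' he' _ (e'.map_source hx2)).differentiableAt
  have h4 := ((a.jac_an e e' he he' _ hz hx2).fun_zpow (n := -m)
    (by rwa [e.left_inv hx])).differentiableAt
  rw [wl, wl, TM_congr (h1 s₀) fun i => h1 (s i), TM_mul h4 ((h3 _ h₀).fun_comp' (e x) h2)
    fun i => (h3 _ (hs i)).fun_comp' (e x) h2, TM_comp h2 (h3 _ h₀) fun i => h3 _ (hs i),
    ← a.jac_eq e e' he he' x hx hx', e.left_inv hx, qf_smul, b.wch e e' he he' x hx hx', pb,
    qf_pb hJ, b.vd_ch e e' he he' x hx hx', norm_pow, norm_zpow, zpow_neg, zpow_natCast]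
  have h5 := norm_ne_zero_iff.2 hJ
  field_simp
  ring

theorem ww_eq (he : Hc e) (hz : z ∈ e.target) : ww m s₀ s (e.symm z) = wl m s₀ s e z := by
  rw [ww, ← wl_ch a b h₀ hs he (a.chart _) (e.map_target hz) (mem_chart_source _ _),
    e.right_inv hz]

theorem ww_sm : Sm n (ww m s₀ s) := fun e he z hz => by
  refine (((b.vd_sm e he z hz).pow (2 * m)).mul (qf_sm (b.wsm e he z hz)
    (TM_sm (h₀ e he z hz) fun i => hs i e he z hz)
    (b.wpos e he z hz).det_pos.ne')).congr_of_eventuallyEq ?_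
  filter_upwards [e.open_target.mem_nhds hz] with y hy using ww_eq a b h₀ hs he hy

omit h₀ hs in
theorem ww_nn (x : M) : 0 ≤ ww m s₀ s x :=
  mul_nonneg (pow_nonneg (b.vd_pos _ (a.chart x) _ (mem_chart_target _ x)).le _)
    (qf_nonneg (b.wpos _ (a.chart x) _ (mem_chart_target _ x)) _)

theorem ww_val (he : Hc e) (h : ∀ z ∈ e.target, ∀ i, co (-m) (s i) e z = co (-m) s₀ e z * z i)
    (hz : z ∈ e.target) : ww m s₀ s (e.symm z) =
      vd e z ^ (2 * m) * ((‖co (-m) s₀ e z‖ ^ 2) ^ 2 * ((hm e z)⁻¹).trace.re) := by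
  rw [ww_eq a b h₀ hs he hz, wl, TM_congr (f' := fun y => co (-m) s₀ e y * 1)
    (g' := fun i y => co (-m) s₀ e y * y i) (Eventually.of_forall fun y => (mul_one _).symm)
    fun i => (e.open_target.eventually_mem hz).mono fun y hy => h y hy i,
    TM_mul (h₀ e he z hz).differentiableAt (differentiableAt_const _)
      fun i => differentiableAt_apply i z, TM_coord, qf_smul, qf_one, norm_pow]

theorem ww_up (c : Ctx n μ) {Ω : M → ℂ} {A : ℝ} (hΩ : IsSec n 1 Ω)
    (h : ∀ y ∈ ball x 1, ‖s₀ y * Ω y ^ m‖ ≤ A ∧ ∀ i, ‖s i y * Ω y ^ m‖ ≤ A) :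
    ww m s₀ s x * nrm n 1 Ω x ^ (2 * m) ≤ n * 324 * A ^ 4 := by
  have he := a.chart x
  have hx := mem_chart_source (Cm n) x
  generalize chartAt (Cm n) x = e at he hx
  have hz := e.map_source hx
  have h1 : ∀ (t : M → ℂ) (e : Chart n M), Hc e → ∀ z ∈ e.target,
      t (e.symm z) * Ω (e.symm z) ^ m = co 1 Ω e z ^ m * co (-m) t e z := fun t e he z hz => by
    have := VS.jd_ne a he hz
    rw [co, co, zpow_neg, zpow_natCast, zpow_one, mul_pow]
    field_simp
  have h2 : ∀ t, IsSec n (-m) t → IsSec n 0 fun y => t y * Ω y ^ m := fun t ht e he z hz => by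
    refine (((hΩ e he z hz).pow m).mul (ht e he z hz)).congr ?_
    filter_upwards [e.open_target.mem_nhds hz] with y hy
    rw [co, zpow_zero, one_mul, h1 t e he y hy]
    rfl
  have h3 := fun t : M → ℂ => (e.open_target.eventually_mem hz).mono (h1 t e he)
  have h4 := (TM_congr (h3 s₀) fun i => h3 (s i)).trans (TM_mul
    ((hΩ e he _ hz).differentiableAt.pow m) (h₀ e he _ hz).differentiableAt
    fun i => (hs i e he _ hz).differentiableAt)
  have h5 := h x (mem_ball_self one_pos)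
  have h6 : 0 ≤ A := (norm_nonneg _).trans h5.1
  have h7 := qf_le (T := TM (fun y => s₀ (e.symm y) * Ω (e.symm y) ^ m)
    (fun i y => s i (e.symm y) * Ω (e.symm y) ^ m) (e x)) (b.wpos e he _ hz)
    (L := 324 * A ^ 4) (by positivity) fun i v => by
      have g0 := grad_le c a b (h2 _ h₀) (fun y hy => (h y hy).1) he hx v
      have g1 := grad_le c a b (h2 _ (hs i)) (fun y hy => (h y hy).2 i) he hx v
      have g2 := (MC.psd (b.wpos e he _ hz).isHermitian).1 (b.wpos e he _ hz).posSemidef v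
      rw [TM_sum, e.left_inv hx, ← Real.sq_sqrt g2, show 324 * A ^ 4 = (18 * A ^ 2) ^ 2 by ring,
        ← mul_pow]
      refine pow_le_pow_left₀ (norm_nonneg _) ((norm_sub_le _ _).trans ?_) 2
      rw [norm_mul (_ * _), norm_mul (_ * _)]
      linarith [mul_le_mul h5.1 g1 (norm_nonneg _) h6, mul_le_mul (h5.2 i) g0 (norm_nonneg _) h6]
  rw [h4, qf_smul] at h7
  have h8 := (b.vd_pos e he _ hz).ne'
  rw [← e.left_inv hx, ww_eq a b h₀ hs he hz, b.nrm_eq 1 Ω e he _ hz, wl, mul_assoc (n : ℝ)]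
  refine le_trans (le_of_eq ?_) h7
  simp only [norm_pow, zpow_neg, zpow_one, mul_pow, inv_pow]
  field_simp
  ring

theorem ww_pos (hn : 1 ≤ n) (r : B2 n M) (h2 : TRI n M) (he : Hc e)
    (h : ∀ z ∈ e.target, ∀ i, co (-m) (s i) e z = co (-m) s₀ e z * z i)
    (h' : ∀ z ∈ e.target, co (-m) s₀ e z ≠ 0) (hz : z ∈ e.target) :
    (th (1 - 2 * m) (fun x => Real.log (1 + ww m s₀ s x)) e z).PosSemidef := by
  have : Nonempty (Fin n) := ⟨⟨0, hn⟩⟩
  have t0 : ∀ y ∈ e.target, 0 < ((hm e y)⁻¹).trace.re := fun y hy =>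
    (Complex.pos_iff.1 (b.wpos e he y hy).inv.trace_pos).1
  have s1 : ContDiffAt ℝ 2 (fun y => -Real.log (vd e y)) z :=
    (((b.vd_sm e he z hz).log (b.vd_pos e he z hz).ne').of_le two_le).neg
  have s2 : ContDiffAt ℝ 2 (fun y => Real.log (‖co (-m) s₀ e y‖ ^ 2)) z :=
    ((((h₀ e he z hz).contDiffAt (n := 2)).restrict_scalars ℝ).norm_sq ℂ).log
      (pow_ne_zero _ (norm_ne_zero_iff.2 (h' z hz)))
  have s3 : ContDiffAt ℝ 2 (fun y => Real.log ((hm e y)⁻¹).trace.re) z :=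
    ((Complex.reCLM.contDiff.contDiffAt.comp z (P272.K.C2.MC.inv (b.wsm e he z hz)
      (b.wpos e he z hz).det_pos.ne').trace).of_le two_le).log (t0 z hz).ne'
  have e1 : wt (1 - 2 * m) (fun x => Real.log (1 + ww m s₀ s x)) e =ᶠ[𝓝 z] fun y =>
      Real.log (Real.exp ((2 * m : ℕ) * -Real.log (vd e y)) + Real.exp
        ((2 : ℕ) * Real.log (‖co (-m) s₀ e y‖ ^ 2) + Real.log ((hm e y)⁻¹).trace.re)) := by
    filter_upwards [e.open_target.mem_nhds hz] with y hy
    have p1 := b.vd_pos e he y hy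
    have p2 := pow_pos (norm_pos_iff.2 (h' y hy)) 2
    have p3 := t0 y hy
    rw [wt, ww_val a b h₀ hs he h hy, Real.exp_add, Real.exp_log p3,
      Real.exp_nat_mul, Real.exp_nat_mul, Real.exp_log p2, Real.exp_neg, Real.exp_log p1,
      show ((1 - 2 * m : ℤ) - 1 : ℝ) * Real.log (vd e y) = Real.log ((vd e y)⁻¹ ^ (2 * m)) by
        rw [Real.log_pow, Real.log_inv]; push_cast; ring,
      ← Real.log_mul (by positivity) (by positivity), mul_add, mul_one, ← mul_assoc, ← mul_pow,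
      inv_mul_cancel₀ p1.ne', one_pow, one_mul]
  rw [th, P272.K.cHess_congr e1]
  refine lse (contDiffAt_const.mul s1) ((contDiffAt_const.mul s2).add s3) ?_ ?_
  · rw [P272.K.cHess_const_mul _ s1]
    exact (r e he z hz).posSemidef.smul (Complex.zero_le_real.2 (Nat.cast_nonneg _))
  · rw [P272.K.cHess_add (contDiffAt_const.mul s2) s3, P272.K.cHess_const_mul _ s2,
      P272.K.cHess_log_norm_sq (h₀ e he z hz).contDiffAt (h' z hz), smul_zero, zero_add]
    exact h2 e he z hz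

end Wro

open Wro in
/-- **WR** -/
theorem wr (c : Ctx n μ) (a : B1a n M) (b : B1b n M) (r : B2 n M) (h1 : PCX n M)
    (h2 : TRI n M) : WR n M := by
  intro m s₀ s hm h₀ hs _ hJ
  obtain ⟨k1, k2⟩ := h1 m s₀ s hm h₀ hs
  have hw : Sm n fun x => Real.log (1 + ww m s₀ s x) := fun e he z hz =>
    (contDiffAt_const.add (ww_sm a b h₀ hs e he z hz)).log
      (add_pos_of_pos_of_nonneg one_pos (ww_nn a b _)).ne'
  refine ⟨ww m s₀ s, ww_sm a b h₀ hs, ww_nn a b, fun e he z hz => ?_, fun e he z hz => ?_,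
    ⟨n * 324, fun Ω x A hΩ h => ww_up a b h₀ hs c hΩ h⟩, fun x => ?_⟩
  · refine psd_of_freq ((contDiffAt_const.mul ((b.vd_sm e he z hz).log
      (b.vd_pos e he z hz).ne')).add (hw e he z hz) |>.of_le two_le) ?_
    have f1 : ∃ᶠ y in 𝓝 (e.symm z), Jac s₀ s y ≠ 0 := fun h =>
      hJ (a.ident _ _ (VS.Jac_sec a hm h₀ hs) _ (h.mono fun y => not_not.1))
    rw [← e.symm.map_nhds_eq hz, frequently_map] at f1
    refine (f1.and_eventually (e.open_target.eventually_mem hz)).mono fun y hy => ?_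
    obtain ⟨e', he', hy'⟩ := k1 _ hy.1
    have f2 := b.th_ch (1 - 2 * m) _ hw e e' he he'.1 _ (e.map_target hy.2) hy'
    rw [e.right_inv hy.2, th] at f2
    rw [f2]
    exact (ww_pos a b h₀ hs c.npos r h2 he'.1 (fun z hz => (k2 e' he' z hz).2.2)
      (fun z hz => (k2 e' he' z hz).2.1) (e'.map_source hy')).mul_mul_conjTranspose_same
        (jacM e e' (e.symm y)).transpose
  · rw [ww_val a b h₀ hs he.1 (fun z hz => (k2 e he z hz).2.2) hz, b.nrm_eq _ _ e he.1 z hz,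
      neg_neg, zpow_natCast]
    ring
  · by_cases hx : Jac s₀ s x = 0
    · rw [nrm, hx, norm_zero, zero_pow two_ne_zero, zero_mul]
      exact mul_nonneg (mul_nonneg (sq_nonneg _) (zpow_nonneg
        (b.vd_pos _ (a.chart x) _ (mem_chart_target _ x)).le _)) (pow_nonneg (ww_nn a b x) _)
    obtain ⟨e, he, hx'⟩ := k1 x hx
    have hz := e.map_source hx'
    have p1 := b.vd_pos e he.1 _ hz
    have p2 := inv_det_le (b.wpos e he.1 _ hz)
    rw [← e.left_inv hx', ww_val a b h₀ hs he.1 (fun z hz => (k2 e he z hz).2.2) hz,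
      b.nrm_eq _ _ e he.1 _ hz, b.nrm_eq _ _ e he.1 _ hz, (k2 e he _ hz).1, neg_neg, neg_neg,
      zpow_natCast, zpow_natCast, pow_sub₀ _ p1.ne' (Nat.mul_pos hm (by omega)), norm_pow, pow_one]
    calc _ = (‖co (-m) s₀ e (e x)‖ ^ (2 * n + 1)) ^ 2 * vd e (e x) ^ (m * (2 * n + 1)) *
          (vd e (e x))⁻¹ := by ring
      _ ≤ _ * ((P253Z.hm e (e x))⁻¹).trace.re ^ n := mul_le_mul_of_nonneg_left p2 (by positivity)
      _ = _ := by ring

end Vale.Agent.P253Z.T2
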