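import Vale.Agent.P253Z.Main
import Vale.Agent.P253Z.T2.PCX
import Vale.Agent.P253Z.T2.LSE
import Vale.Agent.P253Z.T2.TRI
import Vale.Agent.P253Z.T2.WR
import Vale.Agent.P253Z.T2.FR2
import Vale.Agent.P253Z.T2.HT
import Vale.Agent.P253Z.T2.RAY
import Vale.Agent.P253Z.T2.TAU
import Vale.Agent.P253Z.T2.VOL
import Vale.Agent.P253Z.T2.BND

/-!
# P253Z, T2: the analytic half
-/

open scoped Manifold ContDiff Bundle ENNReal Topology
open Bundle IsManifold MeasureTheory Set Metric Filter Vale.Agent.P253.Mfd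
open Vale.Agent.P272.K (Cm Chart)

noncomputable section

namespace Vale.Agent.P253Z.T2

variable {n : ℕ} {M : Type} [MetricSpace M] [ChartedSpace (Cm n) M]
  [IsManifold 𝓘(ℂ, Cm n) 1 M] [IsManifold 𝓘(ℝ, Cm n) ∞ M]
  [RiemannianBundle (fun x : M => TangentSpace 𝓘(ℝ, Cm n) x)]
  [IsContMDiffRiemannianBundle 𝓘(ℝ, Cm n) ∞ (Cm n) (fun x : M => TangentSpace 𝓘(ℝ, Cm n) x)]
  [IsRiemannianManifold 𝓘(ℝ, Cm n) M] [CompleteSpace M] [ConnectedSpace M] [NoncompactSpace M]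
  [MeasurableSpace M] [BorelSpace M] {μ : Measure M}

theorem bnr_of_ot (c : Ctx n μ) (ho : OT n μ) : BNR n μ := by
  have A := all c
  have a := A.a
  have b := A.b
  have hg := bg c a b
  have h1 := pcx a
  have h2 := lse a b A.r
  exact bnr A (chj a) h1 (tau c A h1 h2 (wr c a b A.r h1 (tri c a b))
    (ht a b A.v (fr2 a b (ctx_wt c) (rb c.kahler a b) (ctx_hj c) (gr a b A.v (ctx_mv c) hg))
      (gen2 a b A.v (ctx_mv c) hg) h2) ho) (vol a b A.v h1) (ray b)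

end Vale.Agent.P253Z.T2
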