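import Mathlib.Analysis.SpecialFunctions.Log.Deriv
import Mathlib.Analysis.SpecialFunctions.SmoothTransition
import Mathlib.Analysis.Complex.Order
import Mathlib.LinearAlgebra.Matrix.PosDef

/-!
# P253Z, T2, block OT: the profiles of the twisted weights
-/

open scoped ContDiff Topology ComplexOrder
open Set Filter

noncomputable section

namespace Vale.Agent.P253Z.T2.Ot

/-- `y = 2 - r - log (r + a)` -/
def yy (a r : ℝ) : ℝ := 2 - r - Real.log (r + a)
/-- `q = - y'` -/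
def qq (a r : ℝ) : ℝ := 1 + (r + a)⁻¹
/-- `p = q + r q'` -/
def pp (a r : ℝ) : ℝ := 1 + a / (r + a) ^ 2
/-- `d = p y + r q²` -/
def dd (a r : ℝ) : ℝ := pp a r * yy a r + r * qq a r ^ 2
/-- the gain `m = p / d` -/
def mm (a r : ℝ) : ℝ := pp a r / dd a r
/-- the profile of the weight -/
def gg (n : ℕ) (a δ r : ℝ) : ℝ := n * Real.log (r + δ) - Real.log (yy a r)
/-- its first derivative -/
def g1 (n : ℕ) (a δ r : ℝ) : ℝ := n * (r + δ)⁻¹ + qq a r / yy a r
/-- its second derivative -/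
def g2 (n : ℕ) (a δ r : ℝ) : ℝ :=
  -(n / (r + δ) ^ 2) - 1 / ((r + a) ^ 2 * yy a r) + qq a r ^ 2 / yy a r ^ 2

variable {n : ℕ} {a δ r : ℝ}

theorem y_lo (h : 0 < r + a) : 3 - 2 * r - a ≤ yy a r := by
  have := Real.log_le_sub_one_of_pos h
  unfold yy; linarith

theorem y_hi (ha : 0 < a) (hr : 0 ≤ r) : yy a r ≤ 2 - Real.log a := by
  have := Real.log_le_log ha (by linarith : a ≤ r + a)
  unfold yy; linarith

theorem y_der (h : 0 < r + a) : HasDerivAt (yy a) (-qq a r) r := by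
  have h1 : HasDerivAt (fun s => Real.log (s + a)) ((r + a)⁻¹) r := by
    simpa using ((hasDerivAt_id r).add_const a).log h.ne'
  refine (((hasDerivAt_id r).const_sub 2).sub h1).congr_deriv ?_
  unfold qq; ring

theorem y_sm (h : 0 < r + a) : ContDiffAt ℝ ∞ (yy a) r :=
  (contDiffAt_const.sub contDiffAt_id).sub ((contDiffAt_id.add contDiffAt_const).log h.ne')

theorem q_der (h : 0 < r + a) : HasDerivAt (qq a) (-(1 / (r + a) ^ 2)) r := by
  have h1 := (((hasDerivAt_id r).add_const a).inv h.ne').const_add 1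
  refine h1.congr_deriv ?_
  simp [neg_div]

theorem q_sm (h : 0 < r + a) : ContDiffAt ℝ ∞ (qq a) r :=
  contDiffAt_const.add ((contDiffAt_id.add contDiffAt_const).inv h.ne')

theorem e_der (h : 0 < r + a) (hy : 0 < yy a r) :
    HasDerivAt (fun s => (yy a s)⁻¹) (qq a r / yy a r ^ 2) r := by
  refine ((y_der h).inv hy.ne').congr_deriv ?_
  rw [neg_neg]

theorem g_sm (h : 0 < r + a) (h' : 0 < r + δ) (hy : 0 < yy a r) : ContDiffAt ℝ ∞ (gg n a δ) r :=
  (contDiffAt_const.mul ((contDiffAt_id.add contDiffAt_const).log h'.ne')).sub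
    ((y_sm h).log hy.ne')

theorem g_der (h : 0 < r + a) (h' : 0 < r + δ) (hy : 0 < yy a r) :
    HasDerivAt (gg n a δ) (g1 n a δ r) r := by
  have h1 : HasDerivAt (fun s => Real.log (s + δ)) ((r + δ)⁻¹) r := by
    simpa using ((hasDerivAt_id r).add_const δ).log h'.ne'
  refine ((h1.const_mul (n : ℝ)).sub ((y_der h).log hy.ne')).congr_deriv ?_
  unfold g1; ring

theorem g1_der (h : 0 < r + a) (h' : 0 < r + δ) (hy : 0 < yy a r) :
    HasDerivAt (g1 n a δ) (g2 n a δ r) r := by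
  have h1 := (((hasDerivAt_id r).add_const δ).inv h'.ne').const_mul (n : ℝ)
  refine (h1.add ((q_der h).div (y_der h) hy.ne')).congr_deriv ?_
  unfold g2
  simp only [id]
  field_simp
  ring

section

variable (ha : 0 < a) (ha1 : a ≤ 1 / 10) (hr : 0 ≤ r) (hr1 : r ≤ 1 / 2)
include ha hr

theorem p_lo : 1 ≤ pp a r := le_add_of_nonneg_right (by positivity)

theorem q_pos : 0 < qq a r := by unfold qq; positivity

include ha1 hr1

theorem y_ge : 3 / 2 ≤ yy a r := by linarith [y_lo (a := a) (r := r) (by linarith)]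

theorem d_pos : 0 < dd a r := by
  have := p_lo ha hr
  have := y_ge ha ha1 hr hr1
  unfold dd; positivity

theorem m_pos : 0 < mm a r := by
  have := p_lo ha hr
  have := d_pos ha ha1 hr hr1
  unfold mm; positivity

theorem m_le : mm a r ≤ (yy a r)⁻¹ := by
  have h1 := p_lo ha hr
  have h2 := y_ge ha ha1 hr hr1
  rw [mm, div_le_iff₀ (d_pos ha ha1 hr hr1), dd, inv_mul_eq_div, le_div_iff₀ (by linarith)]
  nlinarith [mul_nonneg hr (sq_nonneg (qq a r))]

theorem g1_nonneg (hδ : 0 < δ) : 0 ≤ g1 n a δ r := by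
  have := q_pos ha hr
  have := y_ge ha ha1 hr hr1
  unfold g1; positivity

theorem g1_le (hδ : 0 < δ) : r * g1 n a δ r ≤ n + 2 := by
  have h2 := y_ge ha ha1 hr hr1
  have h3 : r * (r + δ)⁻¹ ≤ 1 := by
    rw [← div_eq_mul_inv, div_le_one (by linarith)]; linarith
  have h4 : r * (r + a)⁻¹ ≤ 1 := by
    rw [← div_eq_mul_inv, div_le_one (by linarith)]; linarith
  have h5 : r * (qq a r / yy a r) ≤ 2 := by
    rw [← mul_div_assoc, div_le_iff₀ (by linarith), qq]
    linarith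
  have h6 : (n : ℝ) * (r * (r + δ)⁻¹) ≤ n := mul_le_of_le_one_right n.cast_nonneg h3
  unfold g1; linarith

theorem g2_lo (hδ : 0 < δ) : 1 ≤ yy a r ^ 2 / dd a r * (g1 n a δ r + r * g2 n a δ r) := by
  have h2 := y_ge ha ha1 hr hr1
  have h3 := d_pos ha ha1 hr hr1
  have h4 : 0 < r + a := by linarith
  have h5 : 0 < r + δ := by linarith
  have h6 : 0 < yy a r := by linarith
  have e : g1 n a δ r + r * g2 n a δ r = n * δ / (r + δ) ^ 2 + dd a r / yy a r ^ 2 := by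
    unfold g1 g2 dd pp
    have : qq a r * (r + a) = r + a + 1 := by unfold qq; field_simp
    field_simp
    linear_combination (yy a r * (r + δ) ^ 2 * (r + a)) * this
  have e2 : yy a r ^ 2 / dd a r * (dd a r / yy a r ^ 2) = 1 := by field_simp
  rw [e, mul_add, e2]
  exact le_add_of_nonneg_left (by positivity)

theorem g_nonpos (hδ : 0 < δ) (hδa : δ ≤ a) : gg n a δ r ≤ 0 := by
  have h1 : Real.log (r + δ) ≤ 0 := Real.log_nonpos (by linarith) (by linarith)
  have h2 : 0 ≤ Real.log (yy a r) := Real.log_nonneg (by linarith [y_ge ha ha1 hr hr1])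
  have := mul_nonpos_of_nonneg_of_nonpos (n.cast_nonneg (α := ℝ)) h1
  unfold gg; linarith

theorem m_lo (hn : 1 ≤ n) (hδ : 0 < δ) (hδa : δ ≤ a) : (r + δ) ^ n ≤ 7 * mm a r := by
  have h1 := p_lo ha hr
  have h3 := d_pos ha ha1 hr hr1
  have h4 : 0 < r + a := by linarith
  have h5 : (r + δ) ^ n ≤ r + a :=
    (pow_le_of_le_one (by linarith) (by linarith) (by omega)).trans (by linarith)
  refine h5.trans ?_
  rw [mm, ← mul_div_assoc, le_div_iff₀ h3, dd]
  have h6 : (r + a) * yy a r ≤ 3 := by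
    have h7 := Real.log_le_sub_one_of_pos (inv_pos.2 h4)
    rw [Real.log_inv] at h7
    have h8 := mul_le_mul_of_nonneg_left h7 h4.le
    rw [mul_sub, mul_inv_cancel₀ h4.ne'] at h8
    unfold yy; nlinarith
  have h7 : (r + a) * (r * qq a r ^ 2) ≤ 4 := by
    have e : (r + a) * (r * qq a r ^ 2) = r * (r + a)⁻¹ * (r + a + 1) ^ 2 := by
      unfold qq; field_simp
    have h8 : r * (r + a)⁻¹ ≤ 1 := by
      rw [← div_eq_mul_inv, div_le_one h4]; linarith
    rw [e]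
    refine (mul_le_of_le_one_left (sq_nonneg _) h8).trans ?_
    nlinarith
  nlinarith

omit hr1 in
theorem rq_le (hra : r ≤ a) : r * qq a r ^ 2 ≤ 3 / 2 * pp a r := by
  have h4 : 0 < r + a := by linarith
  have e : r * qq a r ^ 2 = r * (r + a + 1) ^ 2 / (r + a) ^ 2 := by unfold qq; field_simp
  have h5 : r * (r + a + 1) ^ 2 ≤ a * (3 / 2) :=
    mul_le_mul hra (by nlinarith) (sq_nonneg _) ha.le
  have h6 : r * (r + a + 1) ^ 2 / (r + a) ^ 2 ≤ a * (3 / 2) / (r + a) ^ 2 := by gcongr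
  have e2 : 3 / 2 * pp a r = 3 / 2 + a * (3 / 2) / (r + a) ^ 2 := by unfold pp; ring
  rw [e, e2]; linarith

omit hr1 in
theorem m_lo' (hra : r ≤ a) : 1 ≤ (4 - Real.log a) * mm a r := by
  have hr1 : r ≤ 1 / 2 := by linarith
  have h1 := p_lo ha hr
  rw [mm, ← mul_div_assoc, le_div_iff₀ (d_pos ha ha1 hr hr1), dd]
  nlinarith [rq_le ha ha1 hr hra, y_hi ha hr]

/-- the inequality which absorbs the error term -/
theorem key (U W : ℂ) (hW : W ≠ 0 → r ≤ a) :
    r * (yy a r ^ 2 / dd a r) * ‖((yy a r)⁻¹ : ℝ) * W + (qq a r / yy a r ^ 2 : ℝ) * U‖ ^ 2 ≤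
      (((yy a r)⁻¹ - mm a r / 3) * ‖U‖ ^ 2 + 8 * a ^ 2 * ‖W‖ ^ 2) * (yy a r)⁻¹ := by
  have h1 := p_lo ha hr
  have h2 := y_ge ha ha1 hr hr1
  have h3 := d_pos ha ha1 hr hr1
  have h4 := q_pos ha hr
  have h5 := m_pos ha ha1 hr hr1
  have h6 : 0 < yy a r := by linarith
  have e : r * (yy a r ^ 2 / dd a r) * (qq a r / yy a r ^ 2) ^ 2 =
      ((yy a r)⁻¹ - mm a r) * (yy a r)⁻¹ := by
    unfold mm
    field_simp
    unfold dd
    ring
  have n1 : ‖((qq a r / yy a r ^ 2 : ℝ) : ℂ) * U‖ = qq a r / yy a r ^ 2 * ‖U‖ := by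
    rw [norm_mul, Complex.norm_real, Real.norm_of_nonneg (by positivity)]
  have n2 : ‖(((yy a r)⁻¹ : ℝ) : ℂ) * W‖ = (yy a r)⁻¹ * ‖W‖ := by
    rw [norm_mul, Complex.norm_real, Real.norm_of_nonneg (by positivity)]
  by_cases h : W = 0
  · rw [h, mul_zero, zero_add, n1, mul_pow, ← mul_assoc, e, norm_zero]
    have : 0 ≤ mm a r * ‖U‖ ^ 2 * (yy a r)⁻¹ := by positivity
    nlinarith
  have hra := hW h
  have k1 : ‖(((yy a r)⁻¹ : ℝ) : ℂ) * W + (qq a r / yy a r ^ 2 : ℝ) * U‖ ^ 2 ≤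
      2 * ((yy a r)⁻¹ * ‖W‖) ^ 2 + 2 * (qq a r / yy a r ^ 2 * ‖U‖) ^ 2 := by
    have := pow_le_pow_left₀ (norm_nonneg _) (norm_add_le ((((yy a r)⁻¹ : ℝ) : ℂ) * W)
      ((qq a r / yy a r ^ 2 : ℝ) * U)) 2
    rw [n1, n2] at this
    nlinarith [sq_nonneg ((yy a r)⁻¹ * ‖W‖ - qq a r / yy a r ^ 2 * ‖U‖)]
  have k2 : (yy a r)⁻¹ ≤ 5 / 3 * mm a r := by
    have := y_lo (a := a) (r := r) (by linarith)
    rw [mm, ← mul_div_assoc, le_div_iff₀ h3, dd, inv_mul_eq_div, div_le_iff₀ h6]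
    nlinarith [rq_le ha ha1 hr hra]
  have k3 : r * (yy a r ^ 2 / dd a r) * (yy a r)⁻¹ ≤ 4 * a ^ 2 := by
    have e2 : r * (yy a r ^ 2 / dd a r) * (yy a r)⁻¹ = r * yy a r / dd a r := by field_simp
    have k4 : r ≤ 4 * a ^ 2 * pp a r := by
      have k5 : 1 / (4 * a) ≤ a / (r + a) ^ 2 := by
        rw [div_le_div_iff₀ (by positivity) (by positivity)]
        nlinarith
      have k6 : 4 * a ^ 2 * (1 / (4 * a)) = a := by field_simp
      have := mul_le_mul_of_nonneg_left k5 (by positivity : 0 ≤ 4 * a ^ 2)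
      unfold pp; nlinarith
    rw [e2, div_le_iff₀ h3, dd]
    nlinarith [mul_le_mul_of_nonneg_right k4 h6.le, mul_nonneg hr (sq_nonneg (qq a r)),
      sq_nonneg a]
  calc _ ≤ r * (yy a r ^ 2 / dd a r) *
        (2 * ((yy a r)⁻¹ * ‖W‖) ^ 2 + 2 * (qq a r / yy a r ^ 2 * ‖U‖) ^ 2) := by gcongr
    _ = (2 * ((yy a r)⁻¹ - mm a r) * ‖U‖ ^ 2 +
        2 * (r * (yy a r ^ 2 / dd a r) * (yy a r)⁻¹) * ‖W‖ ^ 2) * (yy a r)⁻¹ := by
        linear_combination (2 * ‖U‖ ^ 2) * e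
    _ ≤ _ := by gcongr (?_ * _ + ?_ * _) * _ <;> linarith

end

/-- the two matrix inequalities -/
theorem mat {T H B : Matrix (Fin n) (Fin n) ℂ} {N t G1 G2 k : ℝ} (hN : 0 < N) (ht : 0 ≤ t)
    (hT : T.PosSemidef) (hX : ((N : ℂ) • H + (t : ℂ) • T).PosSemidef)
    (hY : ((t : ℂ) • ((N : ℂ) • H + (t : ℂ) • T) - (N : ℂ) • B).PosSemidef) (hB : B.PosSemidef)
    (h0 : 0 ≤ G1) (h1 : t * G1 ≤ N) (hk : 0 < k) (h2 : 1 ≤ k * (G1 + t * G2)) :
    (T + (G1 : ℂ) • H + (G2 : ℂ) • B).PosSemidef ∧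
      (((t * k : ℝ) : ℂ) • (T + (G1 : ℂ) • H + (G2 : ℂ) • B) - B).PosSemidef := by
  have z : ∀ {x : ℝ}, 0 ≤ x → (0 : ℂ) ≤ x := fun h => Complex.zero_le_real.2 h
  have hN' : (N : ℂ) ≠ 0 := Complex.ofReal_ne_zero.2 hN.ne'
  have c1 : 0 ≤ 1 - t * G1 / N := sub_nonneg.2 ((div_le_one hN).2 h1)
  have c2 : 0 ≤ G1 + t * G2 := ((mul_pos_iff_of_pos_left hk).1 (zero_lt_one.trans_le h2)).le
  constructor
  · rcases le_total 0 G2 with h | h
    · convert ((hT.smul (z c1)).add (hX.smul (z (div_nonneg h0 hN.le)))).add (hB.smul (z h))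
        using 1
      match_scalars <;> (field_simp; try ring)
    · convert ((hT.smul (z c1)).add (hX.smul (z (div_nonneg c2 hN.le)))).add
        (hY.smul (z (div_nonneg (neg_nonneg.2 h) hN.le))) using 1
      match_scalars <;> (field_simp; try ring)
  · convert ((hT.smul (z (mul_nonneg (mul_nonneg ht hk.le) c1))).add
      (hY.smul (z (div_nonneg (mul_nonneg hk.le h0) hN.le)))).add
      (hB.smul (z (sub_nonneg.2 h2))) using 1
    match_scalars <;> (field_simp; try ring)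

/-- the cut-off function -/
theorem exists_chi : ∃ K : ℝ, 0 < K ∧ ∀ a : ℝ, 0 < a → ∃ χ χ' : ℝ → ℝ, ContDiff ℝ ∞ χ ∧
    ContDiff ℝ ∞ χ' ∧ (∀ r, HasDerivAt χ (χ' r) r) ∧ (∀ r, |χ r| ≤ 1) ∧
    (∀ r, |χ' r| ≤ K / a) ∧ (∀ r, r ≤ a / 2 → χ r = 1) ∧ (∀ r, a ≤ r → χ r = 0) ∧
    (∀ r, r < a / 2 → χ' r = 0) ∧ ∀ r, a < r → χ' r = 0 := by
  set f := Real.smoothTransition
  have hf : ContDiff ℝ ∞ f := Real.smoothTransition.contDiff
  have hf' : ContDiff ℝ ∞ (deriv f) := hf.iterate_deriv 1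
  have z1 : ∀ s, s < 0 → deriv f s = 0 := fun s hs => by
    rw [(show f =ᶠ[𝓝 s] fun _ => 0 by
      filter_upwards [Iio_mem_nhds hs] with y hy
      exact Real.smoothTransition.zero_of_nonpos (le_of_lt hy)).deriv_eq, deriv_const]
  have z2 : ∀ s, 1 < s → deriv f s = 0 := fun s hs => by
    rw [(show f =ᶠ[𝓝 s] fun _ => 1 by
      filter_upwards [Ioi_mem_nhds hs] with y hy
      exact Real.smoothTransition.one_of_one_le (le_of_lt hy)).deriv_eq, deriv_const]
  obtain ⟨K, hK⟩ := (isCompact_Icc (a := (0 : ℝ)) (b := 1)).exists_bound_of_continuousOn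
    hf'.continuous.continuousOn
  have K0 : 0 ≤ K := (norm_nonneg _).trans (hK 0 ⟨le_rfl, zero_le_one⟩)
  have hK' : ∀ s, |deriv f s| ≤ K := fun s => by
    rcases lt_or_ge s 0 with h | h
    · rwa [z1 s h, abs_zero]
    rcases lt_or_ge 1 s with h' | h'
    · rwa [z2 s h', abs_zero]
    exact hK s ⟨h, h'⟩
  refine ⟨2 * K + 1, by positivity, fun a ha => ⟨fun r => f (2 - 2 / a * r),
    fun r => deriv f (2 - 2 / a * r) * -(2 / a), hf.comp (by fun_prop),
    (hf'.comp (by fun_prop)).mul contDiff_const, fun r => ?_, fun r => ?_, fun r => ?_,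
    fun r hr => ?_, fun r hr => ?_, fun r hr => ?_, fun r hr => ?_⟩⟩
  · have h1 : HasDerivAt (fun r : ℝ => 2 - 2 / a * r) (-(2 / a)) r := by
      simpa using ((hasDerivAt_id r).const_mul (2 / a)).const_sub 2
    exact (hf.differentiable (by simp) _).hasDerivAt.comp r h1
  · rw [abs_of_nonneg (Real.smoothTransition.nonneg _)]
    exact Real.smoothTransition.le_one _
  · rw [abs_mul, abs_neg, abs_of_pos (by positivity : 0 < 2 / a)]
    calc _ ≤ K * (2 / a) := by gcongr; exact hK' _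
      _ = 2 * K / a := by ring
      _ ≤ _ := by gcongr; linarith
  · refine Real.smoothTransition.one_of_one_le ?_
    have : 2 / a * r ≤ 2 / a * (a / 2) := by gcongr
    have e : 2 / a * (a / 2) = 1 := by field_simp
    linarith
  · refine Real.smoothTransition.zero_of_nonpos ?_
    have : 2 / a * a ≤ 2 / a * r := by gcongr
    have e : 2 / a * a = 2 := by field_simp
    linarith
  · have : 2 / a * r < 2 / a * (a / 2) := by gcongr
    have e : 2 / a * (a / 2) = 1 := by field_simp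
    simp only
    rw [z2 _ (by linarith), zero_mul]
  · have : 2 / a * a < 2 / a * r := by gcongr
    have e : 2 / a * a = 2 := by field_simp
    simp only
    rw [z1 _ (by linarith), zero_mul]

end Vale.Agent.P253Z.T2.Ot
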