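import Vale.Agent.P253Z.HJ
import Vale.Agent.P253Z.BER

/-!
# P253Z, T2, block OT: the orthogonal projection and the twisted estimate
-/

open scoped Manifold ContDiff Bundle ENNReal Topology ComplexConjugate ComplexOrder
open Bundle IsManifold MeasureTheory Set Metric Filter Vale.Agent.P253.Mfd
open Vale.Agent.P272.K (Cm dz dzb cHess jacM Chart)
open Vale.Agent.P272.K.C2

noncomputable section

namespace Vale.Agent.P253Z.T2.Ot

open HJ

theorem exists_proj {W : Type} [AddCommGroup W] [Module ℂ W] (c : InnerProductSpace.Core ℂ W)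
    (U : Submodule ℂ W) [Module.Finite ℂ U] (w : W) : ∃ u ∈ U, ∀ s ∈ U,
      c.inner (w - u + s) (w - u + s) = c.inner (w - u - s) (w - u - s) := by
  let _ : NormedAddCommGroup W := @InnerProductSpace.Core.toNormedAddCommGroup ℂ W _ _ _ c
  let _ : InnerProductSpace ℂ W := InnerProductSpace.ofCore c.toCore
  have : CompleteSpace U := FiniteDimensional.complete ℂ U
  obtain ⟨u, hu, h⟩ := Submodule.HasOrthogonalProjection.exists_orthogonal (K := U) w
  refine ⟨u, hu, fun s hs => ?_⟩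
  change inner ℂ (w - u + s) (w - u + s) = inner ℂ (w - u - s) (w - u - s)
  generalize w - u = x at h ⊢
  rw [inner_add_add_self, inner_sub_sub_self, Submodule.inner_right_of_mem_orthogonal hs h,
    Submodule.inner_left_of_mem_orthogonal hs h]
  ring

variable {n : ℕ} {M : Type} [MetricSpace M] [ChartedSpace (Cm n) M]

theorem co_mulf (k : ℤ) (f s : M → ℂ) (e : Chart n M) :
    co k (fun x => f x * s x) e = fun z => f (e.symm z) * co k s e z := by
  funext z
  simp only [co]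
  ring

theorem smSec_add {k : ℤ} {s t : M → ℂ} (hs : SmSec n k s) (ht : SmSec n k t) :
    SmSec n k (s + t) := fun e he z hz => by
  have : co k (s + t) e = fun z => co k s e z + co k t e z := by
    funext z; simp only [co, Pi.add_apply, mul_add]
  rw [this]
  exact (hs e he z hz).add (ht e he z hz)

theorem smSec_mulf {k : ℤ} {t : M → ℝ} {F : ℝ → ℝ} {s : M → ℂ} (ht : Sm n t)
    (hF : ∀ x, ContDiffAt ℝ ∞ F (t x)) (hs : SmSec n k s) :
    SmSec n k fun x => (F (t x) : ℂ) * s x := fun e he z hz => by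
  rw [co_mulf]
  exact (contDiffAt_ofReal ((hF _).comp z (ht e he z hz))).mul (hs e he z hz)

variable [RiemannianBundle (fun x : M => TangentSpace 𝓘(ℝ, Cm n) x)]

theorem nrm_mulf (k : ℤ) (f s : M → ℂ) (x : M) :
    nrm n k (fun x => f x * s x) x = ‖f x‖ ^ 2 * nrm n k s x := by
  simp only [nrm, norm_mul]
  ring

variable [MeasurableSpace M] {μ : Measure M}

theorem l2_le {k : ℤ} {ψ ψ' : M → ℝ} {s s' : M → ℂ} {c : ℝ} (hc : 0 ≤ c)
    (h : ∀ x, nrm n k s x * Real.exp (-ψ x) ≤ c * (nrm n k s' x * Real.exp (-ψ' x))) :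
    L2 n μ k ψ s ≤ ENNReal.ofReal c * L2 n μ k ψ' s' := by
  rw [L2, L2, ← lintegral_const_mul' _ _ ENNReal.ofReal_ne_top]
  refine lintegral_mono fun x => ?_
  rw [← ENNReal.ofReal_mul hc]
  exact ENNReal.ofReal_le_ofReal (h x)

theorem l2_lt {k : ℤ} {ψ ψ' : M → ℝ} {s s' : M → ℂ} {c : ℝ} (hc : 0 ≤ c)
    (h : ∀ x, nrm n k s x * Real.exp (-ψ x) ≤ c * (nrm n k s' x * Real.exp (-ψ' x)))
    (h' : L2 n μ k ψ' s' < ⊤) : L2 n μ k ψ s < ⊤ :=
  (l2_le hc h).trans_lt (ENNReal.mul_lt_top ENNReal.ofReal_lt_top h')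

theorem l2_add_lt (v : B3 n μ) {k : ℤ} {ψ : M → ℝ} {s t : M → ℂ} (hψ : Continuous ψ)
    (hs : SmSec n k s) (ht : SmSec n k t) (h1 : L2 n μ k ψ s < ⊤) (h2 : L2 n μ k ψ t < ⊤) :
    L2 n μ k ψ (s + t) < ⊤ :=
  (v.add k ψ s t hψ hs ht).trans_lt (ENNReal.add_lt_top.2
    ⟨ENNReal.mul_lt_top ENNReal.ofNat_lt_top h1, ENNReal.mul_lt_top ENNReal.ofNat_lt_top h2⟩)

/-- smooth square integrable sections -/
def sl (v : B3 n μ) (k : ℤ) {ψ : M → ℝ} (hψ : Continuous ψ) : Submodule ℂ (M → ℂ) where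
  carrier := {s | SmSec n k s ∧ L2 n μ k ψ s < ⊤}
  zero_mem' := ⟨fun e _ z _ => by
    have : co k (0 : M → ℂ) e = fun _ => 0 := by funext z; simp [co]
    rw [this]; exact contDiffAt_const, by simp [L2, nrm]⟩
  add_mem' := fun hs ht => ⟨smSec_add hs.1 ht.1, l2_add_lt v hψ hs.1 ht.1 hs.2 ht.2⟩
  smul_mem' := fun c s hs => ⟨fun e he z hz => by
    have : co k (c • s) e = fun z => c * co k s e z := co_mulf k (fun _ => c) s e
    rw [this]; exact contDiffAt_const.mul (hs.1 e he z hz),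
    l2_lt (sq_nonneg ‖c‖) (fun x => by
      rw [← mul_assoc, ← nrm_mulf k (fun _ => c) s x]; rfl) hs.2⟩

variable [BorelSpace M]

theorem meas (b : B1b n M) {k : ℤ} {ψ : M → ℝ} (hψ : Continuous ψ) {s : M → ℂ}
    (hs : SmSec n k s) {F : M → ℝ} (hF : Continuous F) :
    Measurable fun x => ENNReal.ofReal (F x * (nrm n k s x * Real.exp (-ψ x))) :=
  (hF.mul ((b.nrm_cont k s hs).mul (Real.continuous_exp.comp hψ.neg))).measurable.ennreal_ofReal

/-- the orthogonal projection to a finite dimensional space of sections -/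
theorem proj (a : B1a n M) (b : B1b n M) (v : B3 n μ) {k : ℤ} {ψ : M → ℝ} (hψ : Continuous ψ)
    (V : Submodule ℂ (M → ℂ)) [Module.Finite ℂ V] (hV : V ≤ sl v k hψ) {s₀ : M → ℂ}
    (h₀ : s₀ ∈ sl v k hψ) :
    ∃ h ∈ V, ∀ s ∈ V, L2 n μ k ψ (s₀ - h + s) = L2 n μ k ψ (s₀ - h - s) := by
  set ρ : M → ℝ := fun x => vd (chartAt (Cm n) x) (chartAt (Cm n) x x) ^ (-k) * Real.exp (-ψ x)
    with hρ
  have ρ0 : ∀ x, 0 < ρ x := fun x =>
    mul_pos (zpow_pos (b.vd_pos _ (a.chart x) _ (mem_chart_target _ x)) _) (Real.exp_pos _)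
  set N : (M → ℂ) → M → ℝ := fun s x => nrm n k s x * Real.exp (-ψ x) with hN
  have e : ∀ s x, N s x = ‖s x‖ ^ 2 * ρ x := fun _ _ => mul_assoc _ _ _
  have n0 : ∀ s x, 0 ≤ N s x := fun s x => by rw [e]; exact mul_nonneg (sq_nonneg _) (ρ0 x).le
  have nc : ∀ s : sl v k hψ, Continuous (N s.1) := fun s =>
    (b.nrm_cont _ _ s.2.1).mul (Real.continuous_exp.comp hψ.neg)
  have ni : ∀ s : sl v k hψ, Integrable (fun x => ‖s.1 x‖ ^ 2 * ρ x) μ := fun s => by
    simp only [← e]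
    exact ⟨(nc s).aestronglyMeasurable,
      (hasFiniteIntegral_iff_ofReal (Eventually.of_forall (n0 _))).2 s.2.2⟩
  have hi : ∀ s t : sl v k hψ, Integrable (fun x => conj (s.1 x) * t.1 x * ρ x) μ := fun s t => by
    simp only [Ber.polar]
    exact (((ni (s + t)).ofReal.sub (ni (s + (-1 : ℂ) • t)).ofReal).add
      (((ni (s + (-Complex.I) • t)).ofReal.sub (ni (s + Complex.I • t)).ofReal).const_mul
        Complex.I)).div_const 4
  have hs : ∀ s : sl v k hψ, ∫ x, conj (s.1 x) * s.1 x * ρ x ∂μ =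
      ((∫ x, N s.1 x ∂μ : ℝ) : ℂ) := fun s => by
    rw [← integral_complex_ofReal]
    refine integral_congr_ae (Eventually.of_forall fun x => ?_)
    simp only [e, Complex.conj_mul']
    push_cast
    rfl
  have ni' : ∀ s : sl v k hψ, Integrable (N s.1) μ := fun s => by
    have := ni s
    simp only [← e] at this
    exact this
  let c : InnerProductSpace.Core ℂ (sl v k hψ) :=
    { inner := fun s t => ∫ x, conj (s.1 x) * t.1 x * ρ x ∂μ
      conj_inner_symm := fun s t => by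
        rw [← integral_conj]
        refine integral_congr_ae (Eventually.of_forall fun x => ?_)
        simp only [map_mul, Complex.conj_conj, Complex.conj_ofReal]
        ring
      re_inner_nonneg := fun s => by
        rw [hs]
        exact integral_nonneg (n0 _)
      add_left := fun s t u => by
        rw [← integral_add (hi s u) (hi t u)]
        refine integral_congr_ae (Eventually.of_forall fun x => ?_)
        simp only [Submodule.coe_add, Pi.add_apply, map_add]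
        ring
      smul_left := fun s t r => by
        rw [← integral_const_mul]
        refine integral_congr_ae (Eventually.of_forall fun x => ?_)
        simp only [Submodule.coe_smul, Pi.smul_apply, smul_eq_mul, map_mul]
        ring
      definite := fun s h => by
        rw [hs, Complex.ofReal_eq_zero, integral_eq_zero_iff_of_nonneg (n0 _) (ni' s)] at h
        ext x
        by_contra hx
        have h1 : IsOpen {x | N s.1 x ≠ 0} := isOpen_ne_fun (nc s) continuous_const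
        refine (v.pos _ h1 ⟨x, ?_⟩).ne' h
        rw [mem_ofPred_eq, e]
        exact (mul_pos (pow_pos (norm_pos_iff.2 hx) 2) (ρ0 x)).ne' }
  have : Module.Finite ℂ (V.comap (sl v k hψ).subtype) :=
    Module.Finite.equiv (Submodule.comapSubtypeEquivOfLe hV).symm
  obtain ⟨u, hu, H⟩ := exists_proj c (V.comap (sl v k hψ).subtype) ⟨s₀, h₀⟩
  refine ⟨u.1, hu, fun s hs' => ?_⟩
  have h2 : ∀ s : sl v k hψ, L2 n μ k ψ s.1 = ENNReal.ofReal (c.inner s s).re := fun s => by
    have h3 : c.inner s s = _ := hs s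
    rw [h3, Complex.ofReal_re]
    exact (ofReal_integral_eq_lintegral_ofReal (ni' s) (Eventually.of_forall (n0 _))).symm
  have h1 := H ⟨s, hV hs'⟩ hs'
  have h3 := h2 (⟨s₀, h₀⟩ - u + ⟨s, hV hs'⟩)
  have h4 := h2 (⟨s₀, h₀⟩ - u - ⟨s, hV hs'⟩)
  rw [h1, ← h4] at h3
  simpa only [Submodule.coe_add, Submodule.coe_sub] using h3

theorem tw_pt (U S : ℂ) {y : ℝ} (hy : 0 < y) : 2 * (y⁻¹ * ‖U‖ ^ 2) + ‖U - S‖ ^ 2 ≤
    2 * (‖S - (y⁻¹ : ℝ) * U‖ ^ 2 * y) + ‖U + S‖ ^ 2 := by
  have e : 2 * (‖S - (y⁻¹ : ℝ) * U‖ ^ 2 * y) + ‖U + S‖ ^ 2 =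
      2 * (y⁻¹ * ‖U‖ ^ 2) + ‖U - S‖ ^ 2 + 2 * (‖S‖ ^ 2 * y) := by
    simp only [← Complex.normSq_eq_norm_sq, Complex.normSq_apply, Complex.sub_re, Complex.sub_im,
      Complex.add_re, Complex.add_im, Complex.re_ofReal_mul, Complex.im_ofReal_mul]
    field_simp
    ring
  rw [e]
  exact le_add_of_nonneg_right (by positivity)

/-- the twisted minimality -/
theorem twist (a : B1a n M) (b : B1b n M) {k : ℤ} {ψ ψ' y : M → ℝ} (hψ : Continuous ψ)
    (hy : ∀ x, 0 < y x) (he : ∀ x, Real.exp (-ψ' x) = y x * Real.exp (-ψ x)) {u s : M → ℂ}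
    (hu : SmSec n k u) (hs : SmSec n k s) (h1 : L2 n μ k ψ (u + s) = L2 n μ k ψ (u - s))
    (h2 : L2 n μ k ψ (u - s) < ⊤) :
    ∫⁻ x, ENNReal.ofReal ((y x)⁻¹ * (nrm n k u x * Real.exp (-ψ x))) ∂μ ≤
      L2 n μ k ψ' (s - fun x => (((y x)⁻¹ : ℝ) : ℂ) * u x) := by
  have m1 := meas b hψ (smSec_sub hu hs) (continuous_const (y := (1 : ℝ)))
  have m2 := meas b hψ (smSec_add hu hs) (continuous_const (y := (1 : ℝ)))
  simp only [one_mul] at m1 m2
  have two : (2 : ℝ≥0∞) ≠ ⊤ := ENNReal.ofNat_ne_top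
  have h3 : 2 * ∫⁻ x, ENNReal.ofReal ((y x)⁻¹ * (nrm n k u x * Real.exp (-ψ x))) ∂μ +
      L2 n μ k ψ (u - s) ≤ 2 * L2 n μ k ψ' (s - fun x => (((y x)⁻¹ : ℝ) : ℂ) * u x) +
      L2 n μ k ψ (u + s) := by
    simp only [L2]
    rw [← lintegral_const_mul' _ _ two, ← lintegral_const_mul' _ _ two,
      ← lintegral_add_right _ m1, ← lintegral_add_right _ m2]
    refine lintegral_mono fun x => ?_
    have z := fun s => nrm_nonneg a b k s x
    have y0 := hy x
    have p : ∀ {A B : ℝ}, 0 ≤ A → 0 ≤ B →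
        2 * ENNReal.ofReal A + ENNReal.ofReal B = ENNReal.ofReal (2 * A + B) := fun hA hB => by
      rw [ENNReal.ofReal_add (by positivity) hB, ENNReal.ofReal_mul zero_le_two,
        ENNReal.ofReal_ofNat]
    rw [p (mul_nonneg (inv_pos.2 y0).le (mul_nonneg (z _) (Real.exp_pos _).le))
      (mul_nonneg (z _) (Real.exp_pos _).le), p (mul_nonneg (z _) (Real.exp_pos _).le)
      (mul_nonneg (z _) (Real.exp_pos _).le)]
    refine ENNReal.ofReal_le_ofReal ?_
    have ρ0 : 0 ≤ vd (chartAt (Cm n) x) (chartAt (Cm n) x x) ^ (-k) * Real.exp (-ψ x) :=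
      (mul_pos (zpow_pos (b.vd_pos _ (a.chart x) _ (mem_chart_target _ x)) _) (Real.exp_pos _)).le
    have := mul_le_mul_of_nonneg_right (tw_pt (u x) (s x) y0) ρ0
    simp only [nrm, he, Pi.sub_apply, Pi.add_apply]
    linarith
  rw [h1] at h3
  exact (ENNReal.mul_le_mul_iff_right two_ne_zero two).1
    ((ENNReal.add_le_add_iff_right h2.ne).1 h3)

end Vale.Agent.P253Z.T2.Ot
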