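import Vale.Agent.P253Z.T2.OTd
import Vale.Agent.P253Z.T2.OT1
import Vale.Agent.P253Z.T2.OT2

/-!
# P253Z, T2, block OT: the estimate with gain for the minimal solution
-/

open scoped Manifold ContDiff Bundle ENNReal Topology ComplexConjugate ComplexOrder
open Bundle IsManifold MeasureTheory Set Metric Filter Vale.Agent.P253.Mfd
open Vale.Agent.P272.K (Cm dz dzb cHess jacM Chart)
open Vale.Agent.P272.K.C2

noncomputable section

namespace Vale.Agent.P253Z.T2.Ot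

open HJ

variable {n : ℕ} {M : Type} [MetricSpace M] [ChartedSpace (Cm n) M]

theorem bb_psd (g : Cm n → ℂ) (z : Cm n) : (bb g z).PosSemidef := by
  have := rad_psd (α := 0) (β := 1) (fun j => dzb j g z) le_rfl (by
    rw [zero_add, one_mul]; exact nsq_nonneg _)
  rwa [Complex.ofReal_zero, zero_smul, zero_add, Complex.ofReal_one, one_smul] at this

theorem bb_smul {g t : Cm n → ℂ} {z : Cm n} {c : ℂ} (h : ∀ j, dzb j g z = c * dzb j t z) :
    bb g z = ((‖c‖ ^ 2 : ℝ) : ℂ) • bb t z := by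
  ext j l
  simp only [bb, Matrix.of_apply, h, Matrix.smul_apply, smul_eq_mul, map_mul,
    ← Complex.normSq_eq_norm_sq, Complex.normSq_eq_conj_mul_self]
  ring

/-- the weight with a regularised pole -/
def ph (n : ℕ) (φ t : M → ℝ) (δ : ℝ) (x : M) : ℝ := φ x + n * Real.log (t x + δ)

omit [MetricSpace M] [ChartedSpace (Cm n) M] in
theorem exp_ph (φ : M → ℝ) {t : M → ℝ} {δ : ℝ} {x : M} (h : 0 < t x + δ) :
    Real.exp (-ph n φ t δ x) = ((t x + δ) ^ n)⁻¹ * Real.exp (-φ x) := by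
  rw [ph, neg_add, Real.exp_add, Real.exp_neg (n * _), Real.exp_nat_mul, Real.exp_log h, mul_comm]

variable [RiemannianBundle (fun x : M => TangentSpace 𝓘(ℝ, Cm n) x)]

theorem th_comp (b : B1b n M) {k : ℤ} {φ t : M → ℝ} (hφ : Sm n φ) (ht : Sm n t)
    {G G1 : ℝ → ℝ} {G2 : ℝ} {e : Chart n M} (he : Hc e) {z : Cm n} (hz : z ∈ e.target)
    (h0 : ContDiffAt ℝ ∞ G (t (e.symm z)))
    (h1 : ∀ᶠ s in 𝓝 (t (e.symm z)), HasDerivAt G (G1 s) s) (h2 : HasDerivAt G1 G2 (t (e.symm z))) :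
    th k (fun x => φ x + G (t x)) e z = th k φ e z +
      ((G1 (t (e.symm z)) : ℝ) : ℂ) • cHess (fun y => t (e.symm y)) z +
      (G2 : ℂ) • bb (fun y => ((t (e.symm y) : ℝ) : ℂ)) z := by
  have e1 : wt k (fun x => φ x + G (t x)) e = fun y => wt k φ e y + G (t (e.symm y)) := by
    funext y; simp only [wt]; ring
  have h3 := ht e he z hz
  have h4 : ContDiffAt ℝ ∞ (fun y => G (t (e.symm y))) z := h0.comp z h3
  rw [th, e1, cHess_add ((wt_sm b k hφ he hz).of_le two_le) (h4.of_le two_le), add_assoc, th]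
  congr 1
  ext j l
  rw [cHess_comp (u := fun y => t (e.symm y)) h1 h2 (h3.of_le two_le),
    dz_real j (h3.differentiableAt (by simp))]
  simp only [bb, Matrix.add_apply, Matrix.smul_apply, smul_eq_mul, Matrix.of_apply]

/-- the curvature of the twisted weight -/
theorem curv (b : B1b n M) {k : ℤ} {φ t : M → ℝ} (hφ : Sm n φ) (ht : Sm n t)
    (h01 : ∀ x, 0 ≤ t x ∧ t x ≤ 1 / 2) (hc : Curv n k φ t) {α δ : ℝ} (ha : 0 < α)
    (ha1 : α ≤ 1 / 10) (hδ : 0 < δ) {e : Chart n M} (he : Hc e) {z : Cm n} (hz : z ∈ e.target) :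
    (th k (fun x => φ x + gg n α δ (t x)) e z).PosSemidef ∧
      (((t (e.symm z) * (yy α (t (e.symm z)) ^ 2 / dd α (t (e.symm z))) : ℝ) : ℂ) •
        th k (fun x => φ x + gg n α δ (t x)) e z -
        bb (fun y => ((t (e.symm y) : ℝ) : ℂ)) z).PosSemidef := by
  obtain ⟨r0, r1⟩ := h01 (e.symm z)
  have y0 := y_ge ha ha1 r0 r1
  have y1 : 0 < yy α (t (e.symm z)) := by linarith
  have d0 := d_pos ha ha1 r0 r1
  have p1 : 0 < t (e.symm z) + α := by linarith
  have p2 : 0 < t (e.symm z) + δ := by linarith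
  rw [th_comp b hφ ht he hz (g_sm p1 p2 y1) (G1 := g1 n α δ) ?_ (g1_der p1 p2 y1)]
  · obtain ⟨c1, c2, c3⟩ := hc e he z hz
    exact mat (by positivity) r0 c1 c2 c3 (bb_psd _ _) (g1_nonneg ha ha1 r0 r1 hδ)
      (g1_le ha ha1 r0 r1 hδ) (by positivity) (g2_lo ha ha1 r0 r1 hδ)
  · filter_upwards [Ioo_mem_nhds (show -min α δ < t (e.symm z) by
      linarith [lt_min ha hδ]) (show t (e.symm z) < 1 by linarith)] with s hs
    have q1 : 0 < s + α := by linarith [hs.1, min_le_left α δ]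
    exact g_der q1 (by linarith [hs.1, min_le_right α δ]) (by linarith [y_lo q1, hs.2])

variable [MeasurableSpace M] [BorelSpace M] {μ : Measure M}

/-- the estimate of Chen -/
theorem chen (a : B1a n M) (b : B1b n M) (v : B3 n μ) (h : HOR n μ) {k : ℤ} {φ t : M → ℝ}
    {V : Submodule ℂ (M → ℂ)} (hφ : Sm n φ) (ht : Sm n t) (h01 : ∀ x, 0 ≤ t x ∧ t x ≤ 1 / 2)
    (hc : Curv n k φ t) (hV : ∀ s, s ∈ V ↔ IsSec n k s ∧ L2 n μ k φ s < ⊤) [Module.Finite ℂ V]
    {α δ : ℝ} (ha : 0 < α) (ha1 : α ≤ 1 / 10) (hδ : 0 < δ) (hδa : δ ≤ α) {s₀ w : M → ℂ}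
    (s1 : SmSec n k s₀) (s2 : L2 n μ k φ s₀ < ⊤) (w2 : L2 n μ k φ w < ⊤)
    (w3 : ∀ x, w x ≠ 0 → t x ≤ α) (w4 : ∀ x, ∃ e : Chart n M, Hc e ∧ x ∈ e.source ∧ ∀ j,
      dzb j (co k s₀ e) (e x) = co k w e (e x) * dzb j (fun y => ((t (e.symm y) : ℝ) : ℂ)) (e x)) :
    ∃ h ∈ V, ∫⁻ x, ENNReal.ofReal (mm α (t x) *
      (nrm n k (s₀ - h) x * Real.exp (-ph n φ t δ x))) ∂μ ≤
      ENNReal.ofReal (24 * α ^ 2) * L2 n μ k (ph n φ t δ) w := by
  have tc := a.sm_cont t ht
  have p1 : ∀ x, 0 < t x + α := fun x => by linarith [(h01 x).1]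
  have p2 : ∀ x, 0 < t x + δ := fun x => by linarith [(h01 x).1]
  have y0 : ∀ x, 3 / 2 ≤ yy α (t x) := fun x => y_ge ha ha1 (h01 x).1 (h01 x).2
  have y1 : ∀ x, 0 < yy α (t x) := fun x => by linarith [y0 x]
  have z := fun s => nrm_nonneg a b k s
  have cψ : Continuous (ph n φ t δ) := (a.sm_cont φ hφ).add
    (continuous_const.mul ((tc.add continuous_const).log fun x => (p2 x).ne'))
  have fin : ∀ s, L2 n μ k φ s < ⊤ → L2 n μ k (ph n φ t δ) s < ⊤ := fun s =>
    l2_lt (c := (δ ^ n)⁻¹) (by positivity) fun x => by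
      rw [exp_ph φ (p2 x), mul_left_comm]
      have := z s x
      have := (h01 x).1
      gcongr
      linarith
  have hV' : V ≤ sl v k cψ := fun s hs =>
    ⟨smSec_of_isSec ((hV s).1 hs).1, fin s ((hV s).1 hs).2⟩
  obtain ⟨h₀, hh, H⟩ := proj a b v cψ V hV' (s₀ := s₀) ⟨s1, fin _ s2⟩
  refine ⟨h₀, hh, ?_⟩
  have hu : s₀ - h₀ ∈ sl v k cψ := Submodule.sub_mem _ ⟨s1, fin _ s2⟩ (hV' hh)
  have w5 : ∀ x, ∃ e : Chart n M, Hc e ∧ x ∈ e.source ∧ ∀ j, dzb j (co k (s₀ - h₀) e) (e x) =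
      co k w e (e x) * dzb j (fun y => ((t (e.symm y) : ℝ) : ℂ)) (e x) := fun x => by
    obtain ⟨e, he, hx, hd⟩ := w4 x
    refine ⟨e, he, hx, fun j => ?_⟩
    have q1 := (((hV h₀).1 hh).1 e he _ (e.map_source hx)).differentiableAt
    rw [show co k (s₀ - h₀) e = _ from funext (co_sub k s₀ h₀ e),
      dzb_sub j ((s1 e he _ (e.map_source hx)).differentiableAt (by simp)) (q1.restrictScalars ℝ),
      dzb_hol q1, sub_zero, hd]
  generalize s₀ - h₀ = u at hu H w5 ⊢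
  set ψ := ph n φ t δ with hψ
  set χ : M → ℝ := fun x => φ x + gg n α δ (t x) with hχ
  have sχ : Sm n χ := fun e he z hz =>
    (hφ e he z hz).add (ContDiffAt.comp (g := gg n α δ) z (g_sm (p1 _) (p2 _) (y1 _))
      (ht e he z hz))
  have ex : ∀ x, Real.exp (-χ x) = yy α (t x) * Real.exp (-ψ x) := fun x => by
    rw [show -χ x = Real.log (yy α (t x)) + -ψ x by simp only [hχ, hψ, ph, gg]; ring,
      Real.exp_add, Real.exp_log (y1 x)]
  set U : M → ℂ := fun x => (((yy α (t x))⁻¹ : ℝ) : ℂ) * u x with hU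
  have U1 : SmSec n k U := smSec_mulf (F := fun r => (yy α r)⁻¹) ht
    (fun x => (y_sm (p1 x)).inv (y1 x).ne') hu.1
  have U2 : L2 n μ k χ U < ⊤ := l2_lt (c := 1) zero_le_one (fun x => by
    have q1 : (yy α (t x))⁻¹ ≤ 1 := inv_le_one_of_one_le₀ (by linarith [y0 x])
    have q2 := y1 x
    have q3 : 0 ≤ nrm n k u x * Real.exp (-ψ x) := mul_nonneg (z u x) (Real.exp_pos _).le
    rw [hU, nrm_mulf, ex, Complex.norm_real, Real.norm_eq_abs, sq_abs]
    calc _ = (yy α (t x))⁻¹ * (nrm n k u x * Real.exp (-ψ x)) := by field_simp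
      _ ≤ _ := by gcongr) hu.2
  set N : (M → ℂ) → M → ℝ := fun s x => nrm n k s x * Real.exp (-ψ x) with hN
  have N0 : ∀ s x, 0 ≤ N s x := fun s x => mul_nonneg (z s x) (Real.exp_pos _).le
  have m0 : ∀ x, 0 < mm α (t x) := fun x => m_pos ha ha1 (h01 x).1 (h01 x).2
  have m1 : ∀ x, 0 ≤ (yy α (t x))⁻¹ - mm α (t x) / 3 := fun x => by
    linarith [m0 x, m_le ha ha1 (h01 x).1 (h01 x).2]
  have cy : Continuous fun x => yy α (t x) :=
    continuous_iff_continuousAt.2 fun x => (y_sm (p1 x)).continuousAt.comp tc.continuousAt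
  have cm : Continuous fun x => mm α (t x) := by
    have c1 : Continuous fun x => pp α (t x) := continuous_const.add
      (continuous_const.div ((tc.add continuous_const).pow 2) fun x => (pow_pos (p1 x) 2).ne')
    have c2 : Continuous fun x => qq α (t x) :=
      continuous_iff_continuousAt.2 fun x => (q_sm (p1 x)).continuousAt.comp tc.continuousAt
    exact c1.div ((c1.mul cy).add (tc.mul (c2.pow 2)))
      fun x => (d_pos ha ha1 (h01 x).1 (h01 x).2).ne'
  have mA : Measurable fun x => ENNReal.ofReal (((yy α (t x))⁻¹ - mm α (t x) / 3) * N u x) :=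
    meas b cψ hu.1 ((cy.inv₀ fun x => (y1 x).ne').sub (cm.div_const 3))
  set A := ∫⁻ x, ENNReal.ofReal (((yy α (t x))⁻¹ - mm α (t x) / 3) * N u x) ∂μ with hA
  have A1 : A < ⊤ := (lintegral_mono fun x => ENNReal.ofReal_le_ofReal
    (mul_le_of_le_one_left (N0 u x) (by
      linarith [m0 x, inv_le_one_of_one_le₀ (show 1 ≤ yy α (t x) by linarith [y0 x])]))).trans_lt
    hu.2
  have a8 : 0 ≤ 8 * α ^ 2 := by positivity
  have A2 : ∫⁻ x, ENNReal.ofReal (((yy α (t x))⁻¹ - mm α (t x) / 3) * N u x +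
      8 * α ^ 2 * N w x) ∂μ = A + ENNReal.ofReal (8 * α ^ 2) * L2 n μ k ψ w := by
    rw [L2, ← lintegral_const_mul' _ _ ENNReal.ofReal_ne_top, hA, ← lintegral_add_left mA]
    refine lintegral_congr fun x => ?_
    rw [ENNReal.ofReal_add (mul_nonneg (m1 x) (N0 u x)) (mul_nonneg a8 (N0 w x)),
      ENNReal.ofReal_mul a8]
  have A3 : A + ENNReal.ofReal (8 * α ^ 2) * L2 n μ k ψ w ≠ ⊤ :=
    (ENNReal.add_lt_top.2 ⟨A1, ENNReal.mul_lt_top ENNReal.ofReal_lt_top (fin w w2)⟩).ne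
  obtain ⟨s, q1, q2⟩ := h k χ sχ (fun e he z hz => (curv b hφ ht h01 hc ha ha1 hδ he hz).1) U U1 U2
    (fun x => ((yy α (t x))⁻¹ - mm α (t x) / 3) * N u x + 8 * α ^ 2 * N w x) _
    (fun x => add_nonneg (mul_nonneg (m1 x) (N0 u x)) (mul_nonneg a8 (N0 w x)))
    ENNReal.toReal_nonneg (fun x => by
      obtain ⟨e, he, hx, hd⟩ := w5 x
      have hz := e.map_source hx
      obtain ⟨c1, c2⟩ := curv b hφ ht h01 hc ha ha1 hδ he hz
      refine ⟨e, he, hx, ?_⟩
      have d1 := (ht e he _ hz).differentiableAt (by simp)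
      have d2 := e_der (p1 (e.symm (e x))) (y1 _)
      have d4 : DifferentiableAt ℝ (fun y => (yy α (t (e.symm y)))⁻¹) (e x) :=
        DifferentiableAt.comp (g := fun s => (yy α s)⁻¹) (e x) d2.differentiableAt d1
      have d3 : ∀ j, dzb j (co k U e) (e x) = ((((yy α (t x))⁻¹ : ℝ) : ℂ) * co k w e (e x) +
          (qq α (t x) / yy α (t x) ^ 2 : ℝ) * co k u e (e x)) *
          dzb j (fun y => ((t (e.symm y) : ℝ) : ℂ)) (e x) := fun j => by
        rw [hU, co_mulf, dzb_mul j (differentiableAt_ofReal d4)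
          ((hu.1 e he _ hz).differentiableAt (by simp)),
          dzb_comp_real j (u := fun y => t (e.symm y)) d2 d1, hd, e.left_inv hx]
        ring
      have k1 := key ha ha1 (h01 x).1 (h01 x).2 (co k u e (e x)) (co k w e (e x)) fun hw =>
        w3 x fun h0 => hw (by rw [co, e.left_inv hx, h0, mul_zero])
      have k2 : ∀ s, N s x * Real.exp (wt k χ e (e x)) * vd e (e x) =
          ‖co k s e (e x)‖ ^ 2 * (yy α (t x))⁻¹ := fun s => by
        have k3 := b.nrm_wt k χ s e he _ hz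
        rw [e.left_inv hx, ex, Real.exp_neg (wt k χ e (e x))] at k3
        have := y1 x
        have := Real.exp_pos (wt k χ e (e x))
        simp only [hN]
        field_simp
        field_simp at k3
        linear_combination k3
      rw [e.left_inv hx] at c2
      rw [bb_smul d3, show (((yy α (t x))⁻¹ - mm α (t x) / 3) * N u x + 8 * α ^ 2 * N w x) *
        Real.exp (wt k χ e (e x)) * vd e (e x) = (((yy α (t x))⁻¹ - mm α (t x) / 3) *
        ‖co k u e (e x)‖ ^ 2 + 8 * α ^ 2 * ‖co k w e (e x)‖ ^ 2) * (yy α (t x))⁻¹ by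
        linear_combination ((yy α (t x))⁻¹ - mm α (t x) / 3) * k2 u + 8 * α ^ 2 * k2 w]
      convert (c1.smul (Complex.zero_le_real.2 (sub_nonneg.2 k1))).add
        (c2.smul (Complex.zero_le_real.2 (sq_nonneg ‖(((yy α (t x))⁻¹ : ℝ) : ℂ) * co k w e (e x) +
          (qq α (t x) / yy α (t x) ^ 2 : ℝ) * co k u e (e x)‖))) using 1
      rw [Complex.ofReal_sub, Complex.ofReal_mul _ (‖_‖ ^ 2)]
      module)
    (by rw [A2, ENNReal.ofReal_toReal A3])
  rw [ENNReal.ofReal_toReal A3] at q2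
  have q3 : s ∈ V := by
    have q4 := l2_add_lt v (a.sm_cont χ sχ) (smSec_sub (smSec_of_isSec q1) U1) U1
      (q2.trans_lt A3.lt_top) U2
    rw [sub_add_cancel] at q4
    refine (hV s).2 ⟨q1, l2_lt (c := 1) zero_le_one (fun x => ?_) q4⟩
    rw [one_mul]
    refine mul_le_mul_of_nonneg_left (Real.exp_le_exp.2 ?_) (z s x)
    have := g_nonpos (n := n) ha ha1 (h01 x).1 (h01 x).2 hδ hδa
    simp only [hχ]
    linarith
  have q5 := (twist a b cψ y1 ex hu.1 (hV' q3).1 (H s q3)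
    (Submodule.sub_mem _ hu (hV' q3)).2).trans q2
  have q6 : ∫⁻ x, ENNReal.ofReal ((yy α (t x))⁻¹ * N u x) ∂μ =
      A + ∫⁻ x, ENNReal.ofReal (mm α (t x) / 3 * N u x) ∂μ := by
    rw [hA, ← lintegral_add_left mA]
    refine lintegral_congr fun x => ?_
    rw [← ENNReal.ofReal_add (mul_nonneg (m1 x) (N0 u x))
      (mul_nonneg (by linarith [m0 x]) (N0 u x))]
    congr 1
    ring
  have q7 := (ENNReal.add_le_add_iff_left A1.ne).1 (q6.ge.trans q5)
  have t3 : (0 : ℝ) ≤ 3 := by norm_num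
  calc _ = ENNReal.ofReal 3 * ∫⁻ x, ENNReal.ofReal (mm α (t x) / 3 * N u x) ∂μ := by
        rw [← lintegral_const_mul' _ _ ENNReal.ofReal_ne_top]
        refine lintegral_congr fun x => ?_
        rw [← ENNReal.ofReal_mul t3]
        congr 1
        ring
    _ ≤ ENNReal.ofReal 3 * (ENNReal.ofReal (8 * α ^ 2) * L2 n μ k ψ w) := by gcongr
    _ = _ := by
        rw [← mul_assoc, ← ENNReal.ofReal_mul t3]
        congr 2
        ring

end Vale.Agent.P253Z.T2.Ot
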