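import Vale.Agent.P253Z.T2.An

/-!
# P253Z, T2: the abstract form of the extension theorem of Ohsawa and Takegoshi at a point
-/

open scoped Manifold ContDiff Bundle ENNReal Topology ComplexConjugate ComplexOrder
open Bundle IsManifold MeasureTheory Set Metric Filter Vale.Agent.P253.Mfd
open Vale.Agent.P272.K (Cm dz dzb cHess jacM Chart)

noncomputable section

namespace Vale.Agent.P253Z.T2

variable {n : ℕ} {M : Type} [MetricSpace M] [ChartedSpace (Cm n) M]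
  [RiemannianBundle (fun x : M => TangentSpace 𝓘(ℝ, Cm n) x)]

/-- the matrix `N ∂∂̄ t + t Θ` with `N = n + 2` -/
def xm (k : ℤ) (φ t : M → ℝ) (e : Chart n M) (z : Cm n) : Matrix (Fin n) (Fin n) ℂ :=
  ((n + 2 : ℝ) : ℂ) • cHess (fun y => t (e.symm y)) z + ((t (e.symm z) : ℝ) : ℂ) • th k φ e z

variable (n) in
/-- the curvature `Θ` of `φ` is nonnegative and dominates `-N ∂∂̄ log t` -/
def Curv (k : ℤ) (φ t : M → ℝ) : Prop :=
  ∀ e : Chart n M, Hc e → ∀ z ∈ e.target, (th k φ e z).PosSemidef ∧ (xm k φ t e z).PosSemidef ∧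
    (((t (e.symm z) : ℝ) : ℂ) • xm k φ t e z -
      ((n + 2 : ℝ) : ℂ) • bb (fun y => ((t (e.symm y) : ℝ) : ℂ)) z).PosSemidef

/-- the function `∑ |σ_i|² e^{-κ} / 2` -/
def tf (m : ℕ) (κ : M → ℝ) (σ : Fin n → M → ℂ) (y : M) : ℝ :=
  (∑ i, nrm n (-m) (σ i) y) * Real.exp (-κ y) / 2

variable (n M) in
/-- **LOGP**: the curvature conditions for `t = tf m κ σ` -/
def LOGP : Prop :=
  ∀ (k : ℤ) (m : ℕ) (ψ κ : M → ℝ) (σ : Fin n → M → ℂ), Sm n κ → (∀ i, IsSec n (-m) (σ i)) →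
    Pos n (1 - m) κ → (∀ e : Chart n M, Hc e → ∀ z ∈ e.target,
      (th k ψ e z - ((n + 2 : ℝ) : ℂ) • th (1 - m) κ e z).PosSemidef) →
    Sm n (tf m κ σ) ∧ Curv n k ψ (tf m κ σ)

variable [MeasurableSpace M]

variable (n) in
/-- **OTA**: extension from a nondegenerate zero of `t`, with a universal constant -/
def OTA (μ : Measure M) : Prop :=
  ∃ C : ℝ, 0 < C ∧ ∀ (k : ℤ) (φ t : M → ℝ) (V : Submodule ℂ (M → ℂ)), Sm n φ → Sm n t →
    (∀ x, 0 ≤ t x ∧ t x ≤ 1 / 2) → Curv n k φ t →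
    (∀ s, s ∈ V ↔ IsSec n k s ∧ L2 n μ k φ s < ⊤) → Module.Finite ℂ V →
    ∀ (e : Chart n M) (ζ : Cm n) (c : ℝ), Hc e → ζ ∈ e.target → 0 < c → t (e.symm ζ) = 0 →
    (∀ᶠ z in 𝓝 ζ, c * ‖z - ζ‖ ^ 2 ≤ t (e.symm z)) →
    ∃ h, IsSec n k h ∧ 1 / 2 ≤ ‖co k h e ζ‖ ∧
      L2 n μ k φ h ≤ ENNReal.ofReal (C * Real.exp (-wt k φ e ζ) / c ^ n)

end Vale.Agent.P253Z.T2
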