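import Vale.Agent.P253Z.Core
import Vale.Agent.P253Z.VS.Alg

/-!
# P253Z, T2: the output statement

`Aff`: the complement of the zeros of a tame section is an affine variety, finite and etale over
the complement of a hypersurface of `ℂⁿ`. `FF`: the field of ratios of tame sections.
-/

open scoped Manifold ContDiff Bundle ENNReal Topology
open Bundle IsManifold MeasureTheory Set Metric Filter Vale.Agent.P253.Mfd
open Vale.Agent.P272.K (Cm Chart)

noncomputable section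

namespace Vale.Agent.P253Z.T2

open VS (ev)

variable {n : ℕ} {M : Type} [MetricSpace M] [ChartedSpace (Cm n) M]

/-- the map `(s_1 / s_0, …, s_n / s_0)` -/
def Phi (s₀ : M → ℂ) (s : Fin n → M → ℂ) (x : M) : Cm n := fun i => s i x / s₀ x

variable (n) in
/-- The field `K` of the ratios of sections of the same degree of the graded algebra `T`:
`O x` is the ring of the elements that are holomorphic at `x`, and `val f x` is the value. -/
structure FF (T : ℕ → Submodule ℂ (M → ℂ)) (K : Type) [Field K] [Algebra ℂ K] where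
  /-- the elements that are holomorphic at `x` -/
  O : M → Subalgebra ℂ K
  /-- the values -/
  val : K → M → ℂ
  val_add : ∀ x, ∀ f ∈ O x, ∀ g ∈ O x, val (f + g) x = val f x + val g x
  val_mul : ∀ x, ∀ f ∈ O x, ∀ g ∈ O x, val (f * g) x = val f x * val g x
  val_const : ∀ x c, val (algebraMap ℂ K c) x = c
  nhds : ∀ x, ∀ f ∈ O x, ∀ᶠ y in 𝓝 x, f ∈ O y
  hol : ∀ x, ∀ f ∈ O x, ∀ e : Chart n M, Hc e → x ∈ e.source →
    AnalyticAt ℂ (fun z => val f (e.symm z)) (e x)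
  inj : ∀ x, ∀ f ∈ O x, (∀ᶠ y in 𝓝 x, val f y = 0) → f = 0
  inv : ∀ x, ∀ f ∈ O x, val f x ≠ 0 → f⁻¹ ∈ O x
  /-- Riemann's extension theorem -/
  bdd : ∀ x f (C : ℝ), (∀ᶠ y in 𝓝 x, f ∈ O y → ‖val f y‖ ≤ C) → f ∈ O x
  rat : ∀ m, ∀ s ∈ T m, ∀ t ∈ T m, t ≠ 0 →
    ∃ f, ∀ y, t y ≠ 0 → f ∈ O y ∧ val f y = s y / t y
  surj : ∀ f, ∃ m, ∃ s ∈ T m, ∃ t ∈ T m, t ≠ 0 ∧ ∀ y, t y ≠ 0 → f ∈ O y ∧ val f y = s y / t y

variable (n M) in
/-- **FFE**: the field exists -/
def FFE : Prop :=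
  ∀ T : ℕ → Submodule ℂ (M → ℂ), (∀ m, ∀ s ∈ T m, IsSec n (-m) s) → VS.Gr T →
    ∃ (K : Type) (_ : Field K) (_ : Algebra ℂ K), Nonempty (FF n T K)

variable [RiemannianBundle (fun x : M => TangentSpace 𝓘(ℝ, Cm n) x)] [MeasurableSpace M]

/-- An etale embedding of the complement `U` of the zeros of `σ` into the hypersurface `P = 0`
which generates the field of ratios. -/
structure Pre {μ : Measure M} {p : M} (F : Fr n μ p) where
  /-- the degree of the coordinates -/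
  m : ℕ
  /-- the degree of the primitive element -/
  l : ℕ
  /-- the degree of `σ` -/
  N : ℕ
  /-- the denominator of the coordinates -/
  s₀ : M → ℂ
  /-- the numerators of the coordinates -/
  s : Fin n → M → ℂ
  /-- the numerator of the primitive element -/
  u : M → ℂ
  /-- the denominator of the primitive element -/
  v : M → ℂ
  /-- the section that defines `U` -/
  σ : M → ℂ
  /-- the equation -/
  P : Polynomial (MvPolynomial (Fin n) ℂ)
  m_pos : 1 ≤ m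
  h₀ : InH n μ m s₀
  hs : ∀ i, InH n μ m (s i)
  hu : u ∈ F.Tame l
  hv : v ∈ F.Tame l
  hσ : σ ∈ F.Tame N
  σ_ne : σ ≠ 0
  monic : P.Monic
  ne₀ : ∀ x, σ x ≠ 0 → s₀ x ≠ 0
  nev : ∀ x, σ x ≠ 0 → v x ≠ 0
  etale : ∀ x, σ x ≠ 0 → ∀ e : Chart n M, Hc e → x ∈ e.source →
    Function.Bijective (fderiv ℂ (fun z => Phi s₀ s (e.symm z)) (e x))
  root : ∀ x, σ x ≠ 0 → ev P (Phi s₀ s x) (u x / v x) = 0
  simple : ∀ x, σ x ≠ 0 → ev P.derivative (Phi s₀ s x) (u x / v x) ≠ 0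
  inj : ∀ x y, σ x ≠ 0 → σ y ≠ 0 → Phi s₀ s x = Phi s₀ s y → u x / v x = u y / v y → x = y
  gen : ∀ k, ∀ a ∈ F.Tame k, ∀ b ∈ F.Tame k, b ≠ 0 →
    ∃ d : MvPolynomial (Fin n) ℂ, d ≠ 0 ∧ ∃ R : Polynomial (MvPolynomial (Fin n) ℂ),
      ∀ x, σ x ≠ 0 → b x ≠ 0 →
        MvPolynomial.eval (Phi s₀ s x) d * (a x / b x) = ev R (Phi s₀ s x) (u x / v x)

/-- The embedding is onto the affine variety `P = 0`, `Q ≠ 0`. -/
structure Aff {μ : Measure M} {p : M} (F : Fr n μ p) extends Pre F where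
  /-- the hypersurface that is removed -/
  Q : MvPolynomial (Fin n) ℂ
  neQ : ∀ x, σ x ≠ 0 → MvPolynomial.eval (Phi s₀ s x) Q ≠ 0
  onto : ∀ ζ t, MvPolynomial.eval ζ Q ≠ 0 → ev P ζ t = 0 →
    ∃ x, σ x ≠ 0 ∧ Phi s₀ s x = ζ ∧ u x / v x = t

variable (n) in
/-- **PRE**: the refined form of Siegel-Thimm -/
def PRE (μ : Measure M) : Prop := ∀ (p : M) (F : Fr n μ p), Nonempty (Pre F)

variable (n) in
/-- **T2** -/
def AFF (μ : Measure M) : Prop := ∀ (p : M) (F : Fr n μ p), Nonempty (Aff F)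

end Vale.Agent.P253Z.T2
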