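import Vale.Agent.P253Z.T2.An
import Mathlib.Analysis.Polynomial.CauchyBound
import Mathlib.Topology.Algebra.MvPolynomial

/-!
P253Z, T2: ratios of tame sections are bounded off a hypersurface.
-/

open scoped Manifold ContDiff Bundle ENNReal Topology NNReal
open Bundle IsManifold MeasureTheory Set Metric Filter Vale.Agent.P253.Mfd
open Vale.Agent.P272.K (Cm Chart)

noncomputable section

namespace Vale.Agent.P253Z.T2

open VS (ev)

variable {n : ℕ}

/-- the roots are locally bounded where the leading coefficient does not vanish -/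
theorem Rtb.roots (Q : Polynomial (MvPolynomial (Fin n) ℂ)) {ζ : Cm n}
    (h : MvPolynomial.eval ζ Q.leadingCoeff ≠ 0) :
    ∃ ε C : ℝ, 0 < ε ∧ ∀ z ∈ ball ζ ε, ∀ t, ev Q z t = 0 → ‖t‖ ≤ C := by
  have hc : ∀ d : MvPolynomial (Fin n) ℂ, Continuous fun z : Cm n => MvPolynomial.eval z d :=
    fun d => MvPolynomial.continuous_eval d
  let f : Cm n → ℝ := fun z => (∑ i ∈ Finset.range Q.natDegree, ‖MvPolynomial.eval z (Q.coeff i)‖) /
    ‖MvPolynomial.eval z Q.leadingCoeff‖ + 1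
  have h1 : ContinuousAt f ζ :=
    ((continuous_finsetSum _ fun i _ => (hc _).norm).continuousAt.div (hc _).norm.continuousAt
      (norm_ne_zero_iff.2 h)).add continuousAt_const
  obtain ⟨ε, hε, h2⟩ := Metric.eventually_nhds_iff_ball.1
    ((h1.eventually_le_const (lt_add_one _)).and ((hc _).continuousAt.eventually_ne h))
  refine ⟨ε, f ζ + 1, hε, fun z hz t ht => le_trans ?_ (h2 z hz).1⟩
  have h3 := (h2 z hz).2
  have h4 := Polynomial.natDegree_map_of_leadingCoeff_ne_zero _ h3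
  have h5 := Polynomial.leadingCoeff_map_of_leadingCoeff_ne_zero _ h3
  have h6 : Q.map (MvPolynomial.eval z) ≠ 0 := fun h0 => h3 (by rw [← h5, h0]; rfl)
  have h7 := (Polynomial.IsRoot.norm_lt_cauchyBound h6 ht).le
  have h8 : (Finset.range Q.natDegree).sup (fun i => ‖(Q.map (MvPolynomial.eval z)).coeff i‖₊) ≤
      ∑ i ∈ Finset.range Q.natDegree, ‖MvPolynomial.eval z (Q.coeff i)‖₊ :=
    Finset.sup_le fun i hi => by
      rw [Polynomial.coeff_map]
      exact Finset.single_le_sum (f := fun i => ‖MvPolynomial.eval z (Q.coeff i)‖₊)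
        (fun _ _ => zero_le) hi
  rw [Polynomial.cauchyBound, h4, h5] at h7
  have h9 := h7.trans (add_le_add_left (div_le_div_of_nonneg_right h8 zero_le) 1)
  have h10 := NNReal.coe_le_coe.2 h9
  push_cast at h10
  exact h10

variable {M : Type} [MetricSpace M] [ChartedSpace (Cm n) M]
  [RiemannianBundle (fun x : M => TangentSpace 𝓘(ℝ, Cm n) x)] [MeasurableSpace M] {μ : Measure M}

theorem rtb (hn : 1 ≤ n) (A : All n μ) : RTB n μ := by
  intro p F m s₀ s hm h₀ hs l a ha b hb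
  obtain ⟨C, hC⟩ := dim_tame A.ord A.jet F
  obtain ⟨J, hJ⟩ := VS.count hn ⟨one_tame F, fun _ _ _ h1 _ h2 => mul_tame A.a F h1 h2⟩ hC hm h₀ hs
  obtain ⟨Q, h1, -, h2⟩ := hJ l a ha b hb
  refine ⟨Q.leadingCoeff, Polynomial.leadingCoeff_ne_zero.2 h1, fun ζ hζ => ?_⟩
  obtain ⟨ε, D, hε, h3⟩ := Rtb.roots Q hζ
  exact ⟨ε, D, hε, fun x h4 h5 h6 => h3 _ h6 _ (h2 x h4 h5)⟩

end Vale.Agent.P253Z.T2
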