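import Vale.Agent.P253Z.T2.An
import Vale.Agent.P253Z.SCH
import Vale.Agent.P253.R2.H618.Rad

/-!
# P253Z, T2: the upper bounds of the Wronskian weight
-/

open scoped Manifold ContDiff Bundle ENNReal Topology ComplexConjugate ComplexOrder
open Bundle IsManifold MeasureTheory Set Metric Filter Vale.Agent.P253.Mfd
open Vale.Agent.P272.K (Cm dz dzb cHess jacM Chart)
open Vale.Agent.P253.R2.H618 (dist_le_near G_nonneg)

set_option linter.unusedSectionVars false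

noncomputable section

namespace Vale.Agent.P253Z.T2

open VS (ev Jac)

variable {n : ℕ} {M : Type} [MetricSpace M] [ChartedSpace (Cm n) M]
  [IsManifold 𝓘(ℂ, Cm n) 1 M] [IsManifold 𝓘(ℝ, Cm n) ∞ M]
  [RiemannianBundle (fun x : M => TangentSpace 𝓘(ℝ, Cm n) x)]
  [IsContMDiffRiemannianBundle 𝓘(ℝ, Cm n) ∞ (Cm n) (fun x : M => TangentSpace 𝓘(ℝ, Cm n) x)]
  [IsRiemannianManifold 𝓘(ℝ, Cm n) M] [CompleteSpace M] [ConnectedSpace M] [NoncompactSpace M]
  [MeasurableSpace M] [BorelSpace M] {μ : Measure M}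
  {m : ℕ} {s₀ : M → ℂ} {s : Fin n → M → ℂ} {w : M → ℝ}

namespace Wru

theorem det_le {G : Matrix (Fin n) (Fin n) ℂ} (h : G.PosDef) : G.det.re ≤ G.trace.re ^ n := by
  rw [h.1.det_eq_prod_eigenvalues, h.1.trace_eq_sum_eigenvalues]
  norm_cast
  change ∏ i, h.1.eigenvalues i ≤ (∑ i, h.1.eigenvalues i) ^ n
  refine (Finset.prod_le_prod (fun i _ => (h.eigenvalues_pos i).le) fun i _ =>
    Finset.single_le_sum (fun j _ => (h.eigenvalues_pos j).le) (Finset.mem_univ i)).trans_eq ?_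
  simp

theorem sec_pow (a : B1a n M) {Ω : M → ℂ} (h : IsSec n 1 Ω) : ∀ m : ℕ, IsSec n m (Ω ^ m)
  | 0 => (a.sec_zero _).2 mdifferentiable_const
  | m + 1 => by simpa [pow_succ] using a.sec_mul _ _ _ _ (sec_pow a h m) h

theorem sec_fun (a : B1a n M) {Ω t : M → ℂ} (h : IsSec n 1 Ω) (ht : IsSec n (-m) t) :
    IsSec n 0 fun y => t y * Ω y ^ m := by
  have := a.sec_mul _ _ _ _ ht (sec_pow a h m)
  rwa [neg_add_cancel] at this

theorem an_fun {f : M → ℂ} (hf : IsSec n 0 f) {e : Chart n M} (he : Hc e) {z : Cm n}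
    (hz : z ∈ e.target) : AnalyticAt ℂ (fun y => f (e.symm y)) z := by
  have h := hf e he z hz
  rwa [show co 0 f e = fun y => f (e.symm y) by funext y; simp [co]] at h

theorem fderiv_le (hK : IsKahler (Cm n) M) {e : Chart n M} (he : Hc e) {z : Cm n}
    (hz : z ∈ e.target) {f : M → ℂ} (hd : DifferentiableAt ℂ (fun y => f (e.symm y)) z) {K : ℝ}
    (hK0 : 0 ≤ K) (h : ∀ᶠ y in 𝓝 (e.symm z), ‖f y - f (e.symm z)‖ ≤ K * dist y (e.symm z))
    (v : Cm n) : ‖fderiv ℂ (fun y => f (e.symm y)) z v‖ ≤ 2 * K * √(chartG e z v v) := by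
  obtain ⟨δ, hδ, -, h1⟩ := dist_le_near hK he (e.map_target hz) one_pos
  rw [e.right_inv hz] at h1
  have h2 : HasDerivAt (fun t : ℝ => z + t • v) v 0 := by
    simpa using ((hasDerivAt_id (0 : ℝ)).smul_const v).const_add z
  have h3 : Tendsto (fun t : ℝ => z + t • v) (𝓝 0) (𝓝 z) := by simpa using h2.continuousAt.tendsto
  refine ((hd.hasFDerivAt.restrictScalars ℝ).comp_hasDerivAt_of_eq 0 h2 (by simp)).le_of_lip'
    (by positivity) ?_
  filter_upwards [((e.continuousAt_symm hz).tendsto.comp h3).eventually h,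
    h3.eventually (ball_mem_nhds z hδ)] with t h5 h6
  have h7 := h1 z (mem_ball_self hδ) _ h6
  simp only [add_sub_cancel_left, map_smul, smul_apply, smul_eq_mul, ← mul_assoc] at h7
  rw [Real.sqrt_mul (mul_self_nonneg t), Real.sqrt_mul_self_eq_abs, dist_comm] at h7
  simp only [Function.comp_apply, zero_smul, add_zero, sub_zero, Real.norm_eq_abs] at h5 ⊢
  nlinarith [mul_le_mul_of_nonneg_left h7 hK0]

theorem nrm_mul (b : B1b n M) (a : B1a n M) (t Ω : M → ℂ) (x : M) :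
    nrm n (-m) t x * nrm n 1 Ω x ^ m = ‖t x * Ω x ^ m‖ ^ 2 := by
  have h := b.vd_pos _ (a.chart x) _ (mem_chart_target _ x)
  simp only [nrm, neg_neg, zpow_natCast, zpow_neg, zpow_one, norm_mul, norm_pow, mul_pow, inv_pow]
  field_simp
  ring

theorem alg {f z D u : ℂ} {A L : ℝ} (h1 : ‖f * u + z * D‖ ≤ L * √u.re) (h2 : ‖D‖ ≤ L * √u.re)
    (h3 : ‖f‖ ≤ A) (h4 : ‖f * z‖ ≤ A) : ‖f‖ ^ 4 * u.re ≤ (2 * A * L) ^ 2 := by
  rcases le_or_gt u.re 0 with h | h
  · exact (mul_nonpos_of_nonneg_of_nonpos (by positivity) h).trans (sq_nonneg _)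
  have h5 := Real.sqrt_pos.2 h
  have h6 : ‖f‖ ^ 2 * √u.re * √u.re ≤ 2 * A * L * √u.re := by
    have e : f ^ 2 * u = f * (f * u + z * D) - f * z * D := by ring
    have h7 := norm_sub_le (f * (f * u + z * D)) (f * z * D)
    rw [← e, norm_mul, norm_mul, norm_mul (f * z), norm_pow] at h7
    have h8 := mul_le_mul h3 h1 (norm_nonneg _) ((norm_nonneg _).trans h3)
    have h9 := mul_le_mul h4 h2 (norm_nonneg _) ((norm_nonneg _).trans h3)
    rw [mul_assoc, Real.mul_self_sqrt h.le]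
    linarith [mul_le_mul_of_nonneg_left (Complex.re_le_norm u) (sq_nonneg ‖f‖)]
  refine le_trans (le_of_eq ?_) (pow_le_pow_left₀ (by positivity) (le_of_mul_le_mul_right h6 h5) 2)
  rw [mul_pow, Real.sq_sqrt h.le, ← pow_mul]

end Wru

open Wru

theorem wr_jac (a : B1a n M) (b : B1b n M) (h1 : PCX n M) (hm1 : 1 ≤ m) (h₀ : IsSec n (-m) s₀)
    (hs : ∀ i, IsSec n (-m) (s i)) (nn : ∀ x, 0 ≤ w x)
    (val : ∀ e : Chart n M, PC s₀ s e → ∀ z ∈ e.target,
      w (e.symm z) = nrm n (-m) s₀ (e.symm z) ^ 2 * ((hm e z)⁻¹).trace.re) (x : M) :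
    nrm n (-(m * (2 * n + 1) - 1 : ℕ)) (Jac s₀ s) x ≤ nrm n (-m) s₀ x * w x ^ n := by
  by_cases hJ : Jac s₀ s x = 0
  · have h := b.vd_pos _ (a.chart x) _ (mem_chart_target _ x)
    rw [nrm, hJ, norm_zero, zero_pow two_ne_zero, zero_mul]
    exact mul_nonneg (by unfold nrm; positivity) (pow_nonneg (nn x) n)
  obtain ⟨p1, p2⟩ := h1 m s₀ s hm1 h₀ hs
  obtain ⟨e, he, hx⟩ := p1 x hJ
  have hz := e.map_source hx
  have hD := b.vd_pos e he.1 _ hz
  have h2 := det_le (b.wpos e he.1 _ hz).inv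
  have h3 : ((hm e (e x))⁻¹).det.re = (vd e (e x))⁻¹ := by
    obtain ⟨r, hr⟩ : ∃ r : ℝ, (hm e (e x)).det = r :=
      ⟨(hm e (e x)).det.re, Complex.ext rfl (Complex.pos_iff.1 (b.wpos e he.1 _ hz).det_pos).2.symm⟩
    rw [Matrix.det_nonsing_inv, Ring.inverse_eq_inv, vd, hr, ← Complex.ofReal_inv, Complex.ofReal_re,
      Complex.ofReal_re]
  obtain ⟨k, hk⟩ : ∃ k, m * (2 * n + 1) = k + 1 := 
    Nat.exists_eq_add_one_of_ne_zero (Nat.mul_pos hm1 (Nat.succ_pos _)).ne'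
  have h4 := b.nrm_eq (-(m * (2 * n + 1) - 1 : ℕ)) (Jac s₀ s) e he.1 _ hz
  have h5 := b.nrm_eq (-m) s₀ e he.1 _ hz
  have h6 := val e he _ hz
  rw [e.left_inv hx] at h4 h5 h6
  rw [h6, h4, h5, (p2 e he _ hz).1, hk, neg_neg, neg_neg, zpow_natCast, zpow_natCast,
    Nat.add_sub_cancel]
  rw [h3] at h2
  calc _ = (‖co (-m) s₀ e (e x)‖ ^ 2 * vd e (e x) ^ m) ^ (2 * n + 1) * (vd e (e x))⁻¹ := by
        rw [mul_pow, ← pow_mul (vd e (e x)), hk, norm_pow]
        field_simp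
        ring
    _ ≤ (‖co (-m) s₀ e (e x)‖ ^ 2 * vd e (e x) ^ m) ^ (2 * n + 1) * ((hm e (e x))⁻¹).trace.re ^ n := by
        gcongr
    _ = _ := by ring

theorem wr_up (c : Ctx n μ) (a : B1a n M) (b : B1b n M) (h1 : PCX n M) (hm1 : 1 ≤ m)
    (h₀ : IsSec n (-m) s₀) (hs : ∀ i, IsSec n (-m) (s i)) (hJ : Jac s₀ s ≠ 0) (hw : Continuous w)
    (val : ∀ e : Chart n M, PC s₀ s e → ∀ z ∈ e.target,
      w (e.symm z) = nrm n (-m) s₀ (e.symm z) ^ 2 * ((hm e z)⁻¹).trace.re) :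
    ∃ C : ℝ, ∀ (Ω : M → ℂ) (x : M) (A : ℝ), IsSec n 1 Ω →
      (∀ y ∈ ball x 1, ‖s₀ y * Ω y ^ m‖ ≤ A ∧ ∀ i, ‖s i y * Ω y ^ m‖ ≤ A) →
      w x * nrm n 1 Ω x ^ (2 * m) ≤ C * A ^ 4 := by
  obtain ⟨C, hC, hS⟩ := sch c a
  obtain ⟨p1, p2⟩ := h1 m s₀ s hm1 h₀ hs
  refine ⟨n * (8 * C) ^ 2, fun Ω x A hΩ hA => ?_⟩
  have hA0 : 0 ≤ A := (norm_nonneg _).trans (hA x (mem_ball_self one_pos)).1
  have key : ∀ y ∈ ball x (1 / 2), Jac s₀ s y ≠ 0 →
      w y * nrm n 1 Ω y ^ (2 * m) ≤ n * (8 * C) ^ 2 * A ^ 4 := fun y hy hJy => by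
    obtain ⟨e, he, hx⟩ := p1 y hJy
    have hz := e.map_source hx
    have hb : ball y (1 / 2) ⊆ ball x 1 := ball_subset_ball' (by linarith [mem_ball.1 hy])
    have hd : ∀ t, IsSec n (-m) t → (∀ y ∈ ball x 1, ‖t y * Ω y ^ m‖ ≤ A) → ∀ v,
        ‖fderiv ℂ (fun z => t (e.symm z) * Ω (e.symm z) ^ m) (e y) v‖ ≤
          2 * (2 * C * A) * √(chartG e (e y) v v) := fun t ht h => by
      refine fderiv_le (f := fun y => t y * Ω y ^ m) c.kahler he.1 hz
        (an_fun (sec_fun a hΩ ht) he.1 hz).differentiableAt (by positivity) ?_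
      rw [e.left_inv hx]
      filter_upwards [ball_mem_nhds y (show (0 : ℝ) < 1 / 2 / 2 by norm_num)] with y' hy'
      exact (hS _ (sec_fun a hΩ ht) y _ A one_half_pos (fun u hu => h u (hb hu)) y' hy').trans_eq
        (by ring)
    have h6 := val e he _ hz
    rw [e.left_inv hx] at h6
    have h7 : w y * nrm n 1 Ω y ^ (2 * m) =
        ∑ i, ‖s₀ y * Ω y ^ m‖ ^ 4 * ((hm e (e y))⁻¹ i i).re := by
      rw [h6, mul_right_comm, mul_comm 2 m, pow_mul, ← mul_pow, nrm_mul b a, ← Finset.mul_sum,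
        Matrix.trace, Complex.re_sum, ← pow_mul]
      rfl
    rw [h7, mul_assoc]
    refine (Finset.sum_le_card_nsmul _ _ ((8 * C) ^ 2 * A ^ 4) fun i _ => ?_).trans_eq (by simp)
    have hp := b.wpos e he.1 _ hz
    obtain ⟨v, hv⟩ : ∃ v : Cm n, v = fun j => (hm e (e y))⁻¹ i j := ⟨_, rfl⟩
    have h8 : chartG e (e y) v v = ((hm e (e y))⁻¹ i i).re := by
      have h9 : ∀ k, ∑ j, hm e (e y) j k * (v j * conj (v k)) = if i = k then conj (v k) else 0 :=
        fun k => by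
          have := congrFun (congrFun (Matrix.nonsing_inv_mul _ (hp.det_pos.ne'.isUnit)) i) k
          rw [Matrix.mul_apply, Matrix.one_apply] at this
          simp only [← mul_assoc, ← Finset.sum_mul]
          simp only [hv, mul_comm (hm e (e y) _ k), this, ite_mul, one_mul, zero_mul]
      rw [chartG_apply, b.quad e he.1 _ hz, Finset.sum_comm, Finset.sum_congr rfl fun k _ => h9 k]
      simp [hv]
    have h9 : (fun z => s i (e.symm z) * Ω (e.symm z) ^ m) =ᶠ[𝓝 (e y)]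
        fun z => s₀ (e.symm z) * Ω (e.symm z) ^ m * z i := by
      filter_upwards [e.open_target.mem_nhds hz] with z hz
      have h2 := he.2 _ (e.map_target hz)
      have h3 := congrFun h2.2 i
      rw [e.right_inv hz, Phi] at h3
      rw [h3]
      field_simp [h2.1]
    have h10 := (an_fun (sec_fun a hΩ h₀) he.1 hz).differentiableAt.hasFDerivAt.fun_mul
      (hasFDerivAt_apply (𝕜 := ℂ) i (e y))
    have h11 := hd _ (hs i) (fun u hu => (hA u hu).2 i) v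
    have h12 := hd _ h₀ (fun u hu => (hA u hu).1) v
    have h13 := h9.self_of_nhds
    have h14 := hA y (hb (mem_ball_self one_half_pos))
    rw [h9.fderiv_eq, h10.fderiv] at h11
    simp only [e.left_inv hx] at h13 h11
    rw [h8] at h11 h12
    refine (alg (u := v i) (z := e y i) (by simpa [hv] using h11) (by simpa only [hv] using h12)
      h14.1 (h13 ▸ h14.2 i)).trans_eq' (by rw [hv]) |>.trans_eq (by ring)
  by_contra hn
  have hc : Continuous fun y => w y * nrm n 1 Ω y ^ (2 * m) := hw.mul ((b.nrm_cont 1 Ω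
    fun e he z hz => (hΩ e he z hz).contDiffAt.restrict_scalars ℝ).pow _)
  refine hJ (a.ident _ _ (VS.Jac_sec a hm1 h₀ hs) x ?_)
  filter_upwards [ball_mem_nhds x one_half_pos, hc.continuousAt.eventually_const_lt (not_le.1 hn)]
    with y g1 g2
  exact by_contra fun h => (key y g1 h).not_gt g2

end Vale.Agent.P253Z.T2
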